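import Vale.Agent.P287.Transport
import Vale.Agent.P287.Param
import Vale.Agent.P287.SmoothIrr

/-!
A smooth cubic fourfold containing a plane is rational as soon as the quadratic form over
`K = ℂ(s₀, s₁)` of its quadric surface fibration becomes similar, after adding a hyperbolic plane,
to a net of quadrics in `ℙ⁵`.
-/

namespace Vale.Agent.P287.H925.NetResult

open MvPolynomial Vale.Agent.P287

/-- The form `F` defines a rational hypersurface: the function field of `F = 0`, computed in the
chart `x₀ = 1`, is the field of rational functions in four variables over `ℂ`. -/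
def RationalHypersurface (F : MvPolynomial (Fin 6) ℂ) : Prop :=
  Nonempty (FractionRing (MvPolynomial (Fin 5) ℂ ⧸ Ideal.span {chart F}) ≃ₐ[ℂ]
    FractionRing (MvPolynomial (Fin 4) ℂ))

/-- `q` is the quadratic form of the quadric surface fibration of `F = 0` over the plane, given by
projection from the plane `x₀ = x₁ = x₂ = 0`:
`F(v₀, v₀ s₀, v₀ s₁, v₁, v₂, v₃) = v₀ q(v)`. -/
def IsFibrationForm (F : MvPolynomial (Fin 6) ℂ) (q : QuadraticForm RatK (Fin 4 → RatK)) : Prop :=
  ∀ v : Fin 4 → RatK, aeval (wvec tvec v) F = v 0 * q v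

/-- `q`, plus a hyperbolic plane, is similar over `K = ℂ(s₀, s₁)` to the form
`Q₀ + s₀ Q₁ + s₁ Q₂` in six variables. -/
def SimilarToNet (q : QuadraticForm RatK (Fin 4 → RatK))
    (Q : Fin 3 → Matrix (Fin 6) (Fin 6) ℂ) : Prop :=
  ∃ l : RatK, l ≠ 0 ∧ ∃ φ : ((Fin 4 → RatK) × RatK × RatK) ≃ₗ[RatK] (Fin 6 → RatK),
    ∀ v a b, net Q tvec (φ (v, a, b)) = l * (q v + a * b)

/-- copy of the theorem `NetOfQuadrics.result` of helper597 -/
theorem net_result (F : MvPolynomial (Fin 6) ℂ) (hF : F.IsHomogeneous 3) (hs : SmoothForm F)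
    (q : QuadraticForm RatK (Fin 4 → RatK)) (hq : IsFibrationForm F q)
    (Q : Fin 3 → Matrix (Fin 6) (Fin 6) ℂ) (hQ : SimilarToNet q Q) :
    RationalHypersurface F := by
  classical
  have hchar : CharZero RatK := charZero_of_injective_algebraMap (algebraMap ℂ RatK).injective
  -- the cubic contains the plane
  obtain ⟨B, hB⟩ := exists_cubic F hF (by
    intro y
    have h1 := hq ![0, algebraMap ℂ RatK (y 0), algebraMap ℂ RatK (y 1), algebraMap ℂ RatK (y 2)]
    have h2 : (wvec tvec ![0, algebraMap ℂ RatK (y 0), algebraMap ℂ RatK (y 1),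
        algebraMap ℂ RatK (y 2)] : Fin 6 → RatK) =
        fun i => algebraMap ℂ RatK ((![0, 0, 0, y 0, y 1, y 2] : Fin 6 → ℂ) i) := by
      funext i
      fin_cases i <;> simp [wvec]
    rw [h2] at h1
    have h3 : aeval (fun i => algebraMap ℂ RatK ((![0, 0, 0, y 0, y 1, y 2] : Fin 6 → ℂ) i)) F =
        algebraMap ℂ RatK (aeval ![0, 0, 0, y 0, y 1, y 2] F) := by
      have := MvPolynomial.comp_aeval_apply (![0, 0, 0, y 0, y 1, y 2] : Fin 6 → ℂ)
        (Algebra.ofId ℂ RatK) F
      exact this.symm
    rw [h3] at h1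
    simp only [Matrix.cons_val_zero, zero_mul] at h1
    exact (map_eq_zero (algebraMap ℂ RatK)).mp h1)
  subst hB
  have nd := nondegenerate_of_smooth B hs
  have hp := prime_of_smooth B hs
  -- the two descriptions of the quadratic form agree
  have hqq : ∀ v : Fin 4 → RatK, q v = qf (qmat B) v := by
    have h1 : ∀ v : Fin 4 → RatK, v 0 ≠ 0 → q v = qf (qmat B) v := by
      intro v hv
      have := hq v
      rw [aeval_cubic_wvec] at this
      have h2 := mul_left_cancel₀ hv this
      rw [qf_qmat, ← h2]
      simp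
    intro v
    by_cases hv : v 0 = 0
    · have e1 := h1 (Pi.single 0 1 + v) (by simp [hv])
      have e2 := h1 (Pi.single 0 1 - v) (by simp [hv])
      have e3 := h1 (Pi.single 0 1) (by simp)
      have p1 := QuadraticMap.map_add q (Pi.single 0 1) v
      have p2 := QuadraticMap.map_add q (Pi.single 0 1) (-v)
      rw [QuadraticMap.map_neg, QuadraticMap.polar_neg_right] at p2
      rw [sub_eq_add_neg] at e2
      rw [p1, qf_add] at e1
      rw [p2, qf_add] at e2
      have hneg : (-v) = (-1 : RatK) • v := by simp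
      rw [hneg, qf_smul, pf_smul_right] at e2
      have : 2 * q v = 2 * qf (qmat B) v := by
        linear_combination e1 + e2 - 2 * e3
      exact mul_left_cancel₀ two_ne_zero this
    · exact h1 v hv
  obtain ⟨l, hl, φ, hφ⟩ := hQ
  have hφ' : ∀ v a b, net Q tvec (φ (v, a, b)) = l * (qf (qmat B) v + a * b) := by
    intro v a b
    rw [hφ, hqq]
  obtain ⟨x, hx, hQx⟩ := exists_base_point Q
  obtain ⟨⟨v0, a, b⟩, hxφ⟩ := φ.surjective (cst RatK x)
  by_cases ha : a = 0
  · by_cases hb : b = 0
    · subst ha hb
      have hv0 : v0 ≠ 0 := by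
        rintro rfl
        have : (φ ((0 : Fin 4 → RatK), 0, 0)) = 0 := φ.map_zero
        rw [this] at hxφ
        apply hx
        funext i
        have := congrFun hxφ.symm i
        simp only [cst, Pi.zero_apply] at this
        exact (map_eq_zero (algebraMap ℂ RatK)).mp this
      have hn : net Q tvec (cst RatK x) = 0 := by
        rw [net]
        refine Finset.sum_eq_zero fun k _ => ?_
        rw [qf_cst, hQx, map_zero, mul_zero]
      rw [← hxφ, hφ', mul_zero, add_zero] at hn
      exact rational_of_isotropic B hp nd v0 hv0 ((mul_eq_zero.mp hn).resolve_left hl)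
    · -- exchange the two hyperbolic coordinates
      let σ : ((Fin 4 → RatK) × RatK × RatK) ≃ₗ[RatK] ((Fin 4 → RatK) × RatK × RatK) :=
        LinearEquiv.prodCongr (LinearEquiv.refl RatK _) (LinearEquiv.prodComm RatK RatK RatK)
      have hσ : ∀ v a b, (σ.trans φ) (v, a, b) = φ (v, b, a) := fun v a b => rfl
      obtain ⟨P, N⟩ := exists_netData (q := qmat B) hl (σ.trans φ) (by
        intro v a b
        rw [hσ, hφ']
        ring) x hx hQx v0 b a (by rw [hσ, hxφ]) hb
      exact rational_of_netData B hp nd N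
  · obtain ⟨P, N⟩ := exists_netData (q := qmat B) hl φ hφ' x hx hQx v0 a b hxφ.symm ha
    exact rational_of_netData B hp nd N

end Vale.Agent.P287.H925.NetResult
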