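import Vale.Agent.P287.H925.Defs

open MvPolynomial Matrix

namespace Vale.Agent.P287.H925

/-- scaling of the variables of a homogeneous polynomial -/
lemma aeval_scale {σ k S : Type*} [CommSemiring k] [CommSemiring S] [Algebra k S]
    {p : MvPolynomial σ k} {n : ℕ} (hp : p.IsHomogeneous n) (c : S) (x : σ → S) :
    aeval (fun i => c * x i) p = c ^ n * aeval x p := by
  rw [aeval_def, aeval_def, eval₂_eq, eval₂_eq, Finset.mul_sum]
  refine Finset.sum_congr rfl fun d hd => ?_
  have h1 : ∑ i ∈ d.support, d i = n := (hp.degree_eq_sum_deg_support hd).symm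
  have h2 : ∏ i ∈ d.support, (c * x i) ^ d i = c ^ n * ∏ i ∈ d.support, x i ^ d i := by
    rw [← h1, ← Finset.prod_pow_eq_pow_sum, ← Finset.prod_mul_distrib]
    exact Finset.prod_congr rfl fun i _ => mul_pow _ _ _
  rw [h2]; ring

variable {k : Type*} [Field k]

lemma eval_eq_aeval {σ : Type*} (x : σ → k) (p : MvPolynomial σ k) : eval x p = aeval x p :=
  (RingHom.congr_fun (coe_aeval_eq_eval x) p).symm

lemma eval_dehom {n : ℕ} (p : MvPolynomial (Fin (n + 1)) k) (x : Fin n → k) :
    eval x (dehom p) = eval (Fin.cons 1 x) p := by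
  rw [eval_eq_aeval, eval_eq_aeval, dehom, ← AlgHom.comp_apply, comp_aeval]
  congr 2
  funext i
  refine Fin.cases ?_ (fun i => ?_) i <;> simp

lemma dehom_inj [Infinite k] {n d : ℕ} {p : MvPolynomial (Fin (n + 1)) k}
    (hp : p.IsHomogeneous d) (h : dehom p = 0) : p = 0 := by
  have h1 : X 0 * p = 0 := by
    apply MvPolynomial.funext
    intro x
    rw [map_zero, map_mul, eval_X]
    by_cases hx : x 0 = 0
    · rw [hx, zero_mul]
    · have h2 : x = fun i => x 0 * (Fin.cons 1 (fun i : Fin n => x i.succ / x 0) :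
          Fin (n + 1) → k) i := by
        funext i
        refine Fin.cases ?_ (fun i => ?_) i
        · simp
        · simp only [Fin.cons_succ]
          field_simp
      have h3 : eval x p = x 0 ^ d * eval (Fin.cons 1 (fun i : Fin n => x i.succ / x 0) :
          Fin (n + 1) → k) p := by
        have h4 := aeval_scale (S := k) hp (x 0)
          (Fin.cons 1 (fun i : Fin n => x i.succ / x 0) : Fin (n + 1) → k)
        rw [← h2] at h4
        rwa [← eval_eq_aeval, ← eval_eq_aeval] at h4
      rw [h3, ← eval_dehom, h]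
      simp
  exact (mul_eq_zero.1 h1).resolve_left (X_ne_zero 0)

lemma exists_homogenisation {n : ℕ} (a : MvPolynomial (Fin n) k) :
    ∃ d, ∀ e, d ≤ e → ∃ P : MvPolynomial (Fin (n + 1)) k, P.IsHomogeneous e ∧ dehom P = a := by
  induction a using MvPolynomial.induction_on with
  | C c =>
    refine ⟨0, fun e _ => ⟨C c * X 0 ^ e, isHomogeneous_C_mul_X_pow _ _ _, ?_⟩⟩
    simp [dehom]
  | add p q hp hq =>
    obtain ⟨d1, h1⟩ := hp
    obtain ⟨d2, h2⟩ := hq
    refine ⟨max d1 d2, fun e he => ?_⟩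
    obtain ⟨P, hP, hP'⟩ := h1 e ((le_max_left _ _).trans he)
    obtain ⟨Q, hQ, hQ'⟩ := h2 e ((le_max_right _ _).trans he)
    exact ⟨P + Q, hP.add hQ, by rw [map_add, hP', hQ']⟩
  | mul_X p i hp =>
    obtain ⟨d, h⟩ := hp
    refine ⟨d + 1, fun e he => ?_⟩
    obtain ⟨e', rfl⟩ : ∃ e', e = e' + 1 := ⟨e - 1, by omega⟩
    obtain ⟨P, hP, hP'⟩ := h e' (by omega)
    refine ⟨P * X i.succ, hP.mul (isHomogeneous_X _ _), ?_⟩
    rw [map_mul, hP']
    simp [dehom]

/-- the dehomogenisation of a prime form is prime -/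
lemma prime_dehom [Infinite k] {n d : ℕ} {g : MvPolynomial (Fin (n + 1)) k}
    (hg : g.IsHomogeneous d) (hp : Prime g) (hX : ¬ g ∣ X 0) : Prime (dehom g) := by
  refine ⟨fun h => hp.ne_zero (dehom_inj hg h), fun h => ?_, fun a b hab => ?_⟩
  · rw [MvPolynomial.isUnit_iff_eq_C_of_isReduced] at h
    obtain ⟨c, hc, h⟩ := h
    have h1 : g - C c * X 0 ^ d = 0 := by
      apply dehom_inj (hg.sub (isHomogeneous_C_mul_X_pow c 0 d))
      rw [map_sub, h]
      simp [dehom]
    have h2 : g ∣ C c * X 0 ^ d := by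
      rw [← sub_eq_zero.1 h1]
    rcases hp.dvd_or_dvd h2 with h3 | h3
    · exact hp.not_isUnit (isUnit_of_dvd_unit h3 (hc.map C))
    · exact hX (hp.dvd_of_dvd_pow h3)
  · obtain ⟨c, hc⟩ := hab
    obtain ⟨da, ha⟩ := exists_homogenisation a
    obtain ⟨db, hb⟩ := exists_homogenisation b
    obtain ⟨dc, hc'⟩ := exists_homogenisation c
    obtain ⟨A, hA, hA'⟩ := ha (da + d + dc) (by omega)
    obtain ⟨B, hB, hB'⟩ := hb db le_rfl
    obtain ⟨E, hE, hE'⟩ := hc' (da + dc + db) (by omega)
    have h1 : A * B - g * E = 0 := by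
      have e1 : (g * E).IsHomogeneous (da + d + dc + db) := by
        have := hg.mul hE
        have e2 : d + (da + dc + db) = da + d + dc + db := by ring
        rwa [e2] at this
      apply dehom_inj ((hA.mul hB).sub e1)
      rw [map_sub, map_mul, map_mul, hA', hB', hE', hc, sub_self]
    rcases hp.dvd_or_dvd (Dvd.intro E (sub_eq_zero.1 h1).symm) with h2 | h2
    · left
      rw [← hA']
      exact map_dvd dehom h2
    · right
      rw [← hB']
      exact map_dvd dehom h2

end Vale.Agent.P287.H925
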