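import Vale.Agent.P287.H925.Comp
import Vale.Agent.P287.H925.Dehom
import Vale.Agent.P287.FunctionField

open MvPolynomial Matrix

namespace Vale.Agent.P287.H925

section General

/-- the vector `(z, c)` -/
def sn {K : Type*} (z : Fin 5 → K) (c : K) : Fin 6 → K := Fin.snoc (α := fun _ => K) z c

lemma sn_castSucc {K : Type*} (z : Fin 5 → K) (c : K) (i : Fin 5) : sn z c i.castSucc = z i :=
  Fin.snoc_castSucc (α := fun _ => K) c z i

lemma sn_last {K : Type*} (z : Fin 5 → K) (c : K) : sn z c (Fin.last 5) = c :=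
  Fin.snoc_last (α := fun _ => K) c z

variable {K : Type*} [Field K]

/-- the first part of the linear map -/
def zpart (Nt : Matrix (Fin 5) (Fin 4) K) (v : Fin 4 → K) (a : K) : Fin 5 → K :=
  Nt *ᵥ v + Pi.single 0 a

/-- the second part of the linear map -/
def cpart (Nt : Matrix (Fin 5) (Fin 4) K) (St : Matrix (Fin 5) (Fin 5) K)
    (l : K) (v : Fin 4 → K) (a b : K) : K :=
  l * b - 2 * (St *ᵥ (Nt *ᵥ v)) 0 - a * St 0 0

/-- the linear map from `K⁴ × K × K` to `K⁶` -/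
def simMap (Nt : Matrix (Fin 5) (Fin 4) K) (St : Matrix (Fin 5) (Fin 5) K)
    (l : K) : ((Fin 4 → K) × K × K) →ₗ[K] (Fin 6 → K) where
  toFun x := sn (zpart Nt x.1 x.2.1) (cpart Nt St l x.1 x.2.1 x.2.2)
  map_add' x y := by
    funext i
    refine Fin.lastCases ?_ (fun i => ?_) i
    · simp only [Prod.fst_add, Prod.snd_add, Pi.add_apply, sn_last, cpart, Matrix.mulVec_add]
      ring
    · simp only [Prod.fst_add, Prod.snd_add, Pi.add_apply, sn_castSucc, zpart, Matrix.mulVec_add,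
        Pi.single_add]
      ring
  map_smul' c x := by
    funext i
    refine Fin.lastCases ?_ (fun i => ?_) i
    · simp only [Prod.smul_fst, Prod.smul_snd, Pi.smul_apply, sn_last, cpart, Matrix.mulVec_smul,
        smul_eq_mul, RingHom.id_apply]
      ring
    · simp only [Prod.smul_fst, Prod.smul_snd, Pi.smul_apply, sn_castSucc, zpart, Pi.add_apply,
        Matrix.mulVec_smul, smul_eq_mul, RingHom.id_apply, mul_add]
      congr 1
      by_cases hi : i = 0
      · subst hi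
        simp
      · simp [hi]

lemma simMap_apply (Nt : Matrix (Fin 5) (Fin 4) K) (St : Matrix (Fin 5) (Fin 5) K)
    (l : K) (v : Fin 4 → K) (a b : K) :
    simMap Nt St l (v, a, b) = sn (zpart Nt v a) (cpart Nt St l v a b) := rfl

/-- the linear form `t₀ z₀ + t₁ z₁ + t₂ z₂` -/
def tz (t : Fin 3 → K) (z : Fin 5 → K) : K := ∑ l, t l * z (Fin.castAdd 2 l)

lemma tz_add (t : Fin 3 → K) (z z' : Fin 5 → K) : tz t (z + z') = tz t z + tz t z' := by
  simp [tz, mul_add, Finset.sum_add_distrib]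

lemma tz_single (t : Fin 3 → K) (a : K) : tz t (Pi.single 0 a) = t 0 * a := by
  rw [tz, Fin.sum_univ_three]
  have e0 : (Fin.castAdd 2 (0 : Fin 3)) = (0 : Fin 5) := rfl
  have e1 : (Fin.castAdd 2 (1 : Fin 3)) = (1 : Fin 5) := rfl
  have e2 : (Fin.castAdd 2 (2 : Fin 3)) = (2 : Fin 5) := rfl
  rw [e0, e1, e2]
  simp

variable (Nt : Matrix (Fin 5) (Fin 4) K) (St : Matrix (Fin 5) (Fin 5) K)
    (Mt : Matrix (Fin 4) (Fin 4) K) (l : K) (t : Fin 3 → K)

lemma simMap_injective (hl : l ≠ 0) (ht0 : t 0 = 1) (hN : ∀ v, Nt *ᵥ v = 0 → v = 0)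
    (hτ : ∀ v, tz t (Nt *ᵥ v) = 0) : Function.Injective (simMap Nt St l) := by
  rw [← LinearMap.ker_eq_bot, LinearMap.ker_eq_bot']
  rintro ⟨v, a, b⟩ h
  rw [simMap_apply] at h
  have hz : zpart Nt v a = 0 := by
    funext i
    have := congrFun h i.castSucc
    rwa [sn_castSucc] at this
  have hc : cpart Nt St l v a b = 0 := by
    have := congrFun h (Fin.last 5)
    rwa [sn_last] at this
  have ha : a = 0 := by
    have h2 : tz t (zpart Nt v a) = 0 := by
      rw [hz]; simp [tz]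
    rwa [zpart, tz_add, hτ, tz_single, ht0, zero_add, one_mul] at h2
  subst ha
  rw [zpart, Pi.single_zero, add_zero] at hz
  have hv := hN v hz
  subst hv
  rw [cpart, Matrix.mulVec_zero, Matrix.mulVec_zero] at hc
  simp only [Pi.zero_apply, mul_zero, sub_zero, zero_mul] at hc
  have hb := (mul_eq_zero.1 hc).resolve_left hl
  rw [hb]
  rfl

lemma simMap_value (ht0 : t 0 = 1) (hτ : ∀ v, tz t (Nt *ᵥ v) = 0) (hSt : St.IsSymm)
    (hM : Nt.transpose * St * Nt = l • Mt) (v : Fin 4 → K) (a b : K) :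
    zpart Nt v a ⬝ᵥ (St *ᵥ zpart Nt v a) + tz t (zpart Nt v a) * cpart Nt St l v a b =
      l * (v ⬝ᵥ (Mt *ᵥ v) + a * b) := by
  have h2 : tz t (zpart Nt v a) = a := by
    rw [zpart, tz_add, hτ, tz_single, ht0, zero_add, one_mul]
  have h3 : (Nt *ᵥ v) ⬝ᵥ (St *ᵥ (Nt *ᵥ v)) = l * (v ⬝ᵥ (Mt *ᵥ v)) := by
    calc (Nt *ᵥ v) ⬝ᵥ (St *ᵥ (Nt *ᵥ v)) = v ⬝ᵥ ((Nt.transpose * St * Nt) *ᵥ v) := by
          rw [← Matrix.mulVec_mulVec, ← Matrix.mulVec_mulVec, Matrix.dotProduct_mulVec v,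
            Matrix.vecMul_transpose]
      _ = _ := by rw [hM, Matrix.smul_mulVec, dotProduct_smul, smul_eq_mul]
  have h7 : (Pi.single (0 : Fin 5) a : Fin 5 → K) ⬝ᵥ (St *ᵥ (Nt *ᵥ v)) =
      a * (St *ᵥ (Nt *ᵥ v)) 0 := by
    rw [single_dotProduct]
  have h8 : (Nt *ᵥ v) ⬝ᵥ (St *ᵥ (Pi.single (0 : Fin 5) a : Fin 5 → K)) =
      a * (St *ᵥ (Nt *ᵥ v)) 0 := by
    rw [Matrix.dotProduct_mulVec, ← Matrix.mulVec_transpose, hSt.eq, dotProduct_single]
    ring
  have h9 : (Pi.single (0 : Fin 5) a : Fin 5 → K) ⬝ᵥ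
      (St *ᵥ (Pi.single (0 : Fin 5) a : Fin 5 → K)) = a * (a * St 0 0) := by
    rw [single_dotProduct, Matrix.mulVec_single]
    simp [mul_comm]
  rw [h2, zpart, cpart, Matrix.mulVec_add, dotProduct_add, add_dotProduct, add_dotProduct, h3,
    h7, h8, h9]
  ring

end General

section Similar

lemma aeval_tvec (p : MvPolynomial (Fin 3) ℂ) :
    aeval tvec p = algebraMap (MvPolynomial (Fin 2) ℂ) RatK (dehom p) := by
  have h : (aeval tvec : MvPolynomial (Fin 3) ℂ →ₐ[ℂ] RatK) =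
      (IsScalarTower.toAlgHom ℂ (MvPolynomial (Fin 2) ℂ) RatK).comp dehom := by
    apply algHom_ext
    intro i
    fin_cases i
    · simp [tvec, dehom]
    · simp [tvec, dehom]
    · simp [tvec, dehom]
      rfl
  rw [h]
  rfl

lemma aeval_tvec_ne_zero {p : MvPolynomial (Fin 3) ℂ} {n : ℕ} (hp : p.IsHomogeneous n)
    (h : p ≠ 0) : aeval tvec p ≠ 0 := by
  rw [aeval_tvec]
  intro h0
  exact h (dehom_inj hp ((map_eq_zero_iff _
    (IsFractionRing.injective (MvPolynomial (Fin 2) ℂ) RatK)).1 h0))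

/-- the net in six variables -/
def sixQ (Q : Fin 3 → Matrix (Fin 5) (Fin 5) ℂ) : Fin 3 → Matrix (Fin 6) (Fin 6) ℂ :=
  fun l => Matrix.of (Fin.snoc (α := fun _ => Fin 6 → ℂ)
    (fun i : Fin 5 => sn (Q l i) (if i = Fin.castAdd 2 l then 1 else 0)) 0)

lemma qf_sixQ (Q : Fin 3 → Matrix (Fin 5) (Fin 5) ℂ) (l : Fin 3) (z : Fin 5 → RatK) (c : RatK) :
    qf (sixQ Q l) (sn z c) = qf (Q l) z + z (Fin.castAdd 2 l) * c := by
  rw [qf, Fin.sum_univ_castSucc]
  have h1 : ∑ j, algebraMap ℂ RatK (sixQ Q l (Fin.last 5) j) *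
      (sn z c (Fin.last 5) * sn z c j) = 0 := by
    refine Finset.sum_eq_zero fun j _ => ?_
    have h0 : sixQ Q l (Fin.last 5) = 0 := by
      exact Fin.snoc_last (n := 5) (α := fun _ => Fin 6 → ℂ) 0
        (fun i : Fin 5 => sn (Q l i) (if i = Fin.castAdd 2 l then 1 else 0))
    rw [h0]
    simp
  rw [h1, add_zero]
  have h3 : ∀ i : Fin 5, sixQ Q l i.castSucc = sn (Q l i) (if i = Fin.castAdd 2 l then 1 else 0) := by
    intro i
    exact Fin.snoc_castSucc (n := 5) (α := fun _ => Fin 6 → ℂ) 0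
      (fun i : Fin 5 => sn (Q l i) (if i = Fin.castAdd 2 l then 1 else 0)) i
  have h2 : ∀ i : Fin 5, ∑ j, algebraMap ℂ RatK (sixQ Q l i.castSucc j) *
      (sn z c i.castSucc * sn z c j) =
      ∑ j, algebraMap ℂ RatK (Q l i j) * (z i * z j) +
        (if i = Fin.castAdd 2 l then z i * c else 0) := by
    intro i
    rw [Fin.sum_univ_castSucc]
    simp only [h3, sn_castSucc, sn_last]
    congr 1
    split_ifs <;> simp
  simp only [h2, Finset.sum_add_distrib, Finset.sum_ite_eq', Finset.mem_univ, if_true]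
  rfl

lemma net_sixQ (Q : Fin 3 → Matrix (Fin 5) (Fin 5) ℂ) (z : Fin 5 → RatK) (c : RatK) :
    net (sixQ Q) tvec (sn z c) = net Q tvec z + tz tvec z * c := by
  simp only [net, qf_sixQ, mul_add, Finset.sum_add_distrib, Finset.sum_mul, mul_assoc, tz]

lemma net_eq (Q : Fin 3 → Matrix (Fin 5) (Fin 5) ℂ) (z : Fin 5 → RatK) :
    net Q tvec z = z ⬝ᵥ ((netM Q).map (aeval tvec) *ᵥ z) := by
  simp only [net, qf, netM, dotProduct, mulVec, Matrix.map_apply, Matrix.of_apply, map_sum,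
    map_mul, aeval_X, Finset.mul_sum, Finset.sum_mul, algHom_C]
  rw [Finset.sum_comm]
  refine Finset.sum_congr rfl fun i _ => ?_
  rw [Finset.sum_comm]
  refine Finset.sum_congr rfl fun j _ => Finset.sum_congr rfl fun l _ => ?_
  ring

theorem similar_of_net (M : Matrix (Fin 4) (Fin 4) (MvPolynomial (Fin 3) ℂ))
    (g : MvPolynomial (Fin 3) ℂ) (hg : aeval tvec g ≠ 0)
    (N : Matrix (Fin 5) (Fin 4) (MvPolynomial (Fin 3) ℂ)) (hτ : tau ℂ ᵥ* N = 0)
    (hdet : aeval tvec (N.submatrix (Fin.succAbove 0) id).det ≠ 0)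
    (Q : Fin 3 → Matrix (Fin 5) (Fin 5) ℂ) (hQs : ∀ l, (Q l).IsSymm)
    (hQ : g • M = N.transpose * netM Q * N) :
    ∃ φ : ((Fin 4 → RatK) × RatK × RatK) ≃ₗ[RatK] (Fin 6 → RatK),
      ∀ v a b, net (sixQ Q) tvec (φ (v, a, b)) =
        aeval tvec g * (v ⬝ᵥ (M.map (aeval tvec) *ᵥ v) + a * b) := by
  have hSts : ((netM Q).map (aeval tvec : MvPolynomial (Fin 3) ℂ →ₐ[ℂ] RatK)).IsSymm := by
    refine Matrix.ext fun i j => ?_
    simp only [Matrix.transpose_apply, Matrix.map_apply, netM, Matrix.of_apply]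
    refine congrArg (aeval tvec) (Finset.sum_congr rfl fun l _ => ?_)
    rw [(hQs l).apply]
  have hτt : ∀ v : Fin 4 → RatK,
      tz tvec (N.map (aeval tvec : MvPolynomial (Fin 3) ℂ →ₐ[ℂ] RatK) *ᵥ v) = 0 := by
    intro v
    have h1 : ∀ i, ∑ l, tvec l * aeval tvec (N (Fin.castAdd 2 l) i) = 0 := by
      intro i
      have h2 := congrArg (aeval tvec : MvPolynomial (Fin 3) ℂ →ₐ[ℂ] RatK) (congrFun hτ i)
      simp only [Matrix.vecMul, dotProduct, Fin.sum_univ_five, tau, Pi.zero_apply, map_zero,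
        map_add, map_mul, Matrix.cons_val_zero, Matrix.cons_val_one, Matrix.cons_val,
        zero_mul, add_zero, aeval_X] at h2
      rw [Fin.sum_univ_three]
      exact h2
    simp only [tz, Matrix.mulVec, dotProduct, Finset.mul_sum, Matrix.map_apply]
    rw [Finset.sum_comm]
    refine Finset.sum_eq_zero fun i _ => ?_
    have h3 := h1 i
    calc ∑ l, tvec l * (aeval tvec (N (Fin.castAdd 2 l) i) * v i) =
        (∑ l, tvec l * aeval tvec (N (Fin.castAdd 2 l) i)) * v i := by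
          rw [Finset.sum_mul]
          exact Finset.sum_congr rfl fun l _ => by ring
      _ = 0 := by rw [h3, zero_mul]
  have hNtinj : ∀ v, N.map (aeval tvec : MvPolynomial (Fin 3) ℂ →ₐ[ℂ] RatK) *ᵥ v = 0 → v = 0 := by
    intro v hv
    have h1 : ((N.submatrix (Fin.succAbove 0) id).map
        (aeval tvec : MvPolynomial (Fin 3) ℂ →ₐ[ℂ] RatK)).det ≠ 0 := by
      rw [← AlgHom.mapMatrix_apply, ← AlgHom.map_det]
      exact hdet
    apply Matrix.eq_zero_of_mulVec_eq_zero h1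
    funext i
    exact congrFun hv ((0 : Fin 5).succAbove i)
  have hmul : (N.map (aeval tvec : MvPolynomial (Fin 3) ℂ →ₐ[ℂ] RatK)).transpose *
      (netM Q).map (aeval tvec : MvPolynomial (Fin 3) ℂ →ₐ[ℂ] RatK) *
      N.map (aeval tvec : MvPolynomial (Fin 3) ℂ →ₐ[ℂ] RatK) =
      aeval tvec g • M.map (aeval tvec : MvPolynomial (Fin 3) ℂ →ₐ[ℂ] RatK) := by
    have h5 := congrArg (fun X : Matrix (Fin 4) (Fin 4) (MvPolynomial (Fin 3) ℂ) =>
      X.map (aeval tvec : MvPolynomial (Fin 3) ℂ →ₐ[ℂ] RatK)) hQ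
    simp only [Matrix.map_mul] at h5
    have h6 : (g • M).map (aeval tvec : MvPolynomial (Fin 3) ℂ →ₐ[ℂ] RatK) =
        aeval tvec g • M.map (aeval tvec : MvPolynomial (Fin 3) ℂ →ₐ[ℂ] RatK) := by
      refine Matrix.ext fun i j => ?_
      simp
    rw [h6] at h5
    exact h5.symm
  have hinj := simMap_injective (N.map (aeval tvec : MvPolynomial (Fin 3) ℂ →ₐ[ℂ] RatK))
    ((netM Q).map (aeval tvec : MvPolynomial (Fin 3) ℂ →ₐ[ℂ] RatK)) (aeval tvec g) tvec hg rfl
    hNtinj hτt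
  have hdim : Module.finrank RatK ((Fin 4 → RatK) × RatK × RatK) =
      Module.finrank RatK (Fin 6 → RatK) := by
    simp
  refine ⟨LinearMap.linearEquivOfInjective _ hinj hdim, ?_⟩
  intro v a b
  rw [LinearMap.linearEquivOfInjective_apply, simMap_apply, net_sixQ, net_eq]
  exact simMap_value _ _ (M.map (aeval tvec : MvPolynomial (Fin 3) ℂ →ₐ[ℂ] RatK)) _ tvec rfl hτt
    hSts hmul v a b

end Similar

end Vale.Agent.P287.H925
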