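import Vale.Agent.P287.H925.Dehom

open MvPolynomial Matrix

namespace Vale.Agent.P287.H925

section Deriv

variable (M : Matrix (Fin 4) (Fin 4) (MvPolynomial (Fin 3) ℂ))

/-- the inclusion of the three first variables -/
def emb : Fin 3 → Fin 6 := Fin.castAdd 3

lemma emb_inj : Function.Injective emb := Fin.castAdd_injective 3 3

/-- the vector `(x₃, x₄, x₅, 1)` -/
noncomputable def vv : Fin 4 → MvPolynomial (Fin 6) ℂ := ![X 3, X 4, X 5, 1]

lemma cubicOf_eq : cubicOf M = ∑ i, ∑ j, vv i * (rename emb (M i j) * vv j) := by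
  have h1 : ∀ p : MvPolynomial (Fin 3) ℂ,
      (aeval ![X 0, X 1, X 2] p : MvPolynomial (Fin 6) ℂ) = rename emb p := by
    intro p
    have h2 : (aeval ![X 0, X 1, X 2] : MvPolynomial (Fin 3) ℂ →ₐ[ℂ] MvPolynomial (Fin 6) ℂ) =
        rename emb := by
      apply algHom_ext
      intro i
      fin_cases i <;> simp <;> rfl
    rw [h2]
  simp only [cubicOf, dotProduct, mulVec, Matrix.map_apply, h1, Finset.mul_sum]
  rfl

lemma pderiv_rename_emb_of_ge (p : MvPolynomial (Fin 3) ℂ) (l : Fin 3) :
    pderiv (Fin.natAdd 3 l : Fin 6) (rename emb p) = 0 := by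
  apply pderiv_eq_zero_of_notMem_vars
  intro h
  obtain ⟨i, _, hi⟩ := Finset.mem_image.1 (vars_rename emb p h)
  have h1 := congrArg (fun x : Fin 6 => (x : ℕ)) hi
  simp [emb] at h1
  omega

lemma pderiv_vv_low (k : Fin 3) (i : Fin 4) : pderiv (emb k) (vv i) = 0 := by
  fin_cases i <;> fin_cases k <;> simp [vv, emb]

lemma pderiv_vv_high (l : Fin 3) (i : Fin 4) :
    pderiv (Fin.natAdd 3 l : Fin 6) (vv i) = if i = l.castSucc then 1 else 0 := by
  fin_cases i <;> fin_cases l <;> simp [vv]

lemma pderiv_cubic_low (k : Fin 3) : pderiv (emb k) (cubicOf M) =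
    ∑ i, ∑ j, vv i * (rename emb (pderiv k (M i j)) * vv j) := by
  rw [cubicOf_eq]
  simp only [map_sum, pderiv_mul, pderiv_vv_low, pderiv_rename emb_inj]
  simp

lemma pderiv_cubic_high (hM : M.IsSymm) (l : Fin 3) : pderiv (Fin.natAdd 3 l : Fin 6) (cubicOf M) =
    2 * ∑ j, rename emb (M l.castSucc j) * vv j := by
  rw [cubicOf_eq]
  have h1 : ∀ i j, pderiv (Fin.natAdd 3 l : Fin 6) (vv i * (rename emb (M i j) * vv j)) =
      (if i = l.castSucc then rename emb (M i j) * vv j else 0) +
        (if j = l.castSucc then vv i * rename emb (M i j) else 0) := by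
    intro i j
    rw [pderiv_mul, pderiv_mul, pderiv_vv_high, pderiv_vv_high, pderiv_rename_emb_of_ge]
    split_ifs <;> simp
  simp only [map_sum, h1, Finset.sum_add_distrib]
  have h2 : ∑ i, ∑ j, (if i = l.castSucc then rename emb (M i j) * vv j else 0) =
      ∑ j, rename emb (M l.castSucc j) * vv j := by
    rw [Finset.sum_eq_single l.castSucc]
    · simp
    · intro b _ hb
      simp [hb]
    · simp
  have h3 : ∑ i, ∑ j, (if j = l.castSucc then vv i * rename emb (M i j) else 0) =
      ∑ j, rename emb (M l.castSucc j) * vv j := by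
    refine Finset.sum_congr rfl fun i _ => ?_
    rw [Finset.sum_ite_eq' Finset.univ l.castSucc, if_pos (Finset.mem_univ _),
      hM.apply, mul_comm]
  rw [h2, h3, two_mul]

/-- the determinant of the quadric bundle of a smooth cubic fourfold does not vanish -/
theorem det_ne_zero_of_smooth (hM : M.IsSymm)
    (hdeg : ∀ i j, (M i j).IsHomogeneous (1 + wt i + wt j)) (hs : IsSmooth (cubicOf M)) :
    M.det ≠ 0 := by
  intro hdet
  obtain ⟨v, hv0, hv⟩ := (Matrix.exists_mulVec_eq_zero_iff).2 hdet
  obtain ⟨i0, hi0⟩ : ∃ i, v i ≠ 0 := by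
    by_contra h
    push Not at h
    exact hv0 (funext h)
  obtain ⟨a, ha⟩ : ∃ a : Fin 3 → ℂ, eval a (X 0 * v i0) ≠ 0 := by
    by_contra h
    push Not at h
    exact mul_ne_zero (X_ne_zero 0) hi0 (MvPolynomial.funext fun a => by rw [h a, map_zero])
  rw [map_mul, eval_X] at ha
  have ha0 : a 0 ≠ 0 := left_ne_zero_of_mul ha
  have hav : eval a (v i0) ≠ 0 := right_ne_zero_of_mul ha
  set w : Fin 4 → ℂ := fun i => eval a (v i) with hw
  -- the derivatives
  have hder : ∀ k, ∑ i, ∑ j, v i * (pderiv k (M i j) * v j) = 0 := by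
    intro k
    have h1 : ∑ i, v i * (M *ᵥ v) i = 0 := by simp [hv]
    have h2 := congrArg (pderiv k) h1
    simp only [mulVec, dotProduct, map_zero, map_sum, pderiv_mul, Finset.mul_sum, mul_add,
      Finset.sum_add_distrib] at h2
    have h3 : ∑ i, ∑ j, pderiv k (v i) * (M i j * v j) = 0 := by
      refine Finset.sum_eq_zero fun i _ => ?_
      have h4 := congrFun hv i
      simp only [mulVec, dotProduct, Pi.zero_apply] at h4
      rw [← Finset.mul_sum, h4, mul_zero]
    have h5 : ∑ i, ∑ j, v i * (M i j * pderiv k (v j)) = 0 := by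
      rw [Finset.sum_comm]
      refine Finset.sum_eq_zero fun j _ => ?_
      have h4 := congrFun hv j
      simp only [mulVec, dotProduct, Pi.zero_apply] at h4
      calc ∑ i, v i * (M i j * pderiv k (v j)) = (∑ i, M j i * v i) * pderiv k (v j) := by
            rw [Finset.sum_mul]
            refine Finset.sum_congr rfl fun i _ => ?_
            rw [hM.apply j i]; ring
        _ = 0 := by rw [h4, zero_mul]
    rw [h3, h5] at h2
    simpa using h2
  -- the singular point
  let x : Fin 6 → ℂ := Fin.append (fun k => w 3 * a k) (fun l : Fin 3 => w l.castSucc)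
  have hxe : ∀ (p : MvPolynomial (Fin 3) ℂ) (n : ℕ), p.IsHomogeneous n →
      eval x (rename emb p) = w 3 ^ n * eval a p := by
    intro p n hp
    rw [eval_rename]
    have h1 : x ∘ emb = fun k => w 3 * a k := by
      funext k
      exact Fin.append_left _ _ k
    rw [h1, eval_eq_aeval, aeval_scale hp, eval_eq_aeval]
  have hxv : ∀ j, w 3 ^ (wt j) * eval x (vv j) = w j := by
    intro j
    fin_cases j
    · change w 3 ^ 0 * eval x (X 3) = w 0
      rw [eval_X, pow_zero, one_mul]; rfl
    · change w 3 ^ 0 * eval x (X 4) = w 1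
      rw [eval_X, pow_zero, one_mul]; rfl
    · change w 3 ^ 0 * eval x (X 5) = w 2
      rw [eval_X, pow_zero, one_mul]; rfl
    · change w 3 ^ 1 * eval x 1 = w 3
      rw [map_one, pow_one, mul_one]
  have hx0 : x = 0 := by
    apply hs
    intro i
    refine Fin.addCases (m := 3) (n := 3) (fun k => ?_) (fun l => ?_) i
    · change eval x (pderiv (emb k) (cubicOf M)) = 0
      rw [pderiv_cubic_low]
      have h1 := congrArg (eval a) (hder k)
      simp only [map_sum, map_mul, map_zero] at h1 ⊢
      rw [← h1]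
      refine Finset.sum_congr rfl fun i _ => Finset.sum_congr rfl fun j _ => ?_
      have h2 : (pderiv k (M i j)).IsHomogeneous (wt i + wt j) := by
        have := (hdeg i j).pderiv (i := k)
        have e1 : 1 + wt i + wt j - 1 = wt i + wt j := by omega
        rwa [e1] at this
      rw [hxe _ _ h2, pow_add]
      have h3 := hxv i
      have h4 := hxv j
      calc eval x (vv i) * (w 3 ^ wt i * w 3 ^ wt j * eval a (pderiv k (M i j)) * eval x (vv j))
          = (w 3 ^ wt i * eval x (vv i)) * (eval a (pderiv k (M i j)) *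
            (w 3 ^ wt j * eval x (vv j))) := by ring
        _ = _ := by rw [h3, h4]
    · rw [pderiv_cubic_high M hM]
      simp only [map_mul, map_sum]
      have h1 := congrArg (eval a) (congrFun hv l.castSucc)
      simp only [mulVec, dotProduct, Pi.zero_apply, map_sum, map_mul, map_zero] at h1
      have h2 : ∑ j, eval x (rename emb (M l.castSucc j)) * eval x (vv j) =
          w 3 ^ (1 + wt l.castSucc) * ∑ j, eval a (M l.castSucc j) * eval a (v j) := by
        rw [Finset.mul_sum]
        refine Finset.sum_congr rfl fun j _ => ?_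
        rw [hxe _ _ (hdeg _ _), pow_add]
        have h4 := hxv j
        calc w 3 ^ (1 + wt l.castSucc) * w 3 ^ wt j * eval a (M l.castSucc j) * eval x (vv j)
            = w 3 ^ (1 + wt l.castSucc) * (eval a (M l.castSucc j) *
              (w 3 ^ wt j * eval x (vv j))) := by ring
          _ = _ := by rw [h4]
      rw [h2, h1, mul_zero, mul_zero]
  have hw3 : w 3 = 0 := by
    have h1 := congrFun hx0 (emb 0)
    have h2 : x (emb 0) = w 3 * a 0 := Fin.append_left _ _ 0
    rw [h2] at h1
    exact (mul_eq_zero.1 h1).resolve_right ha0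
  have hwl : ∀ l : Fin 3, w l.castSucc = 0 := by
    intro l
    have h1 := congrFun hx0 (Fin.natAdd 3 l : Fin 6)
    have h2 : x (Fin.natAdd 3 l : Fin 6) = w l.castSucc := Fin.append_right _ _ l
    rw [h2] at h1
    exact h1
  apply hav
  change w i0 = 0
  refine Fin.lastCases ?_ (fun l => ?_) i0
  · exact hw3
  · exact hwl l

end Deriv

end Vale.Agent.P287.H925
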