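import Vale.Agent.P287.H925.Scroll
import Vale.Agent.P287.H925.Similar
import Vale.Agent.P287.H925.Smooth
import Vale.Agent.P287.H925.NetResult

open MvPolynomial Matrix

namespace Vale.Agent.P287.H925

section Final

variable (M : Matrix (Fin 4) (Fin 4) (MvPolynomial (Fin 3) ℂ))

lemma emb_homogeneous {p : MvPolynomial (Fin 3) ℂ} {n : ℕ} (hp : p.IsHomogeneous n) :
    (rename emb p).IsHomogeneous n := hp.rename_isHomogeneous

/-- the factor `v_i` has degree `1 - wt i` -/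
lemma vv_homogeneous (i : Fin 4) : (vv i).IsHomogeneous (1 - wt i) := by
  fin_cases i
  · exact isHomogeneous_X _ _
  · exact isHomogeneous_X _ _
  · exact isHomogeneous_X _ _
  · exact isHomogeneous_one _ _

lemma wt_le (i : Fin 4) : wt i ≤ 1 := by
  fin_cases i <;> simp [wt]

lemma cubicOf_homogeneous (hdeg : ∀ i j, (M i j).IsHomogeneous (1 + wt i + wt j)) :
    (cubicOf M).IsHomogeneous 3 := by
  rw [cubicOf_eq]
  refine IsHomogeneous.sum _ _ _ fun i _ => IsHomogeneous.sum _ _ _ fun j _ => ?_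
  have h := (vv_homogeneous i).mul ((emb_homogeneous (hdeg i j)).mul (vv_homogeneous j))
  have hi := wt_le i
  have hj := wt_le j
  have e : 1 - wt i + (1 + wt i + wt j + (1 - wt j)) = 3 := by omega
  rwa [e] at h

/-- the permutation of the coordinates -/
def perm4 : Fin 4 ≃ Fin 4 := ⟨![1, 2, 3, 0], ![3, 0, 1, 2], by decide, by decide⟩

/-- the value of the cubic form at a point over the generic point of the plane -/
lemma aeval_wvec_cubicOf (hdeg : ∀ i j, (M i j).IsHomogeneous (1 + wt i + wt j))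
    (v : Fin 4 → RatK) : aeval (wvec tvec v) (cubicOf M) =
      v 0 * ((v ∘ perm4) ⬝ᵥ (M.map (aeval tvec : MvPolynomial (Fin 3) ℂ →ₐ[ℂ] RatK) *ᵥ
        (v ∘ perm4))) := by
  have h1 : ∀ (p : MvPolynomial (Fin 3) ℂ) (n : ℕ), p.IsHomogeneous n →
      aeval (wvec tvec v) (rename emb p) = v 0 ^ n * aeval tvec p := by
    intro p n hp
    rw [aeval_rename]
    have h2 : wvec tvec v ∘ emb = fun k => v 0 * tvec k := by
      funext k
      fin_cases k <;> rfl
    rw [h2, aeval_scale hp]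
  have h2 : ∀ i, v 0 ^ (wt i) * aeval (wvec tvec v) (vv i) = (v ∘ perm4) i := by
    intro i
    fin_cases i
    · change v 0 ^ 0 * aeval (wvec tvec v) (X 3) = v 1
      rw [aeval_X, pow_zero, one_mul]; rfl
    · change v 0 ^ 0 * aeval (wvec tvec v) (X 4) = v 2
      rw [aeval_X, pow_zero, one_mul]; rfl
    · change v 0 ^ 0 * aeval (wvec tvec v) (X 5) = v 3
      rw [aeval_X, pow_zero, one_mul]; rfl
    · change v 0 ^ 1 * aeval (wvec tvec v) 1 = v 0
      rw [map_one, pow_one, mul_one]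
  rw [cubicOf_eq]
  simp only [map_sum, map_mul, dotProduct, mulVec, Matrix.map_apply, Finset.mul_sum]
  refine Finset.sum_congr rfl fun i _ => Finset.sum_congr rfl fun j _ => ?_
  rw [h1 _ _ (hdeg i j), ← h2 i, ← h2 j, pow_add, pow_add, pow_one]
  ring

/-- the quadratic form of the fibration -/
noncomputable def qM : QuadraticForm RatK (Fin 4 → RatK) :=
  (Matrix.toQuadraticForm' (M.map (aeval tvec : MvPolynomial (Fin 3) ℂ →ₐ[ℂ] RatK))).comp
    (LinearMap.funLeft RatK RatK perm4)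

lemma qM_apply (v : Fin 4 → RatK) : qM M v =
    (v ∘ perm4) ⬝ᵥ (M.map (aeval tvec : MvPolynomial (Fin 3) ℂ →ₐ[ℂ] RatK) *ᵥ (v ∘ perm4)) := by
  simp only [qM, QuadraticMap.comp_apply, Matrix.toQuadraticForm']
  simp [LinearMap.BilinMap.toQuadraticMap_apply, Matrix.toLinearMap₂'_apply', LinearMap.funLeft]

open NetResult in
/-- the scroll theorem, in the first form -/
theorem scroll_rational (hM : M.IsSymm)
    (hdeg : ∀ i j, (M i j).IsHomogeneous (1 + wt i + wt j)) (hs : SmoothForm (cubicOf M))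
    {κ : Type*} [Field κ] (φ : MvPolynomial (Fin 3) ℂ →+* κ)
    (g : MvPolynomial (Fin 3) ℂ) (hg : Irreducible g) (hφ : ∀ p, φ p = 0 ↔ g ∣ p)
    (r : ℕ) (hgr : g.IsHomogeneous (2 * r))
    (W : Submodule κ (Fin 4 → κ)) (hW : Module.finrank κ W = 2)
    (hiso : ∀ w ∈ W, w ⬝ᵥ (M.map φ *ᵥ w) = 0)
    (N : Matrix (Fin 5) (Fin 4) (MvPolynomial (Fin 3) ℂ))
    (hNdeg : ∀ j i, (N j i).IsHomogeneous (r + wt i))
    (hN : ∀ w ∈ W, N.map φ *ᵥ w = 0)
    (hind : ∀ c : Fin 5 → ℂ, (∀ i, ∑ j, C (c j) * N j i = 0) → c = 0)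
    (hrank : ∃ j : Fin 5, (N.submatrix j.succAbove id).det ≠ 0)
    (hΦ : ∀ f : Fin 4 → MvPolynomial (Fin 3) ℂ, (∀ i, (f i).IsHomogeneous (r - 1 + wt i)) →
      (∀ w ∈ W, ∑ i, φ (f i) * w i = 0) → f = 0) :
    RationalHypersurface (cubicOf M) := by
  have h2κ : (2 : κ) ≠ 0 := by
    have h1 : φ (C 2) ≠ 0 := by
      intro h0
      have h2 := (hφ _).1 h0
      have h3 : IsUnit (C 2 : MvPolynomial (Fin 3) ℂ) := (IsUnit.mk0 (2 : ℂ) two_ne_zero).map C
      exact hg.not_isUnit (isUnit_of_dvd_unit h2 h3)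
    have h2 : φ (C 2) = 2 := by
      have : (C 2 : MvPolynomial (Fin 3) ℂ) = 2 := map_ofNat C 2
      rw [this, map_ofNat]
    rwa [h2] at h1
  -- polarisation
  have hMs : (M.map φ).IsSymm := by
    refine Matrix.ext fun i j => ?_
    simp only [Matrix.transpose_apply, Matrix.map_apply]
    rw [hM.apply]
  have hiso' : ∀ w ∈ W, ∀ w' ∈ W, w ⬝ᵥ (M.map φ *ᵥ w') = 0 := by
    intro w hw w' hw'
    have h1 := hiso (w + w') (W.add_mem hw hw')
    rw [Matrix.mulVec_add, dotProduct_add, add_dotProduct, add_dotProduct, hiso w hw,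
      hiso w' hw'] at h1
    have h2 : w' ⬝ᵥ (M.map φ *ᵥ w) = w ⬝ᵥ (M.map φ *ᵥ w') := by
      rw [Matrix.dotProduct_mulVec, ← Matrix.mulVec_transpose, hMs.eq, dotProduct_comm]
    rw [h2] at h1
    have h3 : 2 * (w ⬝ᵥ (M.map φ *ᵥ w')) = 0 := by linear_combination h1
    exact (mul_eq_zero.1 h3).resolve_left h2κ
  obtain ⟨N', hN'deg, hN'W, hτ, c, hc, hdet⟩ := exists_normal φ g hg hφ r hgr W hW N hNdeg hN
    hind hrank hΦ
  have hg0 : g ≠ 0 := hg.ne_zero
  have hgdeg : g.totalDegree = 2 * r := hgr.totalDegree hg0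
  have hφX : ∀ i, φ (X i) ≠ 0 := by
    intro i h0
    obtain ⟨s, hs⟩ := (hφ _).1 h0
    have hs0 : s ≠ 0 := by
      rintro rfl
      rw [mul_zero] at hs
      exact X_ne_zero i hs
    have h1 : (X i : MvPolynomial (Fin 3) ℂ).totalDegree = 1 := totalDegree_X i
    rw [hs, totalDegree_mul_of_isDomain hg0 hs0] at h1
    have h2 : g.totalDegree = 0 := by omega
    rw [totalDegree_eq_zero_iff_eq_C] at h2
    apply hg.not_isUnit
    rw [h2]
    have h3 : g.coeff 0 ≠ 0 := by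
      intro h4
      rw [h4, map_zero] at h2
      exact hg0 h2
    exact (IsUnit.mk0 _ h3).map C
  obtain ⟨S, hS, hSN⟩ := normal_net two_ne_zero φ g hφ hg0 W hW M hM hiso' N' hN'W hτ c hc hdet
    (hφX 0) (hφX 1)
  obtain ⟨Q, hQs, hQ⟩ := exists_net hgr M hdeg N' hN'deg S hS hSN
  have hgt := aeval_tvec_ne_zero hgr hg0
  have hdett : aeval tvec (N'.submatrix (Fin.succAbove 0) id).det ≠ 0 := by
    rw [hdet]
    have hh : (g ^ 2 * (C c * X 0)).IsHomogeneous (2 * r * 2 + 1) :=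
      (hgr.pow 2).mul (isHomogeneous_C_mul_X c 0)
    refine aeval_tvec_ne_zero hh ?_
    refine mul_ne_zero (pow_ne_zero 2 hg0) (mul_ne_zero ?_ (X_ne_zero 0))
    rwa [Ne, C_eq_zero]
  obtain ⟨φ', hφ'⟩ := similar_of_net M g hgt N' hτ hdett Q hQs hQ
  refine NetResult.net_result (cubicOf M) (cubicOf_homogeneous M hdeg) hs
    (qM M) (fun v => ?_) (sixQ Q) ⟨aeval tvec g, hgt, ?_⟩
  · rw [qM_apply, aeval_wvec_cubicOf M hdeg]
  · refine ⟨(LinearEquiv.prodCongr (LinearEquiv.funCongrLeft RatK RatK perm4)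
      (LinearEquiv.refl RatK (RatK × RatK))).trans φ', fun v a b => ?_⟩
    have h1 := hφ' (v ∘ perm4) a b
    rw [qM_apply, ← h1]
    rfl

end Final

end Vale.Agent.P287.H925
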