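import Vale.Agent.P287.H925.RankMain
import Vale.Agent.P287.H925.Final

/-!
The scroll theorem without the determinant hypothesis.
-/

open MvPolynomial Matrix

namespace Vale.Agent.P287.H925

lemma homT_of_hom {σ K : Type*} [Field K] {p : MvPolynomial σ K} {n : ℕ} (hp : p.IsHomogeneous n) :
    homT p = Polynomial.C p * Polynomial.X ^ n := by
  classical
  ext1 j
  rw [homT_coeff, Polynomial.coeff_C_mul, Polynomial.coeff_X_pow, homogeneousComponent_of_mem hp]
  by_cases hj : j = n <;> simp [hj]

lemma homT_ne_zero {σ K : Type*} [Field K] {p : MvPolynomial σ K} (hp : p ≠ 0) : homT p ≠ 0 := by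
  intro h1
  apply hp
  rw [← sum_homogeneousComponent p]
  refine Finset.sum_eq_zero fun i _ => ?_
  rw [← homT_coeff, h1, Polynomial.coeff_zero]

/-- an isotropic vector has an isotropic homogeneous component -/
lemma exists_hom_isotropic {k : Type*} [Field k]
    (M : Matrix (Fin 4) (Fin 4) (MvPolynomial (Fin 3) k))
    (hdeg : ∀ i j, (M i j).IsHomogeneous (1 + wt i + wt j))
    (v : Fin 4 → MvPolynomial (Fin 3) k) (hv : v ≠ 0) (hq : v ⬝ᵥ (M *ᵥ v) = 0) :
    ∃ (N : ℕ) (u : Fin 4 → MvPolynomial (Fin 3) k), u ≠ 0 ∧ (∀ i, (u i).IsHomogeneous (N - wt i)) ∧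
      u ⬝ᵥ (M *ᵥ u) = 0 := by
  classical
  set V : Fin 4 → Polynomial (MvPolynomial (Fin 3) k) :=
    fun i => Polynomial.X ^ wt i * homT (v i) with hV
  have h1 : ∑ i, ∑ j, V i * Polynomial.C (M i j) * V j = 0 := by
    have h2 := congrArg homT hq
    simp only [dotProduct, mulVec, map_sum, map_mul, map_zero] at h2
    have h3 : Polynomial.X * ∑ i, ∑ j, V i * Polynomial.C (M i j) * V j = 0 := by
      rw [← h2, Finset.mul_sum]
      refine Finset.sum_congr rfl fun i _ => ?_
      rw [Finset.mul_sum, Finset.mul_sum]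
      refine Finset.sum_congr rfl fun j _ => ?_
      rw [homT_of_hom (hdeg i j), hV]
      ring
    exact (mul_eq_zero.1 h3).resolve_left Polynomial.X_ne_zero
  set N := Finset.univ.sup fun i => (V i).natDegree with hN
  have hle : ∀ i, (V i).natDegree ≤ N := fun i =>
    Finset.le_sup (f := fun i => (V i).natDegree) (Finset.mem_univ i)
  refine ⟨N, fun i => (V i).coeff N, ?_, ?_, ?_⟩
  · intro h0
    obtain ⟨i, hi⟩ : ∃ i, v i ≠ 0 := by
      by_contra h
      push Not at h
      exact hv (funext h)
    have hVi : V i ≠ 0 := mul_ne_zero (pow_ne_zero _ Polynomial.X_ne_zero) (homT_ne_zero hi)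
    obtain ⟨i0, _, hi0⟩ := Finset.exists_mem_eq_sup Finset.univ ⟨i, Finset.mem_univ _⟩
      (fun i => (V i).natDegree)
    rw [← hN] at hi0
    by_cases h3 : V i0 = 0
    · have h4 : N = 0 := by rw [hi0, h3, Polynomial.natDegree_zero]
      have h5 : (V i).natDegree = N := by
        have := hle i
        omega
      have h6 := congrFun h0 i
      simp only [Pi.zero_apply] at h6
      rw [← h5, Polynomial.coeff_natDegree, Polynomial.leadingCoeff_eq_zero] at h6
      exact hVi h6
    · have h6 := congrFun h0 i0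
      simp only [Pi.zero_apply] at h6
      rw [hi0, Polynomial.coeff_natDegree, Polynomial.leadingCoeff_eq_zero] at h6
      exact h3 h6
  · intro i
    simp only [hV]
    rw [Polynomial.coeff_X_pow_mul']
    split_ifs with h
    · rw [homT_coeff]
      exact homogeneousComponent_isHomogeneous _ _
    · exact isHomogeneous_zero _ _ _
  · have h3 := congrArg (fun p => Polynomial.coeff p (N + N)) h1
    simp only [Polynomial.finsetSum_coeff, Polynomial.coeff_zero] at h3
    rw [← h3]
    simp only [dotProduct, mulVec, Finset.mul_sum]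
    refine Finset.sum_congr rfl fun i _ => Finset.sum_congr rfl fun j _ => ?_
    have h4 : (V i * Polynomial.C (M i j)).natDegree ≤ N :=
      (Polynomial.natDegree_mul_C_le _ _).trans (hle i)
    rw [Polynomial.coeff_mul_add_eq_of_natDegree_le h4 (hle j), Polynomial.coeff_mul_C]
    ring

namespace NetResult

open Vale.Agent.P287

/-- if the quadratic form of the fibration is isotropic, then the cubic is rational -/
theorem isotropic_result (F : MvPolynomial (Fin 6) ℂ) (hF : F.IsHomogeneous 3) (hs : SmoothForm F)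
    (q : QuadraticForm RatK (Fin 4 → RatK)) (hq : IsFibrationForm F q)
    (v0 : Fin 4 → RatK) (hv0 : v0 ≠ 0) (hqv : q v0 = 0) :
    RationalHypersurface F := by
  classical
  have hchar : CharZero RatK := charZero_of_injective_algebraMap (algebraMap ℂ RatK).injective
  -- the cubic contains the plane
  obtain ⟨B, hB⟩ := exists_cubic F hF (by
    intro y
    have h1 := hq ![0, algebraMap ℂ RatK (y 0), algebraMap ℂ RatK (y 1), algebraMap ℂ RatK (y 2)]
    have h2 : (wvec tvec ![0, algebraMap ℂ RatK (y 0), algebraMap ℂ RatK (y 1),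
        algebraMap ℂ RatK (y 2)] : Fin 6 → RatK) =
        fun i => algebraMap ℂ RatK ((![0, 0, 0, y 0, y 1, y 2] : Fin 6 → ℂ) i) := by
      funext i
      fin_cases i <;> simp [wvec]
    rw [h2] at h1
    have h3 : aeval (fun i => algebraMap ℂ RatK ((![0, 0, 0, y 0, y 1, y 2] : Fin 6 → ℂ) i)) F =
        algebraMap ℂ RatK (aeval ![0, 0, 0, y 0, y 1, y 2] F) := by
      have := MvPolynomial.comp_aeval_apply (![0, 0, 0, y 0, y 1, y 2] : Fin 6 → ℂ)
        (Algebra.ofId ℂ RatK) F
      exact this.symm
    rw [h3] at h1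
    simp only [Matrix.cons_val_zero, zero_mul] at h1
    exact (map_eq_zero (algebraMap ℂ RatK)).mp h1)
  subst hB
  have nd := nondegenerate_of_smooth B hs
  have hp := prime_of_smooth B hs
  -- the two descriptions of the quadratic form agree
  have hqq : ∀ v : Fin 4 → RatK, q v = qf (qmat B) v := by
    have h1 : ∀ v : Fin 4 → RatK, v 0 ≠ 0 → q v = qf (qmat B) v := by
      intro v hv
      have := hq v
      rw [aeval_cubic_wvec] at this
      have h2 := mul_left_cancel₀ hv this
      rw [qf_qmat, ← h2]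
      simp
    intro v
    by_cases hv : v 0 = 0
    · have e1 := h1 (Pi.single 0 1 + v) (by simp [hv])
      have e2 := h1 (Pi.single 0 1 - v) (by simp [hv])
      have e3 := h1 (Pi.single 0 1) (by simp)
      have p1 := QuadraticMap.map_add q (Pi.single 0 1) v
      have p2 := QuadraticMap.map_add q (Pi.single 0 1) (-v)
      rw [QuadraticMap.map_neg, QuadraticMap.polar_neg_right] at p2
      rw [sub_eq_add_neg] at e2
      rw [p1, qf_add] at e1
      rw [p2, qf_add] at e2
      have hneg : (-v) = (-1 : RatK) • v := by simp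
      rw [hneg, qf_smul, pf_smul_right] at e2
      have : 2 * q v = 2 * qf (qmat B) v := by
        linear_combination e1 + e2 - 2 * e3
      exact mul_left_cancel₀ two_ne_zero this
    · exact h1 v hv
  rw [hqq] at hqv
  exact rational_of_isotropic B hp nd v0 hv0 hqv

end NetResult

open NetResult Vale.Agent.P287 in
/-- the scroll theorem -/
theorem scroll_theorem (M : Matrix (Fin 4) (Fin 4) (MvPolynomial (Fin 3) ℂ)) (hM : M.IsSymm)
    (hdeg : ∀ i j, (M i j).IsHomogeneous (1 + wt i + wt j)) (hs : SmoothForm (cubicOf M))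
    {κ : Type*} [Field κ] (φ : MvPolynomial (Fin 3) ℂ →+* κ)
    (g : MvPolynomial (Fin 3) ℂ) (hg : Irreducible g) (hφ : ∀ p, φ p = 0 ↔ g ∣ p)
    (r : ℕ) (hgr : g.IsHomogeneous (2 * r))
    (W : Submodule κ (Fin 4 → κ)) (hW : Module.finrank κ W = 2)
    (hiso : ∀ w ∈ W, w ⬝ᵥ (M.map φ *ᵥ w) = 0)
    (f : Fin 5 → Fin 4 → MvPolynomial (Fin 3) ℂ) (hf : ∀ j, ScrollForm φ W r (f j))
    (hind : ∀ c : Fin 5 → ℂ, (∀ i, ∑ j, C (c j) * f j i = 0) → c = 0)
    (hΦ : ∀ f, ScrollForm φ W (r - 1) f → f = 0) :
    RationalHypersurface (cubicOf M) := by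
  by_cases haniso : ∀ v : Fin 4 → MvPolynomial (Fin 3) ℂ, v ⬝ᵥ (M *ᵥ v) = 0 → v = 0
  · have hr : 1 ≤ r := by
      rcases Nat.eq_zero_or_pos r with h | h
      · subst h
        exfalso
        obtain ⟨c, hc⟩ := const_of_hom (p := g) hgr
        have hc0 : c ≠ 0 := by
          rintro rfl
          rw [map_zero] at hc
          exact hg.ne_zero hc
        apply hg.not_isUnit
        rw [hc]
        exact (IsUnit.mk0 c hc0).map C
      · exact h
    have h2κ : (2 : κ) ≠ 0 := by
      have h1 : φ (C 2) ≠ 0 := by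
        intro h0
        have h2 := (hφ _).1 h0
        have h3 : IsUnit (C 2 : MvPolynomial (Fin 3) ℂ) :=
          (IsUnit.mk0 (2 : ℂ) two_ne_zero).map C
        exact hg.not_isUnit (isUnit_of_dvd_unit h2 h3)
      have h2 : φ (C 2) = 2 := by
        have : (C 2 : MvPolynomial (Fin 3) ℂ) = 2 := map_ofNat C 2
        rw [this, map_ofNat]
      rwa [h2] at h1
    have hMs : (M.map φ).IsSymm := by
      refine Matrix.ext fun i j => ?_
      simp only [Matrix.transpose_apply, Matrix.map_apply]
      rw [hM.apply]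
    have hiso' : ∀ w ∈ W, ∀ w' ∈ W, w ⬝ᵥ (M.map φ *ᵥ w') = 0 := by
      intro w hw w' hw'
      have h1 := hiso (w + w') (W.add_mem hw hw')
      rw [Matrix.mulVec_add, dotProduct_add, add_dotProduct, add_dotProduct, hiso w hw,
        hiso w' hw'] at h1
      have h2 : w' ⬝ᵥ (M.map φ *ᵥ w) = w ⬝ᵥ (M.map φ *ᵥ w') := by
        rw [Matrix.dotProduct_mulVec, ← Matrix.mulVec_transpose, hMs.eq, dotProduct_comm]
      rw [h2] at h1
      have h3 : 2 * (w ⬝ᵥ (M.map φ *ᵥ w')) = 0 := by linear_combination h1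
      exact (mul_eq_zero.1 h3).resolve_left h2κ
    have hrank := exists_minor two_ne_zero hg hφ hgr hr hW M hM hdeg hiso' haniso hΦ f hf hind
    refine scroll_rational M hM hdeg hs φ g hg hφ r hgr W hW hiso (Matrix.of f)
      (fun j i => (hf j).hom i) ?_ ?_ hrank ?_
    · intro w hw
      funext j
      exact (hf j).van w hw
    · intro c hc
      exact hind c hc
    · intro f h1 h2
      exact hΦ f ⟨h1, h2⟩
  · push Not at haniso
    obtain ⟨v, hv, hv0⟩ := haniso
    obtain ⟨N, u, hu0, huh, huq⟩ := exists_hom_isotropic M hdeg v hv0 hv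
    obtain ⟨i, hi⟩ : ∃ i, u i ≠ 0 := by
      by_contra h
      push Not at h
      exact hu0 (funext h)
    set u' : Fin 4 → RatK := fun i => aeval tvec (u i) with hu'
    have h1 : u' i ≠ 0 := aeval_tvec_ne_zero (huh i) hi
    refine isotropic_result (cubicOf M) (cubicOf_homogeneous M hdeg) hs (qM M) (fun v => ?_)
      (u' ∘ perm4.symm) ?_ ?_
    · rw [qM_apply, aeval_wvec_cubicOf M hdeg]
    · intro h2
      apply h1
      have h3 := congrFun h2 (perm4 i)
      simpa using h3
    · rw [qM_apply]
      have h2 : (u' ∘ perm4.symm) ∘ perm4 = u' := by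
        funext j
        simp
      rw [h2]
      have h3 := congrArg (aeval tvec : MvPolynomial (Fin 3) ℂ →ₐ[ℂ] RatK) huq
      rw [map_zero] at h3
      rw [← h3]
      simp [dotProduct, mulVec, hu']

end Vale.Agent.P287.H925
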