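import Mathlib

open MvPolynomial

namespace Vale.Agent.P287.H925

variable {σ K : Type*} [Field K]

section
attribute [local instance] MvPolynomial.gradedAlgebra

lemma hc_mul {g q : MvPolynomial σ K} {m : ℕ} (hg : g.IsHomogeneous m) (k : ℕ) :
    homogeneousComponent (m + k) (g * q) = g * homogeneousComponent k q := by
  classical
  have h := DirectSum.coe_decompose_mul_add_of_left_mem (homogeneousSubmodule σ K)
    (i := m) (j := k) (a := g) (b := q) ((mem_homogeneousSubmodule _ _).2 hg)
  have h1 : ∀ (n : ℕ) (p : MvPolynomial σ K),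
      ((DirectSum.decompose (homogeneousSubmodule σ K) p) n : MvPolynomial σ K) =
        homogeneousComponent n p := fun n p => decomposition.decompose'_apply p n
  rw [h1, h1] at h
  exact h

end

/-- the quotient of two homogeneous polynomials is homogeneous -/
lemma hom_quot {g q : MvPolynomial σ K} {m n : ℕ} (hg : g.IsHomogeneous m) (hg0 : g ≠ 0)
    (hp : (g * q).IsHomogeneous (m + n)) : q.IsHomogeneous n := by
  have h1 : homogeneousComponent n q = q := by
    have h2 := hc_mul (q := q) hg n
    rw [homogeneousComponent_eq_self hp] at h2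
    exact (mul_left_cancel₀ hg0 h2).symm
  rw [← h1]
  exact homogeneousComponent_isHomogeneous _ _

/-- determinants with homogeneous columns -/
lemma det_hom {m : ℕ} (S : Matrix (Fin m) (Fin m) (MvPolynomial σ K)) (c : Fin m → ℕ)
    (h : ∀ k i, (S k i).IsHomogeneous (c i)) : S.det.IsHomogeneous (∑ i, c i) := by
  rw [Matrix.det_apply]
  refine IsHomogeneous.sum _ _ _ fun τ _ => ?_
  have h1 : (∏ i, S (τ i) i).IsHomogeneous (∑ i, c i) := IsHomogeneous.prod _ _ _ fun i _ => h _ _
  rcases Int.units_eq_one_or (Equiv.Perm.sign τ) with h2 | h2 <;> rw [h2]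
  · simpa using h1
  · simpa using h1.neg

/-- entries of the adjugate of a matrix with homogeneous columns -/
lemma adj_hom {m : ℕ} (S : Matrix (Fin (m + 1)) (Fin (m + 1)) (MvPolynomial σ K))
    (c : Fin (m + 1) → ℕ) (h : ∀ k i, (S k i).IsHomogeneous (c i)) (i j : Fin (m + 1)) (e : ℕ)
    (he : e + c i = ∑ i, c i) : (S.adjugate i j).IsHomogeneous e := by
  rw [Matrix.adjugate_fin_succ_eq_det_submatrix]
  have h1 : (S.submatrix j.succAbove i.succAbove).det.IsHomogeneous
      (∑ k, c (i.succAbove k)) := det_hom _ _ fun k l => h _ _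
  have h2 : ∑ k, c (i.succAbove k) = e := by
    rw [Fin.sum_univ_succAbove c i] at he
    omega
  rw [h2] at h1
  rcases neg_one_pow_eq_or (MvPolynomial σ K) ((j : ℕ) + (i : ℕ)) with h3 | h3 <;> rw [h3]
  · simpa using h1
  · simpa using h1.neg

end Vale.Agent.P287.H925
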