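import Mathlib

open Polynomial

namespace Vale.Agent.P287.H925

/-- the field of rational functions in four variables -/
abbrev L4 (k : Type*) [Field k] : Type _ := FractionRing (MvPolynomial (Fin 4) k)

lemma isAlgebraic_of_adjoin_top {k Ω : Type*} [Field k] [Field Ω] [Algebra k Ω] (s : Set Ω)
    (h : IntermediateField.adjoin k s = ⊤) : Algebra.IsAlgebraic (Algebra.adjoin k s) Ω := by
  constructor
  intro a
  have ha : a ∈ IntermediateField.adjoin k s := by rw [h]; trivial
  obtain ⟨x, hx, y, hy, rfl⟩ := IntermediateField.mem_adjoin_iff_div.1 ha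
  by_cases hy0 : y = 0
  · subst hy0
    simp only [div_zero]
    exact isAlgebraic_zero
  · refine ⟨C (⟨y, hy⟩ : Algebra.adjoin k s) * X - C ⟨x, hx⟩, ?_, ?_⟩
    · intro h0
      have h1 := congrArg (fun p => Polynomial.coeff p 1) h0
      simp only [coeff_sub, coeff_C_mul, coeff_X_one, mul_one, coeff_C_succ, sub_zero,
        coeff_zero] at h1
      exact hy0 (congrArg Subtype.val h1)
    · simp only [map_sub, map_mul, aeval_C, aeval_X]
      change y * (x / y) - x = 0
      field_simp
      ring

lemma indep5 {k : Type*} [Field k] (x : Fin 5 → FractionRing (L4 k)[X])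
    (h : IntermediateField.adjoin k (Set.range x) = ⊤) : AlgebraicIndependent k x := by
  have i1 : Algebra.IsAlgebraic (MvPolynomial (Fin 4) k) (L4 k) :=
    IsLocalization.isAlgebraic _ (nonZeroDivisors (MvPolynomial (Fin 4) k))
  have i2 : Algebra.IsAlgebraic (L4 k)[X] (FractionRing (L4 k)[X]) :=
    IsLocalization.isAlgebraic _ (nonZeroDivisors (L4 k)[X])
  have hx : IsTranscendenceBasis k
      (algebraMap (MvPolynomial (Fin 4) k) (L4 k) ∘ MvPolynomial.X) :=
    (IsTranscendenceBasis.mvPolynomial (Fin 4) k).algebraMap_comp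
  have hy : IsTranscendenceBasis (L4 k)
      (algebraMap (L4 k)[X] (FractionRing (L4 k)[X]) ∘ fun _ : Fin 1 => (X : (L4 k)[X])) :=
    (IsTranscendenceBasis.polynomial (ι := Fin 1) (R := L4 k)).algebraMap_comp
  have hxy := IsTranscendenceBasis.sumElim_comp hx hy
  have halg := isAlgebraic_of_adjoin_top (Set.range x) h
  refine (Algebra.IsAlgebraic.isTranscendenceBasis_of_lift_le_trdeg_of_finite k x ?_).1
  rw [← hxy.lift_cardinalMk_eq_trdeg]
  simp

end Vale.Agent.P287.H925
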