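import Vale.Agent.P287.H925.Five
import Vale.Agent.P287.H925.Tr

open Matrix Polynomial

namespace Vale.Agent.P287.H925

section Aux

variable {k : Type*} [Field k]

lemma top_of_mem (E : IntermediateField k (FractionRing (L4 k)[X]))
    (hX : algebraMap (L4 k)[X] (FractionRing (L4 k)[X]) X ∈ E)
    (hz : ∀ i : Fin 4, algebraMap (L4 k)[X] (FractionRing (L4 k)[X])
      (C (algebraMap (MvPolynomial (Fin 4) k) (L4 k) (MvPolynomial.X i))) ∈ E) : E = ⊤ := by
  have h1 : ∀ p : MvPolynomial (Fin 4) k, algebraMap (L4 k)[X] (FractionRing (L4 k)[X])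
      (C (algebraMap (MvPolynomial (Fin 4) k) (L4 k) p)) ∈ E := by
    intro p
    induction p using MvPolynomial.induction_on with
    | C a =>
      have h2 : algebraMap (L4 k)[X] (FractionRing (L4 k)[X])
          (C (algebraMap (MvPolynomial (Fin 4) k) (L4 k) (MvPolynomial.C a))) =
          algebraMap k (FractionRing (L4 k)[X]) a := by
        rw [← MvPolynomial.algebraMap_eq, ← IsScalarTower.algebraMap_apply k _ (L4 k),
          ← Polynomial.algebraMap_eq, ← IsScalarTower.algebraMap_apply k _ (L4 k)[X],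
          ← IsScalarTower.algebraMap_apply k _ (FractionRing (L4 k)[X])]
      rw [h2]
      exact E.algebraMap_mem a
    | add p q hp hq => simpa using E.add_mem hp hq
    | mul_X p i hp => simpa using E.mul_mem hp (hz i)
  have h2 : ∀ a : L4 k, algebraMap (L4 k)[X] (FractionRing (L4 k)[X]) (C a) ∈ E := by
    intro a
    obtain ⟨p, q, hq, rfl⟩ := IsFractionRing.div_surjective (A := MvPolynomial (Fin 4) k) a
    have h3 : algebraMap (L4 k)[X] (FractionRing (L4 k)[X])
        (C (algebraMap (MvPolynomial (Fin 4) k) (L4 k) p / algebraMap _ _ q)) =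
        algebraMap (L4 k)[X] (FractionRing (L4 k)[X])
          (C (algebraMap (MvPolynomial (Fin 4) k) (L4 k) p)) /
        algebraMap (L4 k)[X] (FractionRing (L4 k)[X])
          (C (algebraMap (MvPolynomial (Fin 4) k) (L4 k) q)) := by
      exact map_div₀ ((algebraMap (L4 k)[X] (FractionRing (L4 k)[X])).comp C) _ _
    rw [h3]
    exact E.div_mem (h1 p) (h1 q)
  rw [eq_top_iff]
  intro a _
  obtain ⟨p, q, hq, rfl⟩ := IsFractionRing.div_surjective (A := (L4 k)[X]) a
  have h4 : ∀ p : (L4 k)[X], algebraMap (L4 k)[X] (FractionRing (L4 k)[X]) p ∈ E := by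
    intro p
    induction p using Polynomial.induction_on' with
    | add p q hp hq => simpa using E.add_mem hp hq
    | monomial n a =>
      rw [← Polynomial.C_mul_X_pow_eq_monomial, map_mul, map_pow]
      exact E.mul_mem (h2 a) (E.pow_mem hX n)
  exact E.div_mem (h4 p) (h4 q)

/-- the generic point of `ℙ⁴` in the chart where the last coordinate is one -/
noncomputable def zL (k : Type*) [Field k] : Fin 5 → L4 k :=
  ![algebraMap _ _ (MvPolynomial.X 0 : MvPolynomial (Fin 4) k),
    algebraMap _ _ (MvPolynomial.X 1 : MvPolynomial (Fin 4) k),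
    algebraMap _ _ (MvPolynomial.X 2 : MvPolynomial (Fin 4) k),
    algebraMap _ _ (MvPolynomial.X 3 : MvPolynomial (Fin 4) k), 1]

lemma zL_indep (c : Fin 5 → k) (h : ∑ j, algebraMap k (L4 k) (c j) * zL k j = 0) : c = 0 := by
  have h1 : algebraMap (MvPolynomial (Fin 4) k) (L4 k)
      (MvPolynomial.C (c 0) * MvPolynomial.X 0 + MvPolynomial.C (c 1) * MvPolynomial.X 1 +
        MvPolynomial.C (c 2) * MvPolynomial.X 2 + MvPolynomial.C (c 3) * MvPolynomial.X 3 +
        MvPolynomial.C (c 4)) = 0 := by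
    rw [← h, Fin.sum_univ_five]
    simp only [zL, map_add, map_mul, mul_one, Matrix.cons_val_zero, Matrix.cons_val_one,
      Matrix.cons_val]
    simp only [← MvPolynomial.algebraMap_eq,
      ← IsScalarTower.algebraMap_apply k (MvPolynomial (Fin 4) k) (L4 k)]
  have h2 := (map_eq_zero_iff _ (IsFractionRing.injective (MvPolynomial (Fin 4) k) (L4 k))).1 h1
  have h3 : ∀ x : Fin 4 → k, c 0 * x 0 + c 1 * x 1 + c 2 * x 2 + c 3 * x 3 + c 4 = 0 := by
    intro x
    have := congrArg (MvPolynomial.eval x) h2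
    simpa using this
  have h4 : c 4 = 0 := by simpa using h3 0
  ext j
  fin_cases j
  · simpa [h4] using h3 ![1, 0, 0, 0]
  · simpa [h4] using h3 ![0, 1, 0, 0]
  · simpa [h4] using h3 ![0, 0, 1, 0]
  · simpa [h4] using h3 ![0, 0, 0, 1]
  · exact h4

/-- a linear form is a combination of the variables -/
lemma lin_form {p : MvPolynomial (Fin 3) k} (hp : p.IsHomogeneous 1) :
    ∃ c : Fin 3 → k, p = ∑ i, MvPolynomial.C (c i) * MvPolynomial.X i := by
  have h1 : p ∈ MvPolynomial.homogeneousSubmodule (Fin 3) k 1 := hp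
  rw [MvPolynomial.homogeneousSubmodule_one_eq_span_X, Submodule.mem_span_range_iff_exists_fun]
    at h1
  obtain ⟨c, hc⟩ := h1
  exact ⟨c, by rw [← hc]; simp [MvPolynomial.smul_eq_C_mul]⟩

/-- an injective matrix has a left inverse -/
lemma left_inv (Λ : Matrix (Fin 5) (Fin 3) k) (h : ∀ a, Λ *ᵥ a = 0 → a = 0) :
    ∃ μ : Matrix (Fin 3) (Fin 5) k, μ * Λ = 1 := by
  have h1 : LinearMap.ker (Matrix.toLin' Λ) = ⊥ := by
    rw [LinearMap.ker_eq_bot']
    intro a ha
    exact h a (by simpa using ha)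
  obtain ⟨f, hf⟩ := LinearMap.exists_leftInverse_of_injective (Matrix.toLin' Λ) h1
  refine ⟨LinearMap.toMatrix' f, ?_⟩
  have h2 := congrArg LinearMap.toMatrix' hf
  rwa [LinearMap.toMatrix'_comp, LinearMap.toMatrix'_toLin', LinearMap.toMatrix'_id] at h2

end Aux

end Vale.Agent.P287.H925
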