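import Mathlib

open MvPolynomial Matrix

namespace Vale.Agent.P287.H925

/-- The dehomogenisation: the first variable is put equal to one. -/
noncomputable def dehom {n : ℕ} {k : Type*} [CommSemiring k] :
    MvPolynomial (Fin (n + 1)) k →ₐ[k] MvPolynomial (Fin n) k :=
  aeval (Fin.cons 1 X)

/-- The hypersurface `F = 0` in five dimensional projective space is rational: the function field
`Frac (ℂ[x₁, …, x₅] / (F (1, x₁, …, x₅)))` is isomorphic to `ℂ(y₁, …, y₄)` over `ℂ`. -/
def IsRational (F : MvPolynomial (Fin 6) ℂ) : Prop :=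
  Nonempty (FractionRing (MvPolynomial (Fin 5) ℂ ⧸ Ideal.span {dehom F}) ≃ₐ[ℂ]
    FractionRing (MvPolynomial (Fin 4) ℂ))

/-- The hypersurface `F = 0` is smooth. -/
def IsSmooth (F : MvPolynomial (Fin 6) ℂ) : Prop :=
  ∀ x : Fin 6 → ℂ, (∀ i, eval x (pderiv i F) = 0) → x = 0

/-- the weights of the four coordinates of a fibre -/
def wt : Fin 4 → ℕ := ![0, 0, 0, 1]

/-- The cubic form `∑ M i j (x₀, x₁, x₂) v_i v_j` with `v = (x₃, x₄, x₅, 1)`; when `M i j` is
homogeneous of degree `1 + wt i + wt j` this is a cubic form which vanishes on the plane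
`x₀ = x₁ = x₂ = 0`, and all cubic forms which vanish on this plane are of this shape. -/
noncomputable def cubicOf (M : Matrix (Fin 4) (Fin 4) (MvPolynomial (Fin 3) ℂ)) :
    MvPolynomial (Fin 6) ℂ :=
  ![X 3, X 4, X 5, 1] ⬝ᵥ ((M.map (aeval ![X 0, X 1, X 2])) *ᵥ ![X 3, X 4, X 5, 1])

end Vale.Agent.P287.H925
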