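import Vale.Agent.P287.H925.RankPrim
import Vale.Agent.P287.H925.Core
import Vale.Agent.P287.H925.Defs

/-!
Independence of forms through the scroll: if the coefficients of the relations between them have
degree at most one, then there is a relation with constant coefficients.
-/

open MvPolynomial Matrix

namespace Vale.Agent.P287.H925

variable {k : Type*} [Field k]

section Lin

lemma span_of_vanish (a b u z : Fin 3 → k) (hz : z ≠ 0) (h1 : a ⬝ᵥ z = 0) (h2 : b ⬝ᵥ z = 0)
    (h3 : u ⬝ᵥ z = 0) (hind : ∀ s t : k, s • a + t • b = 0 → s = 0 ∧ t = 0) :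
    ∃ s t : k, u = s • a + t • b := by
  let A : Matrix (Fin 3) (Fin 3) k := Matrix.of ![a, b, u]
  have hA : A *ᵥ z = 0 := by
    funext i
    fin_cases i
    · exact h1
    · exact h2
    · exact h3
  have hdet : A.det = 0 := Matrix.exists_mulVec_eq_zero_iff.1 ⟨z, hz, hA⟩
  obtain ⟨c, hc, hcA⟩ := Matrix.exists_vecMul_eq_zero_iff.2 hdet
  have h4 : c 0 • a + c 1 • b + c 2 • u = 0 := by
    rw [← hcA]
    funext j
    simp only [Matrix.vecMul, dotProduct, Fin.sum_univ_three, Pi.add_apply, Pi.smul_apply,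
      smul_eq_mul]
    rfl
  have h5 : c 2 ≠ 0 := by
    intro h5
    rw [h5, zero_smul, add_zero] at h4
    obtain ⟨h6, h7⟩ := hind _ _ h4
    apply hc
    funext i
    fin_cases i
    · exact h6
    · exact h7
    · exact h5
  refine ⟨-(c 0 / c 2), -(c 1 / c 2), ?_⟩
  have h6 : c 2 • u = -(c 0) • a + -(c 1) • b := by
    have h7 := eq_neg_of_add_eq_zero_right h4
    rw [h7]
    simp only [neg_smul, neg_add]
  funext j
  have h7 := congrFun h6 j
  simp only [Pi.smul_apply, Pi.add_apply, smul_eq_mul] at h7 ⊢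
  field_simp
  linear_combination h7

lemma exists_common_zero (a b : Fin 3 → k) : ∃ z : Fin 3 → k, z ≠ 0 ∧ a ⬝ᵥ z = 0 ∧ b ⬝ᵥ z = 0 := by
  let A : Matrix (Fin 3) (Fin 3) k := Matrix.of ![a, b, 0]
  have hdet : A.det = 0 := Matrix.det_eq_zero_of_row_eq_zero 2 (fun j => rfl)
  obtain ⟨z, hz, hA⟩ := Matrix.exists_mulVec_eq_zero_iff.2 hdet
  exact ⟨z, hz, congrFun hA 0, congrFun hA 1⟩

/-- the linear form with given coefficients -/
noncomputable def lin (a : Fin 3 → k) : MvPolynomial (Fin 3) k := ∑ i, C (a i) * X i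

lemma lin_hom (a : Fin 3 → k) : (lin a).IsHomogeneous 1 :=
  IsHomogeneous.sum _ _ _ fun _ _ => isHomogeneous_C_mul_X _ _

lemma lin_add (a b : Fin 3 → k) (s t : k) : lin (s • a + t • b) = C s * lin a + C t * lin b := by
  simp only [lin, Pi.add_apply, Pi.smul_apply, smul_eq_mul, map_add, map_mul, Finset.mul_sum]
  rw [← Finset.sum_add_distrib]
  exact Finset.sum_congr rfl fun i _ => by ring

lemma eval_lin (a z : Fin 3 → k) : eval z (lin a) = a ⬝ᵥ z := by
  simp [lin, dotProduct]

lemma lin_inj {a : Fin 3 → k} (h : lin a = 0) : a = 0 := by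
  funext i
  have h1 := eval_lin a (Pi.single i 1)
  rw [h, map_zero] at h1
  simpa using h1.symm

lemma exists_lin {p : MvPolynomial (Fin 3) k} (hp : p.IsHomogeneous 1) : ∃ a, p = lin a :=
  lin_form hp

lemma const_of_hom {σ : Type*} {p : MvPolynomial σ k} (hp : p.IsHomogeneous 0) :
    ∃ c, p = C c := by
  refine ⟨coeff 0 p, ?_⟩
  exact totalDegree_eq_zero_iff_eq_C.1 (Nat.le_zero.1 hp.totalDegree_le)

lemma dvd_lin {l p : MvPolynomial (Fin 3) k} (hl : l.IsHomogeneous 1) (hl0 : l ≠ 0)
    (hp : p.IsHomogeneous 1) (h : l ∣ p) : ∃ c, p = C c * l := by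
  obtain ⟨q, rfl⟩ := h
  obtain ⟨c, rfl⟩ := const_of_hom (hom_quot (n := 0) hl hl0 hp)
  exact ⟨c, mul_comm _ _⟩

lemma prime_lin {l : MvPolynomial (Fin 3) k} (hl : l.IsHomogeneous 1) (hl0 : l ≠ 0) :
    Prime l := by
  rw [← irreducible_iff_prime]
  have hu : ∀ p : MvPolynomial (Fin 3) k, p.IsHomogeneous 0 → p ≠ 0 → IsUnit p := by
    intro p hp hp0
    obtain ⟨c, rfl⟩ := const_of_hom hp
    have hc : c ≠ 0 := by
      rintro rfl
      exact hp0 (map_zero _)
    exact (IsUnit.mk0 c hc).map C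
  refine ⟨?_, ?_⟩
  · intro h
    obtain ⟨q, hq⟩ := h.exists_right_inv
    have h1 : (l * q).totalDegree = 0 := by rw [hq, totalDegree_one]
    rw [totalDegree_mul_of_isDomain hl0 (by rintro rfl; simp at hq), hl.totalDegree hl0] at h1
    omega
  · intro a b hab
    rw [hab] at hl hl0
    obtain ⟨m, n, hm, hn, hmn⟩ := homog_factor hl hl0
    rcases Nat.eq_zero_or_pos m with h | h
    · subst h
      exact Or.inl (hu a hm (left_ne_zero_of_mul hl0))
    · have hn0 : n = 0 := by omega
      subst hn0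
      exact Or.inr (hu b hn (right_ne_zero_of_mul hl0))

end Lin

section Core

variable {κ : Type*} [Field κ] (φ : MvPolynomial (Fin 3) k →+* κ)
  (W : Submodule κ (Fin 4 → κ))

/-- `f` is a form of degree `n + 1` with multiplicity `n` along the plane, through the scroll -/
structure ScrollForm (n : ℕ) (f : Fin 4 → MvPolynomial (Fin 3) k) : Prop where
  hom : ∀ i, (f i).IsHomogeneous (n + wt i)
  van : ∀ w ∈ W, ∑ i, φ (f i) * w i = 0

variable {φ W}

lemma ScrollForm.sum {T : Type*} (s : Finset T) {n : ℕ} {f : T → Fin 4 → MvPolynomial (Fin 3) k}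
    (hf : ∀ j, ScrollForm φ W n (f j)) (c : T → k) :
    ScrollForm φ W n (fun i => ∑ j ∈ s, C (c j) * f j i) := by
  refine ⟨fun i => IsHomogeneous.sum _ _ _ fun j _ => (hf j).hom i |>.C_mul (c j), ?_⟩
  intro w hw
  simp only [map_sum, map_mul, Finset.sum_mul]
  rw [Finset.sum_comm]
  refine Finset.sum_eq_zero fun j _ => ?_
  calc ∑ i, φ (C (c j)) * φ (f j i) * w i = φ (C (c j)) * ∑ i, φ (f j i) * w i := by
        rw [Finset.mul_sum]; exact Finset.sum_congr rfl fun i _ => by ring
    _ = 0 := by rw [(hf j).van w hw, mul_zero]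

variable {g : MvPolynomial (Fin 3) k} {r : ℕ}

lemma ScrollForm.eq_zero_of_dvd (hφ : ∀ p, φ p = 0 ↔ g ∣ p) (hg0 : g ≠ 0)
    (hgr : g.IsHomogeneous (2 * r)) (hr : 1 ≤ r)
    (hΦ : ∀ f, ScrollForm φ W (r - 1) f → f = 0) {F : Fin 4 → MvPolynomial (Fin 3) k}
    (hF : ScrollForm φ W r F) {l : MvPolynomial (Fin 3) k} (hl : l.IsHomogeneous 1)
    (hl0 : l ≠ 0) (h : ∀ i, l ∣ F i) : F = 0 := by
  choose f hf using h
  have hφl : φ l ≠ 0 := by
    intro h1
    obtain ⟨q, hq⟩ := (hφ _).1 h1
    have hq0 : q ≠ 0 := by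
      rintro rfl
      rw [mul_zero] at hq
      exact hl0 hq
    have h2 := congrArg totalDegree hq
    rw [totalDegree_mul_of_isDomain hg0 hq0, hl.totalDegree hl0, hgr.totalDegree hg0] at h2
    omega
  have h1 : f = 0 := by
    apply hΦ
    refine ⟨fun i => ?_, fun w hw => ?_⟩
    · have h2 := hF.hom i
      rw [hf i] at h2
      refine hom_quot (m := 1) hl hl0 ?_
      have h3 : 1 + (r - 1 + wt i) = r + wt i := by omega
      rwa [h3]
    · have h2 := hF.van w hw
      simp only [hf, map_mul] at h2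
      have h3 : φ l * ∑ i, φ (f i) * w i = 0 := by
        rw [Finset.mul_sum, ← h2]
        exact Finset.sum_congr rfl fun i _ => by ring
      exact (mul_eq_zero.1 h3).resolve_left hφl
  funext i
  rw [hf i, h1]
  simp

/-- the main lemma: no relations with coefficients of degree at most one -/
theorem core_false (hφ : ∀ p, φ p = 0 ↔ g ∣ p) (hg0 : g ≠ 0)
    (hgr : g.IsHomogeneous (2 * r)) (hr : 1 ≤ r)
    (hΦ : ∀ f, ScrollForm φ W (r - 1) f → f = 0)
    {T : Type*} [Fintype T] (f0 f1 : Fin 4 → MvPolynomial (Fin 3) k)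
    (f : T → Fin 4 → MvPolynomial (Fin 3) k) (hf : ∀ j, ScrollForm φ W r (f j))
    (hind : ∀ (a b : k) (c : T → k),
      (∀ i, C a * f0 i + C b * f1 i + ∑ j, C (c j) * f j i = 0) → a = 0 ∧ b = 0 ∧ c = 0)
    (l : MvPolynomial (Fin 3) k) (x y : T → MvPolynomial (Fin 3) k) (δ : ℕ) (hδ : δ ≤ 1)
    (hl : l.IsHomogeneous δ) (hl0 : l ≠ 0) (hx : ∀ j, (x j).IsHomogeneous δ)
    (hy : ∀ j, (y j).IsHomogeneous δ)
    (hx1 : ∀ i, l * f1 i = ∑ j, x j * f j i) (hy1 : ∀ i, l * f0 i = ∑ j, y j * f j i)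
    (hxy : ∀ i j, l ∣ x i * y j - x j * y i) : False := by
  classical
  -- the first case
  have caseA : ∀ (α β : k) (c : T → k), (∀ j, C α * x j + C β * y j = C (c j) * l) →
      α = 0 ∧ β = 0 := by
    intro α β c hc
    have h1 := hind β α (-c) (by
      intro i
      apply mul_left_cancel₀ hl0
      have e1 : l * (C β * f0 i + C α * f1 i + ∑ j, C ((-c) j) * f j i) =
          C β * (l * f0 i) + C α * (l * f1 i) - ∑ j, (C (c j) * l) * f j i := by
        have e2 : ∑ j, C ((-c) j) * f j i = - ∑ j, C (c j) * f j i := by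
          rw [← Finset.sum_neg_distrib]
          exact Finset.sum_congr rfl fun j _ => by simp
        have e3 : ∑ j, (C (c j) * l) * f j i = l * ∑ j, C (c j) * f j i := by
          rw [Finset.mul_sum]
          exact Finset.sum_congr rfl fun j _ => by ring
        rw [e2, e3]
        ring
      rw [e1, hx1, hy1, Finset.mul_sum, Finset.mul_sum, ← Finset.sum_add_distrib,
        ← Finset.sum_sub_distrib, mul_zero]
      refine Finset.sum_eq_zero fun j _ => ?_
      rw [← hc j]
      ring)
    exact ⟨h1.2.1, h1.1⟩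
  rcases Nat.eq_zero_or_pos δ with h | h
  · subst h
    obtain ⟨a, rfl⟩ := const_of_hom hl
    have ha : a ≠ 0 := by
      rintro rfl
      exact hl0 (map_zero _)
    choose c hc using fun j => const_of_hom (hx j)
    have h1 := caseA 1 0 (fun j => c j / a) (fun j => by
      have h2 : c j / a * a = c j := by field_simp
      rw [hc j, map_one, one_mul, map_zero, zero_mul, add_zero, ← map_mul, h2])
    exact one_ne_zero h1.1
  have hδ1 : δ = 1 := by omega
  subst hδ1
  have hlp := prime_lin hl hl0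
  -- there is an index with `x j` not a multiple of `l`
  obtain ⟨m, hm⟩ : ∃ j, ¬ l ∣ x j := by
    by_contra h1
    push Not at h1
    choose c hc using fun j => dvd_lin hl hl0 (hx j) (h1 j)
    have h2 := caseA 1 0 c (fun j => by rw [hc j]; simp)
    exact one_ne_zero h2.1
  obtain ⟨ll, rfl⟩ := exists_lin hl
  choose ξ hξ using fun j => exists_lin (hx j)
  choose η hη using fun j => exists_lin (hy j)
  have hindep : ∀ s t : k, s • ll + t • ξ m = 0 → s = 0 ∧ t = 0 := by
    intro s t hst
    have h1 : C s * lin ll + C t * lin (ξ m) = 0 := by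
      rw [← lin_add, hst]
      simp [lin]
    have ht : t = 0 := by
      by_contra ht
      apply hm
      rw [hξ m]
      refine ⟨C (-(s / t)), ?_⟩
      have h2 : (C t : MvPolynomial (Fin 3) k) ≠ 0 := by rwa [Ne, C_eq_zero]
      apply mul_left_cancel₀ h2
      have h3 : (C t : MvPolynomial (Fin 3) k) * C (-(s / t)) = - C s := by
        rw [← map_mul, ← map_neg]
        congr 1
        field_simp
      linear_combination h1 - lin ll * h3
    subst ht
    rw [map_zero, zero_mul, add_zero] at h1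
    have h2 := (mul_eq_zero.1 h1).resolve_right hl0
    rw [C_eq_zero] at h2
    exact ⟨h2, rfl⟩
  obtain ⟨z, hz, hz1, hz2⟩ := exists_common_zero ll (ξ m)
  -- evaluation of the relation
  have hev : ∀ i j, (ξ i ⬝ᵥ z) * (η j ⬝ᵥ z) - (ξ j ⬝ᵥ z) * (η i ⬝ᵥ z) = 0 := by
    intro i j
    obtain ⟨q, hq⟩ := hxy i j
    have h1 := congrArg (eval z) hq
    rw [map_mul, eval_lin, hz1, zero_mul, map_sub, map_mul, map_mul, hξ, hη, hξ, hη, eval_lin,
      eval_lin, eval_lin, eval_lin] at h1
    exact h1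
  have hηm : η m ⬝ᵥ z ≠ 0 := by
    intro h1
    obtain ⟨s, t, hst⟩ := span_of_vanish ll (ξ m) (η m) z hz hz1 hz2 h1 hindep
    have h2 : ∀ j, ∃ c, y j - C t * x j = C c * lin ll := by
      intro j
      apply dvd_lin hl hl0
      · exact (hy j).sub ((hx j).C_mul t)
      · have h3 : lin ll ∣ x m * (y j - C t * x j) := by
          obtain ⟨q, hq⟩ := hxy m j
          have h4 : y m = C s * lin ll + C t * x m := by
            rw [hη m, hst, lin_add, ← hξ m]
          refine ⟨q + C s * x j, ?_⟩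
          rw [h4] at hq
          linear_combination hq
        exact (hlp.dvd_or_dvd h3).resolve_left hm
    choose c hc using h2
    have h3 := caseA (-t) 1 c (fun j => by
      rw [← hc j, map_neg, map_one]
      ring)
    exact one_ne_zero h3.2
  -- all the `x j` are combinations of `l` and `x m`
  have hall : ∀ j, ∃ s t : k, x j = C s * lin ll + C t * x m := by
    intro j
    have h1 := hev m j
    rw [hz2, zero_mul, zero_sub, neg_eq_zero] at h1
    have h2 := (mul_eq_zero.1 h1).resolve_right hηm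
    obtain ⟨s, t, hst⟩ := span_of_vanish ll (ξ m) (ξ j) z hz hz1 hz2 h2 hindep
    exact ⟨s, t, by rw [hξ j, hst, lin_add, ← hξ m]⟩
  choose s t hst using hall
  have htm : t m ≠ 0 := by
    intro h1
    have h2 := hst m
    rw [h1, map_zero, zero_mul, add_zero] at h2
    exact hm ⟨C (s m), by rw [h2]; ring⟩
  have hF : (fun i => ∑ j, C (t j) * f j i) = 0 := by
    refine (ScrollForm.sum Finset.univ hf t).eq_zero_of_dvd hφ hg0 hgr hr hΦ hl hl0 fun i => ?_
    have h1 : lin ll ∣ x m * ∑ j, C (t j) * f j i := by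
      refine ⟨f1 i - ∑ j, C (s j) * f j i, ?_⟩
      rw [mul_sub, hx1, Finset.mul_sum, Finset.mul_sum, ← Finset.sum_sub_distrib]
      refine Finset.sum_congr rfl fun j _ => ?_
      rw [hst j]
      ring
    exact (hlp.dvd_or_dvd h1).resolve_left hm
  have h1 := hind 0 0 t (fun i => by
    have := congrFun hF i
    simp only [Pi.zero_apply] at this
    rw [this]
    simp)
  exact htm (congrFun h1.2.2 m)

end Core

end Vale.Agent.P287.H925
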