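import Mathlib

open Matrix

namespace Vale.Agent.P287.H925

section Lin

variable {κ : Type*} [Field κ]

/-- a subspace of dimension at least two contains a nonzero vector with vanishing `i`-th
coordinate -/
lemma exists_coord_zero {n : ℕ} (W : Submodule κ (Fin n → κ)) (hW : 2 ≤ Module.finrank κ W)
    (i : Fin n) : ∃ w ∈ W, w ≠ 0 ∧ w i = 0 := by
  by_contra hcon
  push Not at hcon
  have hinj : Function.Injective ((LinearMap.proj i : (Fin n → κ) →ₗ[κ] κ).comp W.subtype) := by
    rw [← LinearMap.ker_eq_bot, LinearMap.ker_eq_bot']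
    intro w hw
    by_contra hne
    exact hcon w w.2 (fun h => hne (Subtype.ext h)) hw
  have := LinearMap.finrank_le_finrank_of_injective hinj
  simp at this
  omega

/-- the adjugate of a matrix with a kernel of dimension at least two is zero -/
lemma adjugate_eq_zero {n : ℕ} (S : Matrix (Fin n) (Fin n) κ) (W : Submodule κ (Fin n → κ))
    (hW : 2 ≤ Module.finrank κ W) (hS : ∀ w ∈ W, S *ᵥ w = 0) : S.adjugate = 0 := by
  ext i j
  rw [Matrix.adjugate_apply, Matrix.zero_apply]
  obtain ⟨w, hw, hw0, hwi⟩ := exists_coord_zero W hW i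
  rw [← Matrix.exists_mulVec_eq_zero_iff]
  refine ⟨w, hw0, ?_⟩
  ext k
  by_cases hk : k = j
  · subst hk
    simp [Matrix.mulVec, Matrix.updateRow_self, hwi]
  · have h1 := congrFun (hS w hw) k
    simp only [Matrix.mulVec, Pi.zero_apply] at h1 ⊢
    rw [Matrix.updateRow_ne hk]
    exact h1

variable {R : Type*} [CommRing R] [IsDomain R] (φ : R →+* κ) (g : R)


/-- division of the adjugate -/
lemma step_one {n : ℕ} (hφ : ∀ p, φ p = 0 ↔ g ∣ p) (hg : g ≠ 0)
    (S : Matrix (Fin (n + 1)) (Fin (n + 1)) R) (W : Submodule κ (Fin (n + 1) → κ))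
    (hW : 2 ≤ Module.finrank κ W) (hS : ∀ w ∈ W, S.map φ *ᵥ w = 0) :
    ∃ (A : Matrix (Fin (n + 1)) (Fin (n + 1)) R) (d : R), S.adjugate = g • A ∧
      S.det = g ^ 2 * d ∧ S * A = (g * d) • (1 : Matrix _ _ R) ∧
      A * S = (g * d) • (1 : Matrix _ _ R) := by
  have hadj : ∀ i j, g ∣ S.adjugate i j := by
    intro i j
    rw [← hφ]
    have h1 := adjugate_eq_zero (S.map φ) W hW hS
    have h2 : (S.adjugate).map φ = (S.map φ).adjugate := by
      simpa using RingHom.map_adjugate φ S
    have h3 := congrFun (congrFun (h2.trans h1) i) j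
    simpa using h3
  choose A hA using hadj
  have hA' : S.adjugate = g • (Matrix.of A) := by
    ext i j; simp [hA]
  have h1 : g • (S * Matrix.of A) = S.det • (1 : Matrix _ _ R) := by
    rw [← Matrix.mul_smul, ← hA', Matrix.mul_adjugate]
  have h1' : g • (Matrix.of A * S) = S.det • (1 : Matrix _ _ R) := by
    rw [← Matrix.smul_mul, ← hA', Matrix.adjugate_mul]
  obtain ⟨e, he⟩ : ∃ e, S.det = g * e := by
    have := congrFun (congrFun h1 0) 0
    simp only [Matrix.smul_apply, smul_eq_mul, Matrix.one_apply_eq, mul_one] at this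
    exact ⟨_, this.symm⟩
  have h2 : S * Matrix.of A = e • (1 : Matrix _ _ R) := by
    ext i j
    have := congrFun (congrFun h1 i) j
    rw [he] at this
    simp only [Matrix.smul_apply, smul_eq_mul, mul_assoc] at this ⊢
    exact mul_left_cancel₀ hg this
  have h2' : Matrix.of A * S = e • (1 : Matrix _ _ R) := by
    ext i j
    have := congrFun (congrFun h1' i) j
    rw [he] at this
    simp only [Matrix.smul_apply, smul_eq_mul, mul_assoc] at this ⊢
    exact mul_left_cancel₀ hg this
  have hwne : ∃ w ∈ W, w ≠ 0 := by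
    obtain ⟨w, hw, hw0, _⟩ := exists_coord_zero W hW 0
    exact ⟨w, hw, hw0⟩
  obtain ⟨w, hw, hw0⟩ := hwne
  have he0 : φ e = 0 := by
    by_contra hne
    have h3 : (Matrix.of A).map φ * S.map φ = φ e • (1 : Matrix _ _ κ) := by
      have := congrArg (fun B : Matrix (Fin (n + 1)) (Fin (n + 1)) R => B.map φ) h2'
      simp only [Matrix.map_mul] at this
      rw [this]
      ext i j
      by_cases hij : i = j <;> simp [hij]
    have h4 := congrArg (fun B => B *ᵥ w) h3
    simp only [← Matrix.mulVec_mulVec, hS w hw, Matrix.mulVec_zero, Matrix.smul_mulVec,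
      Matrix.one_mulVec] at h4
    exact hw0 ((smul_eq_zero.1 h4.symm).resolve_left hne)
  obtain ⟨d, hd⟩ := (hφ e).1 he0
  refine ⟨Matrix.of A, d, hA', ?_, ?_, ?_⟩
  · rw [he, hd]; ring
  · rw [h2, hd]
  · rw [h2', hd]

/-- if the kernel has dimension at least three then `d` vanishes -/
lemma step_two {n : ℕ} (hφ : ∀ p, φ p = 0 ↔ g ∣ p) (hg : g ≠ 0)
    (S A : Matrix (Fin (n + 1)) (Fin (n + 1)) R) (d : R) (hA : S.adjugate = g • A)
    (hSA : A * S = (g * d) • (1 : Matrix _ _ R)) (W : Submodule κ (Fin (n + 1) → κ))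
    (hW : 3 ≤ Module.finrank κ W) (hS : ∀ w ∈ W, S.map φ *ᵥ w = 0) : φ d = 0 := by
  have hAij : ∀ i j, g ∣ A i j := by
    intro i j
    have h1 : g * A i j = (S.updateRow j (Pi.single i 1)).det := by
      rw [← Matrix.adjugate_apply, hA]; simp
    let f : (Fin (n + 1) → κ) →ₗ[κ] κ := LinearMap.proj i
    let W' : Submodule κ (Fin (n + 1) → κ) := W ⊓ LinearMap.ker f
    have hW' : 2 ≤ Module.finrank κ W' := by
      have h2 := LinearMap.finrank_range_add_finrank_ker (f.comp W.subtype)
      have h3 : Module.finrank κ (LinearMap.range (f.comp W.subtype)) ≤ 1 := by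
        have := Submodule.finrank_le (LinearMap.range (f.comp W.subtype))
        simpa using this
      have h4 : Module.finrank κ (LinearMap.ker (f.comp W.subtype)) = Module.finrank κ W' := by
        rw [LinearMap.ker_comp]
        have h5 : W' = Submodule.map W.subtype (Submodule.comap W.subtype (LinearMap.ker f)) := by
          rw [Submodule.map_comap_subtype]
        rw [h5]
        exact (LinearEquiv.finrank_eq (Submodule.equivMapOfInjective _
          (Submodule.injective_subtype W) _))
      omega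
    obtain ⟨A', d', _, hd', _, _⟩ := step_one φ g hφ hg (S.updateRow j (Pi.single i 1)) W' hW' (by
      intro w hw
      have hwW : w ∈ W := hw.1
      have hwi : w i = 0 := hw.2
      ext k
      by_cases hk : k = j
      · subst hk
        simp [Matrix.mulVec, dotProduct, Pi.single_apply, apply_ite φ, hwi]
      · have h1 := congrFun (hS w hwW) k
        simp only [Matrix.mulVec, Pi.zero_apply] at h1 ⊢
        rw [← h1]
        congr 1
        ext l
        simp [Matrix.updateRow_ne hk])
    rw [hd'] at h1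
    refine ⟨d', ?_⟩
    have : g * A i j = g * (g * d') := by rw [h1]; ring
    exact mul_left_cancel₀ hg this
  choose B hB using hAij
  have h2 : Matrix.of B * S = d • (1 : Matrix _ _ R) := by
    ext i j
    have := congrFun (congrFun hSA i) j
    simp only [Matrix.mul_apply, Matrix.smul_apply, smul_eq_mul, mul_assoc, Matrix.of_apply]
      at this ⊢
    apply mul_left_cancel₀ hg
    rw [← this, Finset.mul_sum]
    refine Finset.sum_congr rfl fun k _ => ?_
    rw [hB]; ring
  obtain ⟨w, hw, hw0, _⟩ := exists_coord_zero W (by omega) 0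
  by_contra hne
  have h3 : (Matrix.of B).map φ * S.map φ = φ d • (1 : Matrix _ _ κ) := by
    have := congrArg (fun B : Matrix (Fin (n + 1)) (Fin (n + 1)) R => B.map φ) h2
    simp only [Matrix.map_mul] at this
    rw [this]
    ext i j
    by_cases hij : i = j <;> simp [hij]
  have h4 := congrArg (fun B => B *ᵥ w) h3
  simp only [← Matrix.mulVec_mulVec, hS w hw, Matrix.mulVec_zero, Matrix.smul_mulVec,
    Matrix.one_mulVec] at h4
  exact hw0 ((smul_eq_zero.1 h4.symm).resolve_left hne)

/-- the columns of `A` are in `W` modulo `g`, so the form is divisible by `g` -/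
lemma step_three {n : ℕ} (hφ : ∀ p, φ p = 0 ↔ g ∣ p) (hg : g ≠ 0)
    (S A M : Matrix (Fin (n + 1)) (Fin (n + 1)) R) (d : R) (hA : S.adjugate = g • A)
    (hSA : S * A = (g * d) • (1 : Matrix _ _ R))
    (hAS : A * S = (g * d) • (1 : Matrix _ _ R)) (W : Submodule κ (Fin (n + 1) → κ))
    (hW : Module.finrank κ W = 2) (hS : ∀ w ∈ W, S.map φ *ᵥ w = 0) (hd : φ d ≠ 0)
    (hM : ∀ w ∈ W, ∀ w' ∈ W, w ⬝ᵥ (M.map φ *ᵥ w') = 0) :
    ∃ B : Matrix (Fin (n + 1)) (Fin (n + 1)) R, A.transpose * M * A = g • B := by
  have hker : ∀ v, S.map φ *ᵥ v = 0 → v ∈ W := by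
    intro v hv
    by_contra hvW
    refine hd (step_two φ g hφ hg S A d hA hAS (W ⊔ Submodule.span κ {v}) ?_ ?_)
    · have h1 : W < W ⊔ Submodule.span κ {v} := by
        refine lt_of_le_of_ne le_sup_left fun h => hvW ?_
        rw [h]
        exact Submodule.mem_sup_right (Submodule.mem_span_singleton_self v)
      have := Submodule.finrank_lt_finrank_of_lt h1
      omega
    · intro w hw
      obtain ⟨a, ha, b, hb, rfl⟩ := Submodule.mem_sup.1 hw
      obtain ⟨c, rfl⟩ := Submodule.mem_span_singleton.1 hb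
      rw [Matrix.mulVec_add, Matrix.mulVec_smul, hv, hS a ha]; simp
  have hcol : ∀ k, (fun i => φ (A i k)) ∈ W := by
    intro k
    apply hker
    ext i
    have h1 := congrFun (congrFun hSA i) k
    have h2 := congrArg φ h1
    simp only [Matrix.mul_apply, map_sum, map_mul, Matrix.smul_apply, smul_eq_mul] at h2
    simp only [Matrix.mulVec, dotProduct, Matrix.map_apply, Pi.zero_apply]
    rw [h2, (hφ g).2 (dvd_refl g)]; ring
  have hdiv : ∀ i j, g ∣ (A.transpose * M * A) i j := by
    intro i j
    rw [← hφ]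
    have := hM _ (hcol i) _ (hcol j)
    rw [Matrix.mul_assoc]
    simp only [Matrix.mul_apply, map_sum, map_mul, Matrix.transpose_apply]
    simpa [dotProduct, Matrix.mulVec] using this
  choose B hB using hdiv
  exact ⟨Matrix.of B, by ext i j; simp [hB]⟩

end Lin

end Vale.Agent.P287.H925
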