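import Vale.Agent.P287.H925.Smooth
import Vale.Agent.P287.H925.Lin

open MvPolynomial Matrix

namespace Vale.Agent.P287.H925

/-- the top coefficient of a homogeneous polynomial in linear polynomials -/
lemma coeff_aeval_top {σ k S : Type*} [CommSemiring k] [CommSemiring S] [Algebra k S]
    {p : MvPolynomial σ k} {n : ℕ} (hp : p.IsHomogeneous n) (T : σ → Polynomial S)
    (hT : ∀ i, (T i).natDegree ≤ 1) :
    (aeval T p).coeff n = aeval (fun i => (T i).coeff 1) p := by
  classical
  have hprod : ∀ (s : Finset σ) (d : σ → ℕ),
      (∏ i ∈ s, T i ^ d i).natDegree ≤ ∑ i ∈ s, d i ∧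
      (∏ i ∈ s, T i ^ d i).coeff (∑ i ∈ s, d i) = ∏ i ∈ s, (T i).coeff 1 ^ d i := by
    intro s d
    induction s using Finset.induction_on with
    | empty => simp
    | insert i s hi ih =>
      rw [Finset.prod_insert hi, Finset.sum_insert hi, Finset.prod_insert hi]
      have h1 : (T i ^ d i).natDegree ≤ d i := by
        have := Polynomial.natDegree_pow_le_of_le (d i) (hT i)
        simpa using this
      refine ⟨Polynomial.natDegree_mul_le_of_le h1 ih.1, ?_⟩
      rw [Polynomial.coeff_mul_add_eq_of_natDegree_le h1 ih.1, ih.2]
      congr 1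
      have := Polynomial.coeff_pow_of_natDegree_le (m := d i) (hT i)
      simpa using this
  rw [aeval_def, aeval_def, eval₂_eq, eval₂_eq, Polynomial.finsetSum_coeff]
  refine Finset.sum_congr rfl fun d hd => ?_
  have h1 : ∑ i ∈ d.support, d i = n := (hp.degree_eq_sum_deg_support hd).symm
  have h2 := (hprod d.support d).2
  rw [h1] at h2
  rw [IsScalarTower.algebraMap_apply k S (Polynomial S), Polynomial.algebraMap_eq,
    Polynomial.coeff_C_mul, h2]

/-- the top component of a product -/
lemma top_mul {σ k : Type*} [Field k] (a b : MvPolynomial σ k) :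
    homogeneousComponent (a.totalDegree + b.totalDegree) (a * b) =
      homogeneousComponent a.totalDegree a * homogeneousComponent b.totalDegree b := by
  classical
  have h0 : a * b = ∑ i ∈ Finset.range (a.totalDegree + 1),
      ∑ j ∈ Finset.range (b.totalDegree + 1),
        homogeneousComponent i a * homogeneousComponent j b := by
    rw [← Finset.sum_mul_sum, sum_homogeneousComponent, sum_homogeneousComponent]
  rw [h0, map_sum]
  rw [Finset.sum_eq_single a.totalDegree]
  · rw [map_sum, Finset.sum_eq_single b.totalDegree]
    · exact homogeneousComponent_eq_self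
        ((homogeneousComponent_isHomogeneous _ _).mul (homogeneousComponent_isHomogeneous _ _))
    · intro j hj hj'
      rw [homogeneousComponent_of_mem (((homogeneousComponent_isHomogeneous _ _).mul
        (homogeneousComponent_isHomogeneous _ _))), if_neg]
      simp at hj
      omega
    · intro h; simp at h
  · intro i hi hi'
    rw [map_sum]
    refine Finset.sum_eq_zero fun j hj => ?_
    rw [homogeneousComponent_of_mem (((homogeneousComponent_isHomogeneous _ _).mul
        (homogeneousComponent_isHomogeneous _ _))), if_neg]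
    simp at hi hj
    omega
  · intro h; simp at h

/-- a product of a linear form and a quadratic form is singular -/
lemma not_smooth_mul {l q : MvPolynomial (Fin 6) ℂ} (hl : l.IsHomogeneous 1)
    (hq : q.IsHomogeneous 2) (hs : IsSmooth (l * q)) : False := by
  have h1 : l ∈ MvPolynomial.homogeneousSubmodule (Fin 6) ℂ 1 := hl
  rw [MvPolynomial.homogeneousSubmodule_one_eq_span_X, Submodule.mem_span_range_iff_exists_fun]
    at h1
  obtain ⟨c, hc⟩ := h1
  let L : (Fin 6 → ℂ) →ₗ[ℂ] ℂ := ∑ i, c i • LinearMap.proj i
  have hL : ∀ x, eval x l = L x := by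
    intro x
    rw [← hc]
    simp [L, MvPolynomial.smul_eq_C_mul]
  have hK : 5 ≤ Module.finrank ℂ (LinearMap.ker L) := by
    have h2 := LinearMap.finrank_range_add_finrank_ker L
    have h3 := Submodule.finrank_le (LinearMap.range L)
    simp at h2 h3
    omega
  have hK2 : 2 ≤ Module.finrank ℂ (LinearMap.ker L) := by omega
  obtain ⟨u, hu, hu0, _⟩ := exists_coord_zero (LinearMap.ker L) hK2 (0 : Fin 6)
  obtain ⟨i1, hi1⟩ : ∃ i, u i ≠ 0 := by
    by_contra h
    push Not at h
    exact hu0 (funext h)
  obtain ⟨w, hw, hw0, hwi⟩ := exists_coord_zero (LinearMap.ker L) hK2 i1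
  obtain ⟨x, hx0, hxl, hxq⟩ : ∃ x : Fin 6 → ℂ, x ≠ 0 ∧ eval x l = 0 ∧ eval x q = 0 := by
    by_cases hqu : eval u q = 0
    · exact ⟨u, hu0, by rw [hL]; exact hu, hqu⟩
    · let T : Fin 6 → Polynomial ℂ := fun i => Polynomial.C (u i) * Polynomial.X +
        Polynomial.C (w i)
      have hT : ∀ i, (T i).natDegree ≤ 1 := fun i => Polynomial.natDegree_linear_le
      have h2 := coeff_aeval_top hq T hT
      have h3 : (fun i => (T i).coeff 1) = u := by
        funext i
        simp only [T, Polynomial.coeff_add, Polynomial.coeff_C_mul, Polynomial.coeff_X_one,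
          mul_one, Polynomial.coeff_C_succ, add_zero]
      rw [h3, ← eval_eq_aeval] at h2
      have h4 : (aeval T q).degree ≠ 0 := by
        intro h5
        have h6 : (aeval T q).natDegree = 0 :=
          Polynomial.natDegree_eq_of_degree_eq_some (n := 0) (by simpa using h5)
        have h7 : (aeval T q).coeff 2 = 0 := Polynomial.coeff_eq_zero_of_natDegree_lt (by omega)
        rw [h2] at h7
        exact hqu h7
      obtain ⟨s, hs'⟩ := IsAlgClosed.exists_root (aeval T q) h4
      refine ⟨s • u + w, ?_, ?_, ?_⟩
      · intro h5
        have h6 := congrFun h5 i1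
        simp only [Pi.add_apply, Pi.smul_apply, smul_eq_mul, hwi, add_zero, Pi.zero_apply] at h6
        have h7 := (mul_eq_zero.1 h6).resolve_right hi1
        rw [h7, zero_smul, zero_add] at h5
        exact hw0 h5
      · rw [hL]
        exact (LinearMap.ker L).add_mem ((LinearMap.ker L).smul_mem _ hu) hw
      · have h5 : eval (s • u + w) q = (aeval T q).eval s := by
          have h6 : (aeval T q).eval s = Polynomial.aeval s (aeval T q) := by
            rw [Polynomial.coe_aeval_eq_eval]
          rw [h6, ← AlgHom.restrictScalars_apply ℂ (Polynomial.aeval s), ← AlgHom.comp_apply,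
            comp_aeval, eval_eq_aeval]
          congr 2
          funext i
          simp only [T, AlgHom.restrictScalars_apply, map_add, map_mul, Polynomial.aeval_C,
            Polynomial.aeval_X, Pi.add_apply, Pi.smul_apply, smul_eq_mul, Algebra.algebraMap_self,
            RingHom.id_apply]
          ring
        rw [h5]
        exact hs'
  apply hx0
  apply hs
  intro i
  rw [pderiv_mul, map_add, map_mul, map_mul, hxl, hxq, mul_zero, zero_mul, add_zero]

/-- a smooth cubic form is irreducible -/
theorem irreducible_of_smooth {F : MvPolynomial (Fin 6) ℂ} (hF : F.IsHomogeneous 3)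
    (hs : IsSmooth F) : Irreducible F := by
  have hF0 : F ≠ 0 := by
    rintro rfl
    have h1 := hs (fun _ => 1) (fun i => by simp)
    have h2 := congrFun h1 0
    simp at h2
  have hdeg : F.totalDegree = 3 := hF.totalDegree hF0
  have hunit : ∀ a : MvPolynomial (Fin 6) ℂ, a ≠ 0 → ¬ IsUnit a → 1 ≤ a.totalDegree := by
    intro a ha hu
    by_contra h
    have h0 : a.totalDegree = 0 := by omega
    rw [totalDegree_eq_zero_iff_eq_C] at h0
    apply hu
    rw [h0]
    have h1 : a.coeff 0 ≠ 0 := by
      intro h2
      rw [h2, map_zero] at h0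
      exact ha h0
    exact (IsUnit.mk0 _ h1).map C
  constructor
  · intro h
    rw [MvPolynomial.isUnit_iff_eq_C_of_isReduced] at h
    obtain ⟨c, _, h⟩ := h
    rw [h, totalDegree_C] at hdeg
    omega
  · intro a b hab
    by_contra hcon
    push Not at hcon
    have ha0 : a ≠ 0 := by
      rintro rfl
      rw [zero_mul] at hab
      exact hF0 hab
    have hb0 : b ≠ 0 := by
      rintro rfl
      rw [mul_zero] at hab
      exact hF0 hab
    have ha := hunit a ha0 hcon.1
    have hb := hunit b hb0 hcon.2
    have h1 : a.totalDegree + b.totalDegree = 3 := by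
      rw [← totalDegree_mul_of_isDomain ha0 hb0, ← hab, hdeg]
    have h2 := top_mul a b
    rw [h1, ← hab, homogeneousComponent_eq_self hF] at h2
    have hah := homogeneousComponent_isHomogeneous a.totalDegree a
    have hbh := homogeneousComponent_isHomogeneous b.totalDegree b
    rcases (by omega : a.totalDegree = 1 ∨ a.totalDegree = 2) with h3 | h3
    · have h4 : b.totalDegree = 2 := by omega
      rw [h3, h4] at h2
      rw [h3] at hah
      rw [h4] at hbh
      exact not_smooth_mul hah hbh (h2 ▸ hs)
    · have h4 : b.totalDegree = 1 := by omega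
      rw [h3, h4, mul_comm] at h2
      rw [h3] at hah
      rw [h4] at hbh
      exact not_smooth_mul hbh hah (h2 ▸ hs)

end Vale.Agent.P287.H925
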