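import Vale.Agent.P287.H925.Normal
import Vale.Agent.P287.H925.Hom
import Vale.Agent.P287.H925.Defs

open MvPolynomial Matrix

namespace Vale.Agent.P287.H925

section Comp

variable {k : Type*} [Field k]

/-- the form of the net -/
noncomputable def netM (Q : Fin 3 → Matrix (Fin 5) (Fin 5) k) :
    Matrix (Fin 5) (Fin 5) (MvPolynomial (Fin 3) k) :=
  Matrix.of fun i j => ∑ l, C (Q l i j) * X l

/-- passing to the homogeneous component of degree one -/
theorem exists_net {r : ℕ} {g : MvPolynomial (Fin 3) k} (hg : g.IsHomogeneous (2 * r))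
    (M : Matrix (Fin 4) (Fin 4) (MvPolynomial (Fin 3) k))
    (hdeg : ∀ i j, (M i j).IsHomogeneous (1 + wt i + wt j))
    (N : Matrix (Fin 5) (Fin 4) (MvPolynomial (Fin 3) k))
    (hNdeg : ∀ j i, (N j i).IsHomogeneous (r + wt i))
    (S : Matrix (Fin 5) (Fin 5) (MvPolynomial (Fin 3) k)) (hS : S.IsSymm)
    (h : g • M = N.transpose * S * N) :
    ∃ Q : Fin 3 → Matrix (Fin 5) (Fin 5) k, (∀ l, (Q l).IsSymm) ∧
      g • M = N.transpose * netM Q * N := by
  have h1 : ∀ i j, ∃ c : Fin 3 → k,
      homogeneousComponent 1 (S i j) = ∑ l, C (c l) * X l := by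
    intro i j
    have h2 : homogeneousComponent 1 (S i j) ∈ homogeneousSubmodule (Fin 3) k 1 :=
      homogeneousComponent_isHomogeneous _ _
    rw [homogeneousSubmodule_one_eq_span_X, Submodule.mem_span_range_iff_exists_fun] at h2
    obtain ⟨c, hc⟩ := h2
    exact ⟨c, by rw [← hc]; simp [MvPolynomial.smul_eq_C_mul]⟩
  choose c hc using h1
  have hcs : ∀ l i j, c i j l = c j i l := by
    intro l i j
    have e1 := hc i j
    rw [hS.apply] at e1
    rw [hc j i] at e1
    have e2 := congrArg (coeff (Finsupp.single l 1)) e1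
    simp only [coeff_sum, coeff_C_mul, coeff_X] at e2
    simpa [Finsupp.single_left_inj] using e2.symm
  refine ⟨fun l => Matrix.of fun i j => c i j l, ?_, ?_⟩
  · intro l
    refine Matrix.ext fun i j => ?_
    exact hcs l j i
  · have h3 : netM (fun l => Matrix.of fun i j => c i j l) =
        Matrix.of fun i j => homogeneousComponent 1 (S i j) := by
      refine Matrix.ext fun i j => ?_
      simp [netM, hc]
    rw [h3]
    refine Matrix.ext fun i j => ?_
    have h4 := congrFun (congrFun h i) j
    have h5 : (g * M i j).IsHomogeneous ((r + wt i) + (r + wt j) + 1) := by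
      have := hg.mul (hdeg i j)
      have e : 2 * r + (1 + wt i + wt j) = (r + wt i) + (r + wt j) + 1 := by ring
      rwa [e] at this
    have h6 : (g • M) i j = g * M i j := rfl
    rw [h6] at h4 ⊢
    rw [← homogeneousComponent_eq_self h5, h4]
    simp only [Matrix.mul_apply, Finset.sum_mul, map_sum, Matrix.transpose_apply, Matrix.of_apply]
    refine Finset.sum_congr rfl fun a _ => Finset.sum_congr rfl fun b _ => ?_
    have h7 : N b i * S b a * N a j = (N b i * N a j) * S b a := by ring
    rw [h7, hc_mul ((hNdeg b i).mul (hNdeg a j)) 1]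
    ring

end Comp

end Vale.Agent.P287.H925
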