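import Vale.Agent.P287.H925.Core

open Matrix

namespace Vale.Agent.P287.H925

section FieldThm

variable {k : Type*} [Field k]

/-- the dehomogenised equation -/
noncomputable def Fdeh (M : Matrix (Fin 4) (Fin 4) (MvPolynomial (Fin 3) k)) :
    MvPolynomial (Fin 5) k :=
  ![MvPolynomial.X 2, MvPolynomial.X 3, MvPolynomial.X 4, 1] ⬝ᵥ
    (M.map (MvPolynomial.aeval ![1, MvPolynomial.X 0, MvPolynomial.X 1]) *ᵥ
      ![MvPolynomial.X 2, MvPolynomial.X 3, MvPolynomial.X 4, 1])

lemma aeval_Fdeh (M : Matrix (Fin 4) (Fin 4) (MvPolynomial (Fin 3) k)) {Ω : Type*} [CommRing Ω]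
    [Algebra k Ω] (t : Fin 3 → Ω) (v : Fin 4 → Ω) (ht : t 0 = 1) (hv : v 3 = 1) :
    MvPolynomial.aeval ![t 1, t 2, v 0, v 1, v 2] (Fdeh M) =
      v ⬝ᵥ (M.map (MvPolynomial.aeval t) *ᵥ v) := by
  have h1 : ∀ p : MvPolynomial (Fin 3) k,
      MvPolynomial.aeval ![t 1, t 2, v 0, v 1, v 2]
        (MvPolynomial.aeval ![1, MvPolynomial.X 0, MvPolynomial.X 1] p :
          MvPolynomial (Fin 5) k) = MvPolynomial.aeval t p := by
    intro p
    rw [← AlgHom.comp_apply]
    congr 1
    ext i
    fin_cases i <;> simp [ht]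
  simp only [Fdeh, dotProduct, mulVec, Fin.sum_univ_four, Matrix.map_apply, map_add, map_mul, h1]
  simp [hv]

open Polynomial in
/-- the quadratic form does not vanish on the generic vector of the parametrised line -/
lemma form_ne_zero (M : Matrix (Fin 4) (Fin 4) (MvPolynomial (Fin 3) k))
    (N : Matrix (Fin 5) (Fin 4) (MvPolynomial (Fin 3) k)) (hF : Fdeh M ≠ 0)
    (T : Fin 3 → (L4 k)[X]) (hT0 : T 0 = 1) (hT2 : T 2 = X) (V : Fin 4 → (L4 k)[X])
    (hV3 : V 3 ≠ 0) (c : (L4 k)[X]) (hc : c ≠ 0)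
    (hN : N.map (MvPolynomial.aeval T) *ᵥ V = c • fun i => C (zL k i)) :
    V ⬝ᵥ (M.map (MvPolynomial.aeval T) *ᵥ V) ≠ 0 := by
  let K := FractionRing (L4 k)[X]
  let α : (L4 k)[X] →ₐ[k] K := IsScalarTower.toAlgHom k (L4 k)[X] K
  have hαinj : Function.Injective α := IsFractionRing.injective (L4 k)[X] K
  have hα3 : α (V 3) ≠ 0 := fun h => hV3 (hαinj (by rw [h, map_zero]))
  have hαc : α c ≠ 0 := fun h => hc (hαinj (by rw [h, map_zero]))
  let t : Fin 3 → K := fun i => α (T i)
  let v : Fin 4 → K := fun i => α (V i) / α (V 3)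
  have ht0 : t 0 = 1 := by simp [t, hT0]
  have hv3 : v 3 = 1 := by simp only [v]; exact div_self hα3
  have hpt : ∀ p : MvPolynomial (Fin 3) k, α (MvPolynomial.aeval T p) = MvPolynomial.aeval t p := by
    intro p
    rw [← AlgHom.comp_apply, MvPolynomial.comp_aeval]
  -- the five elements
  let x : Fin 5 → K := ![t 1, t 2, v 0, v 1, v 2]
  have hNv : ∀ i, (N.map (MvPolynomial.aeval t) *ᵥ v) i = α c * α (C (zL k i)) / α (V 3) := by
    intro i
    have h1 := congrArg α (congrFun hN i)
    simp only [mulVec, dotProduct, Matrix.map_apply, map_sum, map_mul, Pi.smul_apply,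
      smul_eq_mul, hpt] at h1
    rw [← h1, Finset.sum_div]
    simp only [mulVec, dotProduct, Matrix.map_apply]
    refine Finset.sum_congr rfl fun j _ => ?_
    simp only [v]
    rw [mul_div_assoc]
  have hNv4 : (N.map (MvPolynomial.aeval t) *ᵥ v) 4 = α c / α (V 3) := by
    rw [hNv 4]
    have : zL k 4 = 1 := rfl
    rw [this, map_one, map_one, mul_one]
  have htop : IntermediateField.adjoin k (Set.range x) = ⊤ := by
    set E := IntermediateField.adjoin k (Set.range x) with hE
    have hx : ∀ i, x i ∈ E := fun i => IntermediateField.subset_adjoin _ _ ⟨i, rfl⟩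
    have ht : ∀ i, t i ∈ E := by
      intro i
      fin_cases i
      · change t 0 ∈ E
        rw [ht0]; exact E.one_mem
      · exact hx 0
      · exact hx 1
    have hv : ∀ i, v i ∈ E := by
      intro i
      fin_cases i
      · exact hx 2
      · exact hx 3
      · exact hx 4
      · change v 3 ∈ E
        rw [hv3]; exact E.one_mem
    have hp : ∀ p : MvPolynomial (Fin 3) k, MvPolynomial.aeval t p ∈ E := by
      intro p
      induction p using MvPolynomial.induction_on with
      | C a => simp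
      | add p q hp hq => simpa using E.add_mem hp hq
      | mul_X p i hp => simpa using E.mul_mem hp (ht i)
    have hNE : ∀ i, (N.map (MvPolynomial.aeval t) *ᵥ v) i ∈ E := by
      intro i
      simp only [mulVec, dotProduct, Matrix.map_apply]
      exact E.sum_mem fun j _ => E.mul_mem (hp _) (hv j)
    refine top_of_mem E ?_ ?_
    · have := ht 2
      simp only [t, hT2] at this
      exact this
    · intro i
      have h1 : α (C (zL k i.castSucc)) = (N.map (MvPolynomial.aeval t) *ᵥ v) i.castSucc /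
          (N.map (MvPolynomial.aeval t) *ᵥ v) 4 := by
        rw [hNv, hNv4, div_div_div_cancel_right₀ hα3, mul_div_cancel_left₀ _ hαc]
      have h2 : zL k i.castSucc = algebraMap (MvPolynomial (Fin 4) k) (L4 k)
          (MvPolynomial.X i) := by
        fin_cases i <;> rfl
      rw [h2] at h1
      change α (C _) ∈ E
      rw [h1]
      exact E.div_mem (hNE _) (hNE _)
  have hind := indep5 x htop
  have h5 : MvPolynomial.aeval x (Fdeh M) ≠ 0 := fun h =>
    hF ((injective_iff_map_eq_zero _).1 hind _ h)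
  rw [aeval_Fdeh M t v ht0 hv3] at h5
  intro h0
  apply h5
  have h6 := congrArg α h0
  simp only [mulVec, dotProduct, Matrix.map_apply, map_sum, map_mul, hpt, map_zero,
    Finset.mul_sum] at h6 ⊢
  have h7 : ∀ i j, v i * (MvPolynomial.aeval t (M i j) * v j) =
      (α (V i) * (MvPolynomial.aeval t (M i j) * α (V j))) / (α (V 3) * α (V 3)) := by
    intro i j
    simp only [v]
    ring
  simp only [h7, ← Finset.sum_div, h6, zero_div]

open Polynomial in
/-- the square of the linear factor divides the cubic polynomial -/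
lemma square_div {L : Type*} [Field L] (P P' D D' : L[X]) (b r : L)
    (hD : D = C b * (X - C r)) (hD' : D'.eval r ≠ 0) (h : D' ^ 2 * P = D ^ 2 * P')
    (hP : P.natDegree ≤ 3) : ∃ q0 q1 : L, P = (X - C r) ^ 2 * (C q0 + C q1 * X) := by
  have hcop : IsCoprime ((X - C r) ^ 2) (D' ^ 2) := by
    apply IsCoprime.pow
    rw [(irreducible_X_sub_C r).coprime_iff_not_dvd, dvd_iff_isRoot]
    exact hD'
  have hdvd : (X - C r) ^ 2 ∣ P := by
    apply hcop.dvd_of_dvd_mul_left
    rw [h, hD, mul_pow]
    exact Dvd.intro_left (C b ^ 2 * P') (by ring)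
  obtain ⟨Q, rfl⟩ := hdvd
  by_cases hQ : Q = 0
  · exact ⟨0, 0, by simp [hQ]⟩
  have hdeg : Q.natDegree ≤ 1 := by
    rw [natDegree_mul (pow_ne_zero _ (X_sub_C_ne_zero r)) hQ, natDegree_pow,
      natDegree_X_sub_C] at hP
    omega
  refine ⟨Q.coeff 0, Q.coeff 1, ?_⟩
  congr 1
  conv_lhs => rw [Q.as_sum_range_C_mul_X_pow' (Nat.lt_succ_of_le hdeg)]
  simp [Finset.sum_range_succ]

open Polynomial in
lemma natDegree_le_three (p : MvPolynomial (Fin 3) k) (hp : p.totalDegree ≤ 3)
    (T : Fin 3 → (L4 k)[X]) (hT : ∀ i, (T i).natDegree ≤ 1) :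
    (MvPolynomial.aeval T p).natDegree ≤ 3 := by
  have h1 := MvPolynomial.aeval_natDegree_le (m := 3) (n := 1)
    (MvPolynomial.map (algebraMap k (L4 k)) p)
    ((Finset.sup_mono (MvPolynomial.support_map_subset _ _)).trans hp) T hT
  rwa [MvPolynomial.aeval_map_algebraMap] at h1

end FieldThm

end Vale.Agent.P287.H925
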