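import Vale.Agent.P287.H925.Lin

open Matrix

namespace Vale.Agent.P287.H925

section Five

variable {R : Type*} [CommRing R]

/-- the relation between the rows of a `5 × 4` matrix -/
lemma cramer_rel (N : Matrix (Fin 5) (Fin 4) R) (i : Fin 4) :
    ∑ j : Fin 5, (-1) ^ (j : ℕ) * (N.submatrix j.succAbove id).det * N j i = 0 := by
  let C : Matrix (Fin 5) (Fin 5) R := Matrix.of fun j => Fin.cons (N j i) (N j)
  have h0 : C.det = 0 := by
    refine Matrix.det_zero_of_column_eq (i := 0) (j := i.succ) (Fin.succ_ne_zero i).symm ?_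
    intro j
    simp [C]
  rw [Matrix.det_succ_column_zero] at h0
  rw [← h0]
  refine Finset.sum_congr rfl fun j _ => ?_
  have h1 : C j 0 = N j i := by simp [C]
  have h2 : C.submatrix j.succAbove Fin.succ = N.submatrix j.succAbove id := by
    ext k l; simp [C]
  rw [h1, h2]; ring

variable {Ω : Type*} [CommRing Ω] [IsDomain Ω] (ψ : R →+* Ω)

/-- The vector `A_j ζ` is mapped by `N` to a multiple of `ζ`. -/
lemma key_image (N : Matrix (Fin 5) (Fin 4) R) (g : R) (d : Fin 5 → R)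
    (hrel : ∀ i, ∑ j : Fin 5, (-1) ^ (j : ℕ) * d j * N j i = 0) (j : Fin 5)
    (A : Matrix (Fin 4) (Fin 4) R)
    (hSA : N.submatrix j.succAbove id * A = (g * d j) • (1 : Matrix _ _ R))
    (hd : ψ (d j) ≠ 0) (ζ : Fin 5 → Ω) (hζ : ∑ k : Fin 5, (-1) ^ (k : ℕ) * ψ (d k) * ζ k = 0) :
    N.map ψ *ᵥ (A.map ψ *ᵥ fun k => ζ (j.succAbove k)) = (ψ g * ψ (d j)) • ζ := by
  set V : Fin 4 → Ω := A.map ψ *ᵥ fun k => ζ (j.succAbove k) with hV
  have h1 : ∀ k : Fin 4, (N.map ψ *ᵥ V) (j.succAbove k) = ψ g * ψ (d j) * ζ (j.succAbove k) := by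
    intro k
    have h2 : ((N.submatrix j.succAbove id * A).map ψ *ᵥ fun k => ζ (j.succAbove k)) k =
        ψ g * ψ (d j) * ζ (j.succAbove k) := by
      rw [hSA]
      have : ((g * d j) • (1 : Matrix (Fin 4) (Fin 4) R)).map ψ =
          (ψ g * ψ (d j)) • (1 : Matrix _ _ Ω) := by
        ext a b
        by_cases hab : a = b <;> simp [hab]
      rw [this, Matrix.smul_mulVec, Matrix.one_mulVec]; simp
    rw [← h2, Matrix.map_mul, ← Matrix.mulVec_mulVec]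
    rfl
  have h3 : ∑ k : Fin 5, (-1) ^ (k : ℕ) * ψ (d k) * (N.map ψ *ᵥ V) k = 0 := by
    simp only [Matrix.mulVec, dotProduct, Matrix.map_apply, Finset.mul_sum]
    rw [Finset.sum_comm]
    refine Finset.sum_eq_zero fun i _ => ?_
    have h4 := congrArg ψ (hrel i)
    simp only [map_sum, map_mul, map_pow, map_neg, map_one, map_zero] at h4
    calc ∑ x : Fin 5, (-1) ^ (x : ℕ) * ψ (d x) * (ψ (N x i) * V i)
        = (∑ x : Fin 5, (-1) ^ (x : ℕ) * ψ (d x) * ψ (N x i)) * V i := by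
          rw [Finset.sum_mul]; exact Finset.sum_congr rfl fun x _ => by ring
      _ = 0 := by rw [h4, zero_mul]
  have h5 : (N.map ψ *ᵥ V) j = ψ g * ψ (d j) * ζ j := by
    rw [Fin.sum_univ_succAbove _ j] at h3 hζ
    have h6 : ∑ k : Fin 4, (-1) ^ ((j.succAbove k : Fin 5) : ℕ) * ψ (d (j.succAbove k)) *
        (N.map ψ *ᵥ V) (j.succAbove k) = (ψ g * ψ (d j)) *
        ∑ k : Fin 4, (-1) ^ ((j.succAbove k : Fin 5) : ℕ) * ψ (d (j.succAbove k)) *
          ζ (j.succAbove k) := by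
      rw [Finset.mul_sum]
      exact Finset.sum_congr rfl fun k _ => by rw [h1]; ring
    rw [h6] at h3
    have h7 : (-1 : Ω) ^ (j : ℕ) * ψ (d j) ≠ 0 :=
      mul_ne_zero (pow_ne_zero _ (neg_ne_zero.2 one_ne_zero)) hd
    apply mul_left_cancel₀ h7
    have h8 : ∑ k : Fin 4, (-1) ^ ((j.succAbove k : Fin 5) : ℕ) * ψ (d (j.succAbove k)) *
          ζ (j.succAbove k) = - ((-1) ^ (j : ℕ) * ψ (d j) * ζ j) := by
      linear_combination hζ
    rw [h8] at h3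
    linear_combination h3
  ext k
  rcases Fin.eq_self_or_eq_succAbove j k with rfl | ⟨k', rfl⟩
  · rw [h5]; simp
  · rw [h1]; simp

/-- comparison of two charts -/
lemma key_compare (N : Matrix (Fin 5) (Fin 4) R) (g : R) (d : Fin 5 → R)
    (hrel : ∀ i, ∑ j : Fin 5, (-1) ^ (j : ℕ) * d j * N j i = 0) (j j' : Fin 5)
    (A A' : Matrix (Fin 4) (Fin 4) R)
    (hSA : N.submatrix j.succAbove id * A = (g * d j) • (1 : Matrix _ _ R))
    (hAS : A * N.submatrix j.succAbove id = (g * d j) • (1 : Matrix _ _ R))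
    (hSA' : N.submatrix j'.succAbove id * A' = (g * d j') • (1 : Matrix _ _ R))
    (hg : ψ g ≠ 0) (hd : ψ (d j) ≠ 0) (hd' : ψ (d j') ≠ 0)
    (ζ : Fin 5 → Ω) (hζ : ∑ k : Fin 5, (-1) ^ (k : ℕ) * ψ (d k) * ζ k = 0) :
    ψ (d j') • (A.map ψ *ᵥ fun k => ζ (j.succAbove k)) =
      ψ (d j) • (A'.map ψ *ᵥ fun k => ζ (j'.succAbove k)) := by
  set V : Fin 4 → Ω := A.map ψ *ᵥ fun k => ζ (j.succAbove k) with hV
  set V' : Fin 4 → Ω := A'.map ψ *ᵥ fun k => ζ (j'.succAbove k) with hV'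
  have h1 := key_image ψ N g d hrel j A hSA hd ζ hζ
  have h2 := key_image ψ N g d hrel j' A' hSA' hd' ζ hζ
  rw [← hV] at h1
  rw [← hV'] at h2
  have h3 : (N.submatrix j.succAbove id).map ψ *ᵥ (ψ (d j') • V - ψ (d j) • V') = 0 := by
    have h4 : N.map ψ *ᵥ (ψ (d j') • V - ψ (d j) • V') = 0 := by
      rw [Matrix.mulVec_sub, Matrix.mulVec_smul, Matrix.mulVec_smul, h1, h2]
      ext k; simp; ring
    ext k
    exact congrFun h4 (j.succAbove k)
  have h5 : (A * N.submatrix j.succAbove id).map ψ *ᵥ (ψ (d j') • V - ψ (d j) • V') = 0 := by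
    rw [Matrix.map_mul, ← Matrix.mulVec_mulVec, h3, Matrix.mulVec_zero]
  rw [hAS] at h5
  have h6 : ((g * d j) • (1 : Matrix (Fin 4) (Fin 4) R)).map ψ =
      (ψ g * ψ (d j)) • (1 : Matrix _ _ Ω) := by
    ext a b
    by_cases hab : a = b <;> simp [hab]
  rw [h6, Matrix.smul_mulVec, Matrix.one_mulVec] at h5
  have h7 := (smul_eq_zero.1 h5).resolve_left (mul_ne_zero hg hd)
  exact sub_eq_zero.1 h7

/-- comparison of the quadratic forms of two charts -/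
lemma key_quad (N : Matrix (Fin 5) (Fin 4) R) (g : R) (d : Fin 5 → R)
    (hrel : ∀ i, ∑ j : Fin 5, (-1) ^ (j : ℕ) * d j * N j i = 0) (j j' : Fin 5)
    (M A A' B B' : Matrix (Fin 4) (Fin 4) R)
    (hSA : N.submatrix j.succAbove id * A = (g * d j) • (1 : Matrix _ _ R))
    (hAS : A * N.submatrix j.succAbove id = (g * d j) • (1 : Matrix _ _ R))
    (hSA' : N.submatrix j'.succAbove id * A' = (g * d j') • (1 : Matrix _ _ R))
    (hB : A.transpose * M * A = g • B) (hB' : A'.transpose * M * A' = g • B')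
    (hg : ψ g ≠ 0) (hd : ψ (d j) ≠ 0) (hd' : ψ (d j') ≠ 0)
    (ζ : Fin 5 → Ω) (hζ : ∑ k : Fin 5, (-1) ^ (k : ℕ) * ψ (d k) * ζ k = 0) :
    ψ (d j') ^ 2 * ((fun k => ζ (j.succAbove k)) ⬝ᵥ (B.map ψ *ᵥ fun k => ζ (j.succAbove k))) =
      ψ (d j) ^ 2 *
        ((fun k => ζ (j'.succAbove k)) ⬝ᵥ (B'.map ψ *ᵥ fun k => ζ (j'.succAbove k))) := by
  have hform : ∀ (A B : Matrix (Fin 4) (Fin 4) R) (z : Fin 4 → Ω),
      A.transpose * M * A = g • B →
      (A.map ψ *ᵥ z) ⬝ᵥ (M.map ψ *ᵥ (A.map ψ *ᵥ z)) = ψ g * (z ⬝ᵥ (B.map ψ *ᵥ z)) := by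
    intro A B z h
    have h1 := congrArg (fun C : Matrix (Fin 4) (Fin 4) R => C.map ψ) h
    simp only [Matrix.map_mul] at h1
    have h2 : (g • B).map ψ = ψ g • B.map ψ := by ext a b; simp
    rw [h2] at h1
    have h3 : (A.transpose).map ψ = (A.map ψ).transpose := by ext a b; rfl
    rw [h3] at h1
    calc (A.map ψ *ᵥ z) ⬝ᵥ (M.map ψ *ᵥ (A.map ψ *ᵥ z))
        = z ⬝ᵥ (((A.map ψ).transpose * M.map ψ * A.map ψ) *ᵥ z) := by
          rw [← Matrix.mulVec_mulVec, ← Matrix.mulVec_mulVec, Matrix.dotProduct_mulVec z,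
            Matrix.vecMul_transpose]
      _ = ψ g * (z ⬝ᵥ (B.map ψ *ᵥ z)) := by
          rw [h1, Matrix.smul_mulVec, dotProduct_smul, smul_eq_mul]
  have h1 := key_compare ψ N g d hrel j j' A A' hSA hAS hSA' hg hd hd' ζ hζ
  have h2 := hform A B (fun k => ζ (j.succAbove k)) hB
  have h3 := hform A' B' (fun k => ζ (j'.succAbove k)) hB'
  set V : Fin 4 → Ω := A.map ψ *ᵥ fun k => ζ (j.succAbove k) with hV
  set V' : Fin 4 → Ω := A'.map ψ *ᵥ fun k => ζ (j'.succAbove k) with hV'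
  have h4 : ψ (d j') ^ 2 * (V ⬝ᵥ (M.map ψ *ᵥ V)) = ψ (d j) ^ 2 * (V' ⬝ᵥ (M.map ψ *ᵥ V')) := by
    have h5 : (ψ (d j') • V) ⬝ᵥ (M.map ψ *ᵥ (ψ (d j') • V)) =
        (ψ (d j) • V') ⬝ᵥ (M.map ψ *ᵥ (ψ (d j) • V')) := by rw [h1]
    rw [Matrix.mulVec_smul, Matrix.mulVec_smul, smul_dotProduct, smul_dotProduct,
      dotProduct_smul, dotProduct_smul] at h5
    simp only [smul_eq_mul] at h5
    linear_combination h5
  rw [h2, h3] at h4
  apply mul_left_cancel₀ hg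
  linear_combination h4

end Five

end Vale.Agent.P287.H925
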