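import Mathlib

open MvPolynomial Matrix

namespace Vale.Agent.P287.H925

section Koszul

variable {k : Type*} [Field k]

lemma X_dvd_sub (p : MvPolynomial (Fin 3) k) :
    X 0 ∣ p - aeval (![0, X 1, X 2] : Fin 3 → MvPolynomial (Fin 3) k) p := by
  induction p using MvPolynomial.induction_on with
  | C a => simp
  | add p q hp hq =>
    rw [map_add]
    have : p + q - (aeval (![0, X 1, X 2] : Fin 3 → MvPolynomial (Fin 3) k) p +
        aeval (![0, X 1, X 2] : Fin 3 → MvPolynomial (Fin 3) k) q) =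
        (p - aeval (![0, X 1, X 2] : Fin 3 → MvPolynomial (Fin 3) k) p) +
        (q - aeval (![0, X 1, X 2] : Fin 3 → MvPolynomial (Fin 3) k) q) := by ring
    rw [this]
    exact dvd_add hp hq
  | mul_X p i hp =>
    rw [map_mul, aeval_X]
    have : p * X i - aeval (![0, X 1, X 2] : Fin 3 → MvPolynomial (Fin 3) k) p *
        (![0, X 1, X 2] : Fin 3 → MvPolynomial (Fin 3) k) i =
        (p - aeval (![0, X 1, X 2] : Fin 3 → MvPolynomial (Fin 3) k) p) * X i +
        aeval (![0, X 1, X 2] : Fin 3 → MvPolynomial (Fin 3) k) p *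
          (X i - (![0, X 1, X 2] : Fin 3 → MvPolynomial (Fin 3) k) i) := by ring
    rw [this]
    refine dvd_add (Dvd.dvd.mul_right hp _) (Dvd.dvd.mul_left ?_ _)
    fin_cases i <;> simp

lemma X_not_dvd_X {i j : Fin 3} (h : i ≠ j) : ¬ (X i : MvPolynomial (Fin 3) k) ∣ X j := by
  rw [MvPolynomial.X_dvd_X]
  simp [h]

/-- exactness of the Koszul complex in the middle -/
lemma koszul_one (x : Fin 3 → MvPolynomial (Fin 3) k) (h : ∑ i, X i * x i = 0) :
    ∃ y : Fin 3 → MvPolynomial (Fin 3) k, x 0 = X 1 * y 2 - X 2 * y 1 ∧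
      x 1 = X 2 * y 0 - X 0 * y 2 ∧ x 2 = X 0 * y 1 - X 1 * y 0 := by
  set θ : MvPolynomial (Fin 3) k →ₐ[k] MvPolynomial (Fin 3) k :=
    aeval (![0, X 1, X 2] : Fin 3 → MvPolynomial (Fin 3) k) with hθ
  have hθ0 : θ (X 0) = 0 := by simp [θ]
  have hθ1 : θ (X 1) = X 1 := by simp [θ]
  have hθ2 : θ (X 2) = X 2 := by simp [θ]
  rw [Fin.sum_univ_three] at h
  have h1 := congrArg θ h
  simp only [map_add, map_mul, hθ0, hθ1, hθ2, zero_mul, zero_add, map_zero] at h1
  obtain ⟨u, hu⟩ : (X 1 : MvPolynomial (Fin 3) k) ∣ θ (x 2) := by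
    have h2 : (X 1 : MvPolynomial (Fin 3) k) ∣ X 2 * θ (x 2) :=
      ⟨- θ (x 1), by linear_combination h1⟩
    exact ((X_prime (R := k) (i := (1 : Fin 3))).dvd_or_dvd h2).resolve_left
      (X_not_dvd_X (by decide))
  have h3 : θ (x 1) = - (X 2 * u) := by
    rw [hu] at h1
    have h4 : X 1 * (θ (x 1) + X 2 * u) = 0 := by linear_combination h1
    have h5 := (mul_eq_zero.1 h4).resolve_left (X_ne_zero 1)
    linear_combination h5
  obtain ⟨a, ha⟩ := X_dvd_sub (x 1)
  obtain ⟨b, hb⟩ := X_dvd_sub (x 2)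
  change x 1 - θ (x 1) = _ at ha
  change x 2 - θ (x 2) = _ at hb
  rw [h3] at ha
  rw [hu] at hb
  have ha' : x 1 = -(X 2 * u) + X 0 * a := by linear_combination ha
  have hb' : x 2 = X 1 * u + X 0 * b := by linear_combination hb
  have h0 : x 0 = -(X 1 * a) - X 2 * b := by
    rw [ha', hb'] at h
    have h4 : X 0 * (x 0 + X 1 * a + X 2 * b) = 0 := by linear_combination h
    have h5 := (mul_eq_zero.1 h4).resolve_left (X_ne_zero 0)
    linear_combination h5
  refine ⟨![-u, b, -a], ?_, ?_, ?_⟩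
  · simp only [Matrix.cons_val_zero, Matrix.cons_val_one, Matrix.cons_val]
    rw [h0]; ring
  · simp only [Matrix.cons_val_zero, Matrix.cons_val_one, Matrix.cons_val]
    rw [ha']; ring
  · simp only [Matrix.cons_val_zero, Matrix.cons_val_one, Matrix.cons_val]
    rw [hb']; ring

/-- exactness of the Koszul complex at the first place -/
lemma koszul_two (w : Fin 3 → MvPolynomial (Fin 3) k) (h01 : X 0 * w 1 = X 1 * w 0)
    (h02 : X 0 * w 2 = X 2 * w 0) : ∃ h, ∀ i, w i = h * X i := by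
  obtain ⟨h, hh⟩ : (X 0 : MvPolynomial (Fin 3) k) ∣ w 0 := by
    have h2 : (X 0 : MvPolynomial (Fin 3) k) ∣ X 1 * w 0 := ⟨w 1, h01.symm⟩
    exact ((X_prime (R := k) (i := (0 : Fin 3))).dvd_or_dvd h2).resolve_left
      (X_not_dvd_X (by decide))
  refine ⟨h, fun i => ?_⟩
  rw [hh] at h01 h02
  have hX := X_ne_zero (R := k) (0 : Fin 3)
  fin_cases i
  · change w 0 = h * X 0
    rw [hh]; ring
  · change w 1 = h * X 1
    apply mul_left_cancel₀ hX
    rw [h01]; ring
  · change w 2 = h * X 2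
    apply mul_left_cancel₀ hX
    rw [h02]; ring

/-- a polynomial without constant term is a combination of the variables -/
lemma exists_comb (p : MvPolynomial (Fin 3) k) :
    ∃ c : Fin 3 → MvPolynomial (Fin 3) k, p = C (constantCoeff p) + ∑ i, c i * X i := by
  induction p using MvPolynomial.induction_on with
  | C a => exact ⟨0, by simp⟩
  | add p q hp hq =>
    obtain ⟨c, hc⟩ := hp
    obtain ⟨c', hc'⟩ := hq
    refine ⟨c + c', ?_⟩
    conv_lhs => rw [hc, hc']
    simp only [map_add, Pi.add_apply, add_mul, Finset.sum_add_distrib]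
    ring
  | mul_X p i hp =>
    refine ⟨Pi.single i p, ?_⟩
    rw [map_mul, constantCoeff_X, mul_zero, map_zero, zero_add, Finset.sum_eq_single i]
    · simp
    · intro j _ hj
      simp [hj]
    · simp

end Koszul

end Vale.Agent.P287.H925
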