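import Vale.Agent.P287.H925.Koszul

open MvPolynomial Matrix

namespace Vale.Agent.P287.H925

section Lift

variable {k : Type*} [Field k]

/-- the linear form `t₀ z₀ + t₁ z₁ + t₂ z₂` -/
noncomputable def tau (k : Type*) [Field k] : Fin 5 → MvPolynomial (Fin 3) k :=
  ![X 0, X 1, X 2, 0, 0]

/-- generators of the orthogonal lattice (columns) -/
noncomputable def UU (k : Type*) [Field k] : Matrix (Fin 5) (Fin 5) (MvPolynomial (Fin 3) k) :=
  !![0, X 2, -X 1, 0, 0; -X 2, 0, X 0, 0, 0; X 1, -X 0, 0, 0, 0; 0, 0, 0, 1, 0; 0, 0, 0, 0, 1]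

lemma UU_tau : UU k *ᵥ tau k = 0 := by
  ext i
  fin_cases i <;> simp [UU, tau, Matrix.mulVec, dotProduct, Fin.sum_univ_five] <;> ring_nf

lemma tau_UU : tau k ᵥ* UU k = 0 := by
  ext i
  fin_cases i <;> simp [UU, tau, Matrix.vecMul, dotProduct, Fin.sum_univ_five] <;> ring_nf

lemma exists_UU {n : ℕ} (x : Matrix (Fin 5) (Fin n) (MvPolynomial (Fin 3) k))
    (h : tau k ᵥ* x = 0) : ∃ y : Matrix (Fin 5) (Fin n) (MvPolynomial (Fin 3) k), x = UU k * y := by
  have h1 : ∀ b, ∃ y : Fin 3 → MvPolynomial (Fin 3) k, x 0 b = X 1 * y 2 - X 2 * y 1 ∧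
      x 1 b = X 2 * y 0 - X 0 * y 2 ∧ x 2 b = X 0 * y 1 - X 1 * y 0 := by
    intro b
    have h2 := congrFun h b
    simp only [Matrix.vecMul, dotProduct, Fin.sum_univ_five, tau, Pi.zero_apply] at h2
    have h3 := koszul_one ![x 0 b, x 1 b, x 2 b] (by
      rw [Fin.sum_univ_three]
      simpa using h2)
    simpa using h3
  choose y hy0 hy1 hy2 using h1
  refine ⟨Matrix.of fun i b => ![-y b 0, -y b 1, -y b 2, x 3 b, x 4 b] i, ?_⟩
  ext i b
  fin_cases i
  · simp [UU, Matrix.mul_apply, Fin.sum_univ_five, hy0]; ring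
  · simp [UU, Matrix.mul_apply, Fin.sum_univ_five, hy1]; ring
  · simp [UU, Matrix.mul_apply, Fin.sum_univ_five, hy2]; ring
  · simp [UU, Matrix.mul_apply, Fin.sum_univ_five]
  · simp [UU, Matrix.mul_apply, Fin.sum_univ_five]

lemma exists_UU_transpose {n : ℕ} (x : Matrix (Fin 5) (Fin n) (MvPolynomial (Fin 3) k))
    (h : tau k ᵥ* x = 0) :
    ∃ y : Matrix (Fin 5) (Fin n) (MvPolynomial (Fin 3) k), x = (UU k).transpose * y := by
  obtain ⟨y, rfl⟩ := exists_UU x h
  refine ⟨Matrix.diagonal (![-1, -1, -1, 1, 1] : Fin 5 → MvPolynomial (Fin 3) k) * y, ?_⟩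
  rw [← Matrix.mul_assoc]
  congr 1
  ext i j
  rw [Matrix.mul_diagonal]
  fin_cases i <;> fin_cases j <;> simp [UU]

/-- a symmetric matrix which kills `tau` is `Uᵀ S U` -/
lemma exists_lift (h2 : (2 : k) ≠ 0) (Ψ : Matrix (Fin 5) (Fin 5) (MvPolynomial (Fin 3) k))
    (hs : Ψ.IsSymm) (h : tau k ᵥ* Ψ = 0) :
    ∃ S : Matrix (Fin 5) (Fin 5) (MvPolynomial (Fin 3) k), S.IsSymm ∧
      Ψ = (UU k).transpose * S * UU k := by
  obtain ⟨Y, hY⟩ := exists_UU_transpose Ψ h
  have hΨt : Ψ *ᵥ tau k = 0 := by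
    rw [← hs.eq, Matrix.mulVec_transpose, h]
  -- `Y tau` is a multiple of `tau`
  have hYt : (UU k).transpose *ᵥ (Y *ᵥ tau k) = 0 := by
    rw [Matrix.mulVec_mulVec, ← hY, hΨt]
  set w := Y *ᵥ tau k with hw
  obtain ⟨p, hp⟩ : ∃ p, w = p • tau k := by
    have e0 := congrFun hYt 0
    have e1 := congrFun hYt 1
    have e2 := congrFun hYt 2
    have e3 := congrFun hYt 3
    have e4 := congrFun hYt 4
    simp [UU, Matrix.mulVec, dotProduct, Fin.sum_univ_five] at e0 e1 e2 e3 e4
    obtain ⟨p, hp⟩ := koszul_two ![w 0, w 1, w 2] (by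
      simp only [Matrix.cons_val_zero, Matrix.cons_val_one]
      linear_combination e2) (by
      simp only [Matrix.cons_val_zero, Matrix.cons_val]
      linear_combination -e1)
    refine ⟨p, ?_⟩
    have p0 := hp 0
    have p1 := hp 1
    have p2 := hp 2
    simp only [Matrix.cons_val_zero, Matrix.cons_val_one, Matrix.cons_val] at p0 p1 p2
    ext1 i
    fin_cases i
    · simpa [tau] using p0
    · simpa [tau] using p1
    · simpa [tau] using p2
    · simpa [tau] using e3
    · simpa [tau] using e4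
  -- the constant term of `p` vanishes
  have hp0 : constantCoeff p = 0 := by
    have hD : ∀ (i j : Fin 3) (q : MvPolynomial (Fin 3) k),
        constantCoeff (pderiv i (X j * q)) = if j = i then constantCoeff q else 0 := by
      intro i j q
      rw [pderiv_mul, map_add, map_mul, map_mul, constantCoeff_X, zero_mul, add_zero]
      by_cases hij : j = i
      · subst hij
        simp
      · rw [pderiv_X_of_ne hij, if_neg hij]
        simp
    have hw0 : X 0 * Y 0 0 + X 1 * Y 0 1 + X 2 * Y 0 2 = X 0 * p := by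
      have := congrFun hp 0
      simp [hw, tau, Matrix.mulVec, dotProduct, Fin.sum_univ_five] at this
      linear_combination this
    have hw1 : X 0 * Y 1 0 + X 1 * Y 1 1 + X 2 * Y 1 2 = X 1 * p := by
      have := congrFun hp 1
      simp [hw, tau, Matrix.mulVec, dotProduct, Fin.sum_univ_five] at this
      linear_combination this
    have hsym : X 1 * Y 2 1 + X 0 * Y 2 0 = X 2 * Y 0 0 + X 2 * Y 1 1 := by
      have e := hs.apply 0 1
      rw [hY] at e
      simp [UU, Matrix.mul_apply, Fin.sum_univ_five] at e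
      linear_combination -e
    have d0 := congrArg (fun q => constantCoeff (pderiv 0 q)) hw0
    have d1 := congrArg (fun q => constantCoeff (pderiv 1 q)) hw1
    have d2 := congrArg (fun q => constantCoeff (pderiv 2 q)) hsym
    simp only [map_add, hD] at d0 d1 d2
    simp at d0 d1 d2
    have h3 : 2 * constantCoeff p = 0 := by
      linear_combination -d2 - d0 - d1
    exact (mul_eq_zero.1 h3).resolve_left h2
  obtain ⟨c, hc⟩ := exists_comb p
  rw [hp0, map_zero, zero_add] at hc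
  set c' : Fin 5 → MvPolynomial (Fin 3) k := ![c 0, c 1, c 2, 0, 0] with hc'
  have hct : c' ⬝ᵥ tau k = p := by
    rw [hc]
    simp [c', tau, dotProduct, Fin.sum_univ_five, Fin.sum_univ_three]
  set Y' := Y - Matrix.vecMulVec (tau k) c' with hY'
  have hY't : Y' *ᵥ tau k = 0 := by
    rw [hY', Matrix.sub_mulVec, ← hw, hp, Matrix.vecMulVec_mulVec, hct]
    ext i
    simp
  have hUY' : Ψ = (UU k).transpose * Y' := by
    rw [hY', Matrix.mul_sub, ← hY, Matrix.mul_vecMulVec, Matrix.mulVec_transpose, tau_UU]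
    ext i j
    simp
  obtain ⟨Z, hZ⟩ := exists_UU_transpose Y'.transpose (by
    rw [Matrix.vecMul_transpose, hY't])
  have hYZ : Y' = Z.transpose * UU k := by
    rw [← Matrix.transpose_transpose Y', hZ, Matrix.transpose_mul, Matrix.transpose_transpose]
  have hΨ : Ψ = (UU k).transpose * Z.transpose * UU k := by
    rw [hUY', hYZ, Matrix.mul_assoc]
  have hΨ' : Ψ = (UU k).transpose * Z * UU k := by
    rw [← hs.eq, hΨ]
    simp [Matrix.transpose_mul, Matrix.mul_assoc]
  have hC2 : (C (2⁻¹ : k) : MvPolynomial (Fin 3) k) * 2 = 1 := by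
    have : (2 : MvPolynomial (Fin 3) k) = C (2 : k) := (map_ofNat C 2).symm
    rw [this, ← C_mul, inv_mul_cancel₀ h2, C_1]
  refine ⟨(C (2⁻¹ : k) : MvPolynomial (Fin 3) k) • (Z + Z.transpose), ?_, ?_⟩
  · unfold Matrix.IsSymm
    rw [Matrix.transpose_smul, Matrix.transpose_add, Matrix.transpose_transpose, add_comm]
  · rw [Matrix.mul_smul, Matrix.smul_mul, Matrix.mul_add, Matrix.add_mul, ← hΨ, ← hΨ', ← two_smul
      (MvPolynomial (Fin 3) k) Ψ, smul_smul, hC2, one_smul]

end Lift

end Vale.Agent.P287.H925
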