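import Vale.Agent.P287.H925.Field

open Matrix

namespace Vale.Agent.P287.H925

section Main1

lemma form_eq {R Ω : Type*} [CommRing R] [CommRing Ω] (ψ : R →+* Ω) (g : R)
    (A B M : Matrix (Fin 4) (Fin 4) R) (z : Fin 4 → Ω) (h : A.transpose * M * A = g • B) :
    (A.map ψ *ᵥ z) ⬝ᵥ (M.map ψ *ᵥ (A.map ψ *ᵥ z)) = ψ g * (z ⬝ᵥ (B.map ψ *ᵥ z)) := by
  have h1 := congrArg (fun C : Matrix (Fin 4) (Fin 4) R => C.map ψ) h
  simp only [Matrix.map_mul] at h1
  have h2 : (g • B).map ψ = ψ g • B.map ψ := by ext a b; simp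
  rw [h2] at h1
  have h3 : (A.transpose).map ψ = (A.map ψ).transpose := by ext a b; rfl
  rw [h3] at h1
  calc (A.map ψ *ᵥ z) ⬝ᵥ (M.map ψ *ᵥ (A.map ψ *ᵥ z))
      = z ⬝ᵥ (((A.map ψ).transpose * M.map ψ * A.map ψ) *ᵥ z) := by
        rw [← Matrix.mulVec_mulVec, ← Matrix.mulVec_mulVec, Matrix.dotProduct_mulVec z,
          Matrix.vecMul_transpose]
    _ = ψ g * (z ⬝ᵥ (B.map ψ *ᵥ z)) := by
        rw [h1, Matrix.smul_mulVec, dotProduct_smul, smul_eq_mul]

variable {k : Type*} [Field k]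

open Polynomial in
theorem core {F : Type*} [Field F] [Algebra k F]
    (M : Matrix (Fin 4) (Fin 4) (MvPolynomial (Fin 3) k))
    (N : Matrix (Fin 5) (Fin 4) (MvPolynomial (Fin 3) k))
    (g : MvPolynomial (Fin 3) k) (d : Fin 5 → MvPolynomial (Fin 3) k)
    (A B : Fin 5 → Matrix (Fin 4) (Fin 4) (MvPolynomial (Fin 3) k))
    (Λ : Matrix (Fin 5) (Fin 3) k)
    (hdΛ : ∀ j, d j = ∑ i, MvPolynomial.C (Λ j i) * MvPolynomial.X i)
    (hΛ : ∀ a, Λ *ᵥ a = 0 → a = 0)
    (hrel : ∀ i, ∑ j : Fin 5, (-1) ^ (j : ℕ) * d j * N j i = 0)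
    (hSA : ∀ j : Fin 5, N.submatrix j.succAbove id * A j = (g * d j) • (1 : Matrix _ _ _))
    (hAS : ∀ j : Fin 5, A j * N.submatrix j.succAbove id = (g * d j) • (1 : Matrix _ _ _))
    (hB : ∀ j, (A j).transpose * M * A j = g • B j)
    (hBdeg : ∀ j a b, (B j a b).totalDegree ≤ 3)
    (hF : Fdeh M ≠ 0)
    (t : Fin 3 → F) (v : Fin 4 → F) (ht0 : t 0 = 1) (hv3 : v 3 = 1)
    (hgen : IntermediateField.adjoin k (Set.range t ∪ Set.range v) = ⊤)
    (hv : v ⬝ᵥ (M.map (MvPolynomial.aeval t) *ᵥ v) = 0)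
    (hgt : MvPolynomial.aeval t g ≠ 0)
    (hdt : ∀ j, d j ≠ 0 → MvPolynomial.aeval t (d j) ≠ 0)
    (hζ4 : (N.map (MvPolynomial.aeval t) *ᵥ v) 4 ≠ 0)
    (hdom : AlgebraicIndependent k (fun i : Fin 4 =>
      (N.map (MvPolynomial.aeval t) *ᵥ v) i.castSucc /
        (N.map (MvPolynomial.aeval t) *ᵥ v) 4)) :
    Nonempty (L4 k ≃ₐ[k] F) := by
  classical
  set ζ : Fin 5 → F := N.map (MvPolynomial.aeval t) *ᵥ v with hζdef
  let ι : L4 k →ₐ[k] F := IsFractionRing.liftAlgHom
    (g := MvPolynomial.aeval (fun i : Fin 4 => ζ i.castSucc / ζ 4)) hdom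
  have hιinj : Function.Injective ι := ι.toRingHom.injective
  have hι0 : ∀ a, ι a = 0 → a = 0 := fun a ha => hιinj (by rw [ha, map_zero])
  have hι : ∀ j, ι (zL k j) = ζ j / ζ 4 := by
    intro j
    have h1 : ∀ i : Fin 4, ι (algebraMap (MvPolynomial (Fin 4) k) (L4 k) (MvPolynomial.X i)) =
        ζ i.castSucc / ζ 4 := by
      intro i
      refine (IsFractionRing.lift_algebraMap (A := MvPolynomial (Fin 4) k) (K := L4 k)
        (g := (MvPolynomial.aeval (fun i : Fin 4 => ζ i.castSucc / ζ 4)).toRingHom)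
        hdom _).trans ?_
      simp
    refine Fin.lastCases ?_ (fun i => ?_) j
    · change ι 1 = ζ 4 / ζ 4
      rw [map_one, div_self hζ4]
    · rw [← h1 i]
      congr 1
      fin_cases i <;> rfl
  -- the linear forms
  let Z : Fin 3 → L4 k := fun i => ∑ j : Fin 5, (-1) ^ (j : ℕ) * algebraMap k (L4 k) (Λ j i) *
    zL k j
  have hlinZ : ∀ a : Fin 3 → k, ∑ i, algebraMap k (L4 k) (a i) * Z i = 0 → a = 0 := by
    intro a ha
    apply hΛ
    have h1 := zL_indep (fun j : Fin 5 => (-1) ^ (j : ℕ) * (Λ *ᵥ a) j) (by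
      rw [← ha]
      simp only [Z, Finset.mul_sum]
      rw [Finset.sum_comm]
      refine Finset.sum_congr rfl fun j _ => ?_
      simp only [mulVec, dotProduct, map_mul, map_sum, map_pow, map_neg, map_one,
        Finset.mul_sum, Finset.sum_mul]
      exact Finset.sum_congr rfl fun i _ => by ring)
    ext j
    have h2 := congrFun h1 j
    simp only [Pi.zero_apply] at h2 ⊢
    exact (mul_eq_zero.1 h2).resolve_left (pow_ne_zero _ (neg_ne_zero.2 one_ne_zero))
  have hZ1 : Z 1 ≠ 0 := by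
    intro h0
    have h1 := hlinZ (Pi.single 1 1) (by simp [Fin.sum_univ_three, h0])
    have h2 := congrFun h1 1
    simp at h2
  have hrelF : ∑ j : Fin 5, (-1) ^ (j : ℕ) * MvPolynomial.aeval t (d j) * ζ j = 0 := by
    simp only [hζdef, mulVec, dotProduct, Matrix.map_apply, Finset.mul_sum]
    rw [Finset.sum_comm]
    refine Finset.sum_eq_zero fun i _ => ?_
    have h4 := congrArg (MvPolynomial.aeval t) (hrel i)
    simp only [map_sum, map_mul, map_pow, map_neg, map_one, map_zero] at h4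
    calc ∑ x : Fin 5, (-1) ^ (x : ℕ) * MvPolynomial.aeval t (d x) *
          (MvPolynomial.aeval t (N x i) * v i)
        = (∑ x : Fin 5, (-1) ^ (x : ℕ) * MvPolynomial.aeval t (d x) *
            MvPolynomial.aeval t (N x i)) * v i := by
          rw [Finset.sum_mul]; exact Finset.sum_congr rfl fun x _ => by ring
      _ = 0 := by rw [h4, zero_mul]
  have hdt' : ∀ j, MvPolynomial.aeval t (d j) = ∑ i, algebraMap k F (Λ j i) * t i := by
    intro j
    rw [hdΛ j]
    simp [map_sum]
  have hZt : ∑ i, ι (Z i) * t i = 0 := by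
    have h1 : ∑ i, ι (Z i) * t i =
        (∑ j : Fin 5, (-1) ^ (j : ℕ) * MvPolynomial.aeval t (d j) * ζ j) / ζ 4 := by
      simp only [Z, map_sum, map_mul, map_pow, map_neg, map_one, hι, AlgHom.commutes, hdt']
      simp only [Finset.sum_mul, Finset.mul_sum, Finset.sum_div]
      rw [Finset.sum_comm]
      refine Finset.sum_congr rfl fun j _ => Finset.sum_congr rfl fun i _ => ?_
      ring
    rw [h1, hrelF, zero_div]
  have hιZ1 : ι (Z 1) ≠ 0 := fun h => hZ1 (hι0 _ h)
  -- the parametrised line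
  let T : Fin 3 → (L4 k)[X] := ![1, C (-(Z 0 / Z 1)) + C (-(Z 2 / Z 1)) * X, X]
  have hTdeg : ∀ i, (T i).natDegree ≤ 1 := by
    intro i
    fin_cases i
    · simp [T]
    · change (C (-(Z 0 / Z 1)) + C (-(Z 2 / Z 1)) * X).natDegree ≤ 1
      compute_degree
    · simp [T]
  have hTrel : ∑ i, C (Z i) * T i = 0 := by
    rw [Fin.sum_univ_three]
    change C (Z 0) * 1 + C (Z 1) * (C (-(Z 0 / Z 1)) + C (-(Z 2 / Z 1)) * X) + C (Z 2) * X = 0
    rw [mul_one, mul_add, ← mul_assoc, ← C_mul, ← C_mul]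
    have e0 : Z 1 * -(Z 0 / Z 1) = - Z 0 := by field_simp
    have e2 : Z 1 * -(Z 2 / Z 1) = - Z 2 := by field_simp
    rw [e0, e2, C_neg, C_neg]; ring
  have hdT : ∀ j, MvPolynomial.aeval T (d j) = ∑ i, C (algebraMap k (L4 k) (Λ j i)) * T i := by
    intro j
    rw [hdΛ j]
    simp only [map_sum, map_mul, MvPolynomial.aeval_X, MvPolynomial.algHom_C]
    rfl
  have hζL : ∑ j : Fin 5, (-1) ^ (j : ℕ) * MvPolynomial.aeval T (d j) * C (zL k j) = 0 := by
    rw [← hTrel]
    simp only [hdT, Z, map_sum, map_mul, map_pow, map_neg, map_one, Finset.sum_mul,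
      Finset.mul_sum]
    rw [Finset.sum_comm]
    refine Finset.sum_congr rfl fun i _ => Finset.sum_congr rfl fun j _ => ?_
    ring
  let ε : (L4 k)[X] →ₐ[k] F := Polynomial.aevalTower ι (t 2)
  have hεC : ∀ a, ε (C a) = ι a := fun a => by simp [ε]
  have hεX : ε X = t 2 := by simp [ε]
  have hεT : ∀ i, ε (T i) = t i := by
    intro i
    fin_cases i
    · change ε 1 = t 0
      rw [map_one, ht0]
    · change ε (C (-(Z 0 / Z 1)) + C (-(Z 2 / Z 1)) * X) = t 1
      rw [map_add, map_mul, hεC, hεC, hεX, map_neg, map_neg, map_div₀, map_div₀]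
      rw [Fin.sum_univ_three, ht0] at hZt
      field_simp
      linear_combination -hZt
    · exact hεX
  have hεp : ∀ p : MvPolynomial (Fin 3) k,
      ε (MvPolynomial.aeval T p) = MvPolynomial.aeval t p := by
    intro p
    rw [← AlgHom.comp_apply, MvPolynomial.comp_aeval]
    congr 2
    funext i
    exact hεT i
  -- choice of the chart
  obtain ⟨j, hj⟩ : ∃ j, Λ j 1 ≠ 0 := by
    by_contra hcon
    push Not at hcon
    have h1 := hΛ (Pi.single 1 1) (by
      ext j
      simp [Matrix.mulVec, dotProduct, Pi.single_apply, hcon j])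
    have h2 := congrFun h1 1
    simp at h2
  have hdj : d j ≠ 0 := by
    intro h0
    have h1 := congrArg (MvPolynomial.eval (Pi.single 1 1)) h0
    rw [hdΛ j] at h1
    simp [Fin.sum_univ_three, hj] at h1
  have hdjt := hdt j hdj
  set b : L4 k := algebraMap k (L4 k) (Λ j 2) - algebraMap k (L4 k) (Λ j 1) * (Z 2 / Z 1) with hb
  have hb0 : b ≠ 0 := by
    intro h0
    have h1 := hlinZ ![0, Λ j 2, -Λ j 1] (by
      rw [Fin.sum_univ_three]
      simp only [Matrix.cons_val_zero, Matrix.cons_val_one, Matrix.cons_val, map_zero, zero_mul,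
        zero_add, map_neg]
      have h2 : b * Z 1 = 0 := by rw [h0, zero_mul]
      rw [hb] at h2
      field_simp at h2
      linear_combination h2)
    have h3 := congrFun h1 2
    simp at h3
    exact hj h3
  set a : L4 k := algebraMap k (L4 k) (Λ j 0) - algebraMap k (L4 k) (Λ j 1) * (Z 0 / Z 1) with ha
  set r : L4 k := -(a / b) with hr
  have hDj : MvPolynomial.aeval T (d j) = C b * (X - C r) := by
    rw [hdT j, Fin.sum_univ_three]
    change C (algebraMap k (L4 k) (Λ j 0)) * 1 + C (algebraMap k (L4 k) (Λ j 1)) *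
      (C (-(Z 0 / Z 1)) + C (-(Z 2 / Z 1)) * X) + C (algebraMap k (L4 k) (Λ j 2)) * X = _
    have h1 : C b * (X - C r) = C b * X + C a := by
      rw [mul_sub, ← C_mul, hr, mul_neg, mul_div_cancel₀ _ hb0, C_neg, sub_neg_eq_add]
    rw [h1, hb, ha]
    simp only [C_sub, C_mul, C_neg]
    ring
  obtain ⟨μ, hμ⟩ := left_inv Λ hΛ
  obtain ⟨j', hj'⟩ : ∃ j', (MvPolynomial.aeval T (d j')).eval r ≠ 0 := by
    by_contra hcon
    push Not at hcon
    have h1 : ∑ j', algebraMap k (L4 k) (μ 0 j') * (MvPolynomial.aeval T (d j')).eval r = 1 := by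
      have h2 : ∀ j', (MvPolynomial.aeval T (d j')).eval r =
          ∑ i, algebraMap k (L4 k) (Λ j' i) * (T i).eval r := by
        intro j'
        rw [hdT j']
        simp [Polynomial.eval_finsetSum]
      simp only [h2, Finset.mul_sum]
      rw [Finset.sum_comm]
      have h3 : ∀ i, ∑ j', algebraMap k (L4 k) (μ 0 j') *
          (algebraMap k (L4 k) (Λ j' i) * (T i).eval r) =
          algebraMap k (L4 k) ((μ * Λ) 0 i) * (T i).eval r := by
        intro i
        rw [Matrix.mul_apply, map_sum, Finset.sum_mul]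
        refine Finset.sum_congr rfl fun j' _ => ?_
        rw [map_mul]; ring
      simp only [h3, hμ]
      rw [Fin.sum_univ_three]
      simp [T]
    simp [hcon] at h1
  have hdj' : MvPolynomial.aeval T (d j') ≠ 0 := by
    intro h0
    rw [h0] at hj'
    simp at hj'
  have hgT : MvPolynomial.aeval T g ≠ 0 := by
    intro h0
    apply hgt
    rw [← hεp, h0, map_zero]
  have hdjT : MvPolynomial.aeval T (d j) ≠ 0 := by
    intro h0
    apply hdjt
    rw [← hεp, h0, map_zero]
  -- the cubic polynomials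
  let P : Fin 5 → (L4 k)[X] := fun j => (fun l : Fin 4 => C (zL k (j.succAbove l))) ⬝ᵥ
    ((B j).map (MvPolynomial.aeval T) *ᵥ fun l => C (zL k (j.succAbove l)))
  have hcomp : (MvPolynomial.aeval T (d j')) ^ 2 * P j = (MvPolynomial.aeval T (d j)) ^ 2 * P j' :=
    key_quad (MvPolynomial.aeval T : MvPolynomial (Fin 3) k →ₐ[k] (L4 k)[X]).toRingHom N g d
      hrel j j' M (A j) (A j') (B j) (B j') (hSA j) (hAS j) (hSA j') (hB j) (hB j')
      hgT hdjT hdj' (fun l => C (zL k l)) hζL
  have hPdeg : (P j).natDegree ≤ 3 := by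
    simp only [P, dotProduct, Matrix.mulVec, Matrix.map_apply]
    refine (natDegree_sum_le_of_forall_le _ _ fun l _ => ?_)
    refine (natDegree_C_mul_le _ _).trans ?_
    refine (natDegree_sum_le_of_forall_le _ _ fun l' _ => ?_)
    refine (natDegree_mul_C_le _ _).trans ?_
    exact natDegree_le_three _ (hBdeg _ _ _) T hTdeg
  obtain ⟨q0, q1, hq⟩ := square_div (P j) (P j') _ _ b r hDj hj' hcomp hPdeg
  -- the vector on the line
  let V : Fin 4 → (L4 k)[X] := (A j).map (MvPolynomial.aeval T) *ᵥ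
    fun l => C (zL k (j.succAbove l))
  have hNV : N.map (MvPolynomial.aeval T) *ᵥ V =
      (MvPolynomial.aeval T g * MvPolynomial.aeval T (d j)) • fun i => C (zL k i) :=
    key_image (MvPolynomial.aeval T : MvPolynomial (Fin 3) k →ₐ[k] (L4 k)[X]).toRingHom N g d
      hrel j (A j) (hSA j) hdjT (fun l => C (zL k l)) hζL
  have hεV : ∀ i, ε (V i) =
      (MvPolynomial.aeval t g * MvPolynomial.aeval t (d j) / ζ 4) * v i := by
    intro i
    have h1 : ε (V i) = ∑ l, MvPolynomial.aeval t (A j i l) * (ζ (j.succAbove l) / ζ 4) := by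
      simp only [V, mulVec, dotProduct, Matrix.map_apply, map_sum, map_mul, hεp, hεC, hι]
    have h2 : ∑ l, MvPolynomial.aeval t (A j i l) * ζ (j.succAbove l) =
        (MvPolynomial.aeval t g * MvPolynomial.aeval t (d j)) * v i := by
      have h3 : ∀ l, ζ (j.succAbove l) =
          ((N.submatrix j.succAbove id).map (MvPolynomial.aeval t) *ᵥ v) l := fun l => rfl
      simp only [h3]
      have h4 : ∑ l, MvPolynomial.aeval t (A j i l) *
          ((N.submatrix j.succAbove id).map (MvPolynomial.aeval t) *ᵥ v) l =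
          ((A j).map (MvPolynomial.aeval t) *ᵥ
            ((N.submatrix j.succAbove id).map (MvPolynomial.aeval t) *ᵥ v)) i := rfl
      rw [h4, Matrix.mulVec_mulVec]
      have h5 : (A j).map (MvPolynomial.aeval t) *
          (N.submatrix j.succAbove id).map (MvPolynomial.aeval t) =
          (A j * N.submatrix j.succAbove id).map (MvPolynomial.aeval t : _ →ₐ[k] F) := by
        rw [Matrix.map_mul]
      rw [h5, hAS j]
      simp only [mulVec, dotProduct, Matrix.map_apply, Matrix.smul_apply, smul_eq_mul,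
        Matrix.one_apply, mul_ite, mul_one, mul_zero, apply_ite (MvPolynomial.aeval t),
        map_mul, map_zero, ite_mul, zero_mul, Finset.sum_ite_eq, Finset.mem_univ, if_true]
    rw [h1]
    simp only [mul_div_assoc', ← Finset.sum_div, h2]
    ring
  have hc0 : MvPolynomial.aeval t g * MvPolynomial.aeval t (d j) / ζ 4 ≠ 0 :=
    div_ne_zero (mul_ne_zero hgt hdjt) hζ4
  have hV3 : V 3 ≠ 0 := by
    intro h0
    have h1 := hεV 3
    rw [h0, map_zero, hv3, mul_one] at h1
    exact hc0 h1.symm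
  have hform : V ⬝ᵥ (M.map (MvPolynomial.aeval T) *ᵥ V) = MvPolynomial.aeval T g * P j :=
    form_eq (MvPolynomial.aeval T : MvPolynomial (Fin 3) k →ₐ[k] (L4 k)[X]).toRingHom g
      (A j) (B j) M _ (hB j)
  have hPne : P j ≠ 0 := by
    intro h0
    have h1 := form_ne_zero M N hF T rfl rfl V hV3 _ (mul_ne_zero hgT hdjT) hNV
    rw [hform, h0, mul_zero] at h1
    exact h1 rfl
  have hεP : ε (P j) = 0 := by
    have h1 := congrArg ε hform
    rw [map_mul, hεp] at h1
    have h2 : ε (V ⬝ᵥ (M.map (MvPolynomial.aeval T) *ᵥ V)) = 0 := by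
      simp only [mulVec, dotProduct, Matrix.map_apply, map_sum, map_mul, hεp, hεV] at hv ⊢
      set c := MvPolynomial.aeval t g * MvPolynomial.aeval t (d j) / ζ 4
      have h3 : ∑ x, c * v x * ∑ y, MvPolynomial.aeval t (M x y) * (c * v y) =
          c * c * ∑ x, v x * ∑ y, MvPolynomial.aeval t (M x y) * v y := by
        simp only [Finset.mul_sum]
        exact Finset.sum_congr rfl fun x _ => Finset.sum_congr rfl fun y _ => by ring
      rw [h3, hv, mul_zero]
    rw [h2] at h1
    exact (mul_eq_zero.1 h1.symm).resolve_left hgt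
  have hlin : ι q0 + ι q1 * t 2 = 0 := by
    have h1 := hεP
    rw [hq, map_mul, map_pow, map_sub, map_add, map_mul, hεC, hεC, hεC, hεX] at h1
    have h2 : t 2 - ι r ≠ 0 := by
      intro h0
      apply hdjt
      have h3 : ε (X - C r) = t 2 - ι r := by rw [map_sub ε, hεX, hεC]
      rw [← hεp, hDj, map_mul, h3, h0, mul_zero]
    exact (mul_eq_zero.1 h1).resolve_left (pow_ne_zero _ h2)
  have hq1 : q1 ≠ 0 := by
    intro h0
    rw [h0, map_zero, zero_mul, add_zero] at hlin
    apply hPne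
    rw [hq, h0, hι0 _ hlin]
    simp
  -- everything is in the range
  set E : IntermediateField k F := ι.fieldRange with hE
  have hmem : ∀ x, ι x ∈ E := fun x => ⟨x, rfl⟩
  have ht2 : t 2 ∈ E := by
    have h1 : t 2 = -(ι q0 / ι q1) := by
      have h2 : ι q1 ≠ 0 := fun h => hq1 (hι0 _ h)
      field_simp
      linear_combination hlin
    rw [h1]
    exact E.neg_mem (E.div_mem (hmem _) (hmem _))
  have ht1 : t 1 ∈ E := by
    have h1 : t 1 = -((ι (Z 0) + ι (Z 2) * t 2) / ι (Z 1)) := by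
      rw [Fin.sum_univ_three, ht0] at hZt
      field_simp
      linear_combination hZt
    rw [h1]
    exact E.neg_mem (E.div_mem (E.add_mem (hmem _) (E.mul_mem (hmem _) ht2)) (hmem _))
  have ht : ∀ i, t i ∈ E := by
    intro i
    fin_cases i
    · change t 0 ∈ E
      rw [ht0]; exact E.one_mem
    · exact ht1
    · exact ht2
  have hp : ∀ p : MvPolynomial (Fin 3) k, MvPolynomial.aeval t p ∈ E := by
    intro p
    induction p using MvPolynomial.induction_on with
    | C a => simp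
    | add p q hp hq => simpa using E.add_mem hp hq
    | mul_X p i hp => simpa using E.mul_mem hp (ht i)
  have hεVE : ∀ i, ε (V i) ∈ E := by
    intro i
    simp only [V, mulVec, dotProduct, Matrix.map_apply, map_sum, map_mul, hεp, hεC]
    exact E.sum_mem fun l _ => E.mul_mem (hp _) (hmem _)
  have hvE : ∀ i, v i ∈ E := by
    intro i
    have h1 : v i = ε (V i) / ε (V 3) := by
      rw [hεV, hεV, hv3, mul_one, mul_div_cancel_left₀ _ hc0]
    rw [h1]
    exact E.div_mem (hεVE _) (hεVE _)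
  have hEtop : E = ⊤ := by
    rw [eq_top_iff, ← hgen, IntermediateField.adjoin_le_iff]
    rintro x (⟨i, rfl⟩ | ⟨i, rfl⟩)
    · exact ht i
    · exact hvE i
  refine ⟨AlgEquiv.ofBijective ι ⟨hιinj, fun x => ?_⟩⟩
  have hx : x ∈ E := by rw [hEtop]; trivial
  exact hx

end Main1

end Vale.Agent.P287.H925
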