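import Vale.Agent.P287.H925.Lift
import Vale.Agent.P287.H925.Five

open MvPolynomial Matrix

namespace Vale.Agent.P287.H925

section Normal

variable {k : Type*} [Field k] {κ : Type*} [Field κ]

/-- the lattice form in the normal form is a net of quadrics -/
theorem normal_net (h2 : (2 : k) ≠ 0) (φ : MvPolynomial (Fin 3) k →+* κ)
    (g : MvPolynomial (Fin 3) k) (hφ : ∀ p, φ p = 0 ↔ g ∣ p) (hg : g ≠ 0)
    (W : Submodule κ (Fin 4 → κ)) (hW : Module.finrank κ W = 2)
    (M : Matrix (Fin 4) (Fin 4) (MvPolynomial (Fin 3) k)) (hM : M.IsSymm)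
    (hiso : ∀ w ∈ W, ∀ w' ∈ W, w ⬝ᵥ (M.map φ *ᵥ w') = 0)
    (N : Matrix (Fin 5) (Fin 4) (MvPolynomial (Fin 3) k))
    (hN : ∀ w ∈ W, N.map φ *ᵥ w = 0) (hτ : tau k ᵥ* N = 0) (c : k) (hc : c ≠ 0)
    (hdet : (N.submatrix (Fin.succAbove 0) id).det = g ^ 2 * (C c * X 0))
    (hg0 : φ (X 0) ≠ 0) (hg1 : φ (X 1) ≠ 0) :
    ∃ S : Matrix (Fin 5) (Fin 5) (MvPolynomial (Fin 3) k), S.IsSymm ∧
      g • M = N.transpose * S * N := by
  have hc' : IsUnit (C c : MvPolynomial (Fin 3) k) := (IsUnit.mk0 _ hc).map C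
  have hCc : (C c : MvPolynomial (Fin 3) k) ≠ 0 := hc'.ne_zero
  have hX0 := X_ne_zero (R := k) (0 : Fin 3)
  have hX1 := X_ne_zero (R := k) (1 : Fin 3)
  have hsub : ∀ (j : Fin 5) (w : Fin 4 → κ), w ∈ W →
      (N.submatrix j.succAbove id).map φ *ᵥ w = 0 := by
    intro j w hw
    ext i
    exact congrFun (hN w hw) (j.succAbove i)
  obtain ⟨A0, d0, hA0, hd0, hSA0, hAS0⟩ := step_one φ g hφ hg
    (N.submatrix (Fin.succAbove 0) id) W hW.ge (hsub 0)
  obtain ⟨A1, d1, hA1, hd1, hSA1, hAS1⟩ := step_one φ g hφ hg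
    (N.submatrix (Fin.succAbove 1) id) W hW.ge (hsub 1)
  have hg2 : g ^ 2 ≠ 0 := pow_ne_zero 2 hg
  have hd0' : d0 = C c * X 0 := mul_left_cancel₀ hg2 (by rw [← hd0, hdet])
  have hdet0 : (N.submatrix (Fin.succAbove 0) id).det ≠ 0 := by
    rw [hdet]
    exact mul_ne_zero hg2 (mul_ne_zero hCc hX0)
  -- the second determinant
  have hd1' : d1 = -(C c * X 1) := by
    have h1 : (fun j : Fin 4 => X 0 * ((-1) ^ ((j.succ : Fin 5) : ℕ) *
        (N.submatrix (j.succ).succAbove id).det) -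
        (N.submatrix (Fin.succAbove 0) id).det * tau k j.succ) ᵥ*
          (N.submatrix (Fin.succAbove 0) id) = 0 := by
      funext i
      have e1 := cramer_rel N i
      have e2 : ∑ j, tau k j * N j i = 0 := congrFun hτ i
      rw [Fin.sum_univ_succ] at e1 e2
      have e3 : tau k 0 = (X 0 : MvPolynomial (Fin 3) k) := rfl
      simp only [Fin.val_zero, pow_zero, one_mul, e3] at e1 e2
      simp only [Matrix.vecMul, dotProduct, Matrix.submatrix_apply, id, Fin.zero_succAbove,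
        Pi.zero_apply, sub_mul, Finset.sum_sub_distrib, mul_assoc]
      rw [← Finset.mul_sum, ← Finset.mul_sum]
      simp only [mul_assoc] at e1
      linear_combination (X 0 : MvPolynomial (Fin 3) k) * e1 -
        (N.submatrix (Fin.succAbove 0) id).det * e2
    have h3 := congrFun (Matrix.eq_zero_of_vecMul_eq_zero hdet0 h1) 0
    have h4 : tau k (Fin.succ 0) = (X 1 : MvPolynomial (Fin 3) k) := rfl
    have h5 : (Fin.succ (0 : Fin 4)) = (1 : Fin 5) := rfl
    rw [h4, h5] at h3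
    simp only [Pi.zero_apply, Fin.val_one, pow_one] at h3
    rw [hd1, hdet] at h3
    have h6 : g ^ 2 * X 0 * (d1 + C c * X 1) = 0 := by linear_combination -h3
    have h7 := (mul_eq_zero.1 h6).resolve_left (mul_ne_zero hg2 hX0)
    linear_combination h7
  have hgg : φ g = 0 := (hφ g).2 dvd_rfl
  have hφc : φ (C c) ≠ 0 := (hc'.map φ).ne_zero
  obtain ⟨B0, hB0⟩ := step_three φ g hφ hg _ A0 M d0 hA0 hSA0 hAS0 W hW (hsub 0)
    (by rw [hd0', map_mul]; exact mul_ne_zero hφc hg0) hiso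
  obtain ⟨B1, hB1⟩ := step_three φ g hφ hg _ A1 M d1 hA1 hSA1 hAS1 W hW (hsub 1)
    (by rw [hd1', map_neg, map_mul]; exact neg_ne_zero.2 (mul_ne_zero hφc hg1)) hiso
  -- the Gram matrices
  set d : Fin 5 → MvPolynomial (Fin 3) k := ![C c * X 0, -(C c * X 1), C c * X 2, 0, 0] with hd
  have hdrel : ∀ x : Fin 5 → MvPolynomial (Fin 3) k, tau k ⬝ᵥ x = 0 →
      ∑ j : Fin 5, (-1) ^ (j : ℕ) * d j * x j = 0 := by
    intro x hx
    have e1 : ∑ j : Fin 5, (-1) ^ (j : ℕ) * d j * x j = C c * (tau k ⬝ᵥ x) := by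
      simp [Fin.sum_univ_five, d, tau, dotProduct]
      ring
    rw [e1, hx, mul_zero]
  have hNrel : ∀ i, ∑ j : Fin 5, (-1) ^ (j : ℕ) * d j * N j i = 0 := fun i =>
    hdrel (fun j => N j i) (congrFun hτ i)
  have hUrel : ∀ b, ∑ j : Fin 5, (-1) ^ (j : ℕ) * d j * UU k j b = 0 := fun b =>
    hdrel (fun j => UU k j b) (congrFun tau_UU b)
  set Z0 : Matrix (Fin 4) (Fin 5) (MvPolynomial (Fin 3) k) :=
    (UU k).submatrix (Fin.succAbove 0) id with hZ0
  set Z1 : Matrix (Fin 4) (Fin 5) (MvPolynomial (Fin 3) k) :=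
    (UU k).submatrix (Fin.succAbove 1) id with hZ1
  have hdd0 : d 0 = d0 := by rw [hd0']; rfl
  have hdd1 : d 1 = d1 := by rw [hd1']; rfl
  have hd0ne : d0 ≠ 0 := by rw [hd0']; exact mul_ne_zero hCc hX0
  have hd1ne : d1 ≠ 0 := by rw [hd1']; exact neg_ne_zero.2 (mul_ne_zero hCc hX1)
  have hV : d1 • (A0 * Z0) = d0 • (A1 * Z1) := by
    have h1 : ∀ b, d1 • (A0 *ᵥ fun i => UU k ((0 : Fin 5).succAbove i) b) =
        d0 • (A1 *ᵥ fun i => UU k ((1 : Fin 5).succAbove i) b) := by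
      intro b
      have h3 := key_compare (RingHom.id (MvPolynomial (Fin 3) k)) N g d hNrel 0 1 A0 A1
        (by rw [hdd0]; exact hSA0) (by rw [hdd0]; exact hAS0) (by rw [hdd1]; exact hSA1)
        hg (by rw [hdd0]; exact hd0ne) (by rw [hdd1]; exact hd1ne)
        (fun j => UU k j b) (hUrel b)
      simp only [RingHom.id_apply, RingHom.coe_id, Matrix.map_id, hdd0, hdd1] at h3
      exact h3
    refine Matrix.ext fun a b => ?_
    exact congrFun (h1 b) a
  have hG0 : (A0 * Z0).transpose * M * (A0 * Z0) = g • (Z0.transpose * B0 * Z0) := by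
    have e1 : (A0 * Z0).transpose * M * (A0 * Z0) =
        Z0.transpose * (A0.transpose * M * A0) * Z0 := by
      simp only [Matrix.transpose_mul, Matrix.mul_assoc]
    rw [e1, hB0, Matrix.mul_smul, Matrix.smul_mul]
  have hG1 : (A1 * Z1).transpose * M * (A1 * Z1) = g • (Z1.transpose * B1 * Z1) := by
    have e1 : (A1 * Z1).transpose * M * (A1 * Z1) =
        Z1.transpose * (A1.transpose * M * A1) * Z1 := by
      simp only [Matrix.transpose_mul, Matrix.mul_assoc]
    rw [e1, hB1, Matrix.mul_smul, Matrix.smul_mul]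
  set Γ0 := Z0.transpose * B0 * Z0 with hΓ0
  set Γ1 := Z1.transpose * B1 * Z1 with hΓ1
  have hΓ : ∀ a b, d1 ^ 2 * Γ0 a b = d0 ^ 2 * Γ1 a b := by
    have e1 : (d1 • (A0 * Z0)).transpose * M * (d1 • (A0 * Z0)) =
        (d0 • (A1 * Z1)).transpose * M * (d0 • (A1 * Z1)) := by rw [hV]
    simp only [Matrix.transpose_smul, Matrix.smul_mul, Matrix.mul_smul, hG0, hG1] at e1
    intro a b
    have e2 := congrFun (congrFun e1 a) b
    simp only [Matrix.smul_apply, smul_eq_mul] at e2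
    apply mul_left_cancel₀ hg
    linear_combination e2
  have hdiv : ∀ a b, (X 0 : MvPolynomial (Fin 3) k) ^ 2 ∣ Γ0 a b := by
    intro a b
    have e1 : (X 0 : MvPolynomial (Fin 3) k) ^ 2 ∣ X 1 ^ 2 * Γ0 a b := by
      refine ⟨Γ1 a b, ?_⟩
      have e2 := hΓ a b
      rw [hd0', hd1'] at e2
      apply mul_left_cancel₀ (pow_ne_zero 2 hCc)
      linear_combination e2
    refine (X_prime (R := k) (i := (0 : Fin 3))).pow_dvd_of_dvd_mul_left 2 ?_ e1
    intro h
    exact X_not_dvd_X (by decide) ((X_prime (R := k) (i := (0 : Fin 3))).dvd_of_dvd_pow h)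
  choose Ψ' hΨ' using hdiv
  set Ψ : Matrix (Fin 5) (Fin 5) (MvPolynomial (Fin 3) k) := Matrix.of Ψ' with hΨ
  have hΓΨ : Γ0 = (X 0 ^ 2 : MvPolynomial (Fin 3) k) • Ψ := by
    refine Matrix.ext fun a b => ?_
    simp [Ψ, hΨ']
  have hX02 : (X 0 ^ 2 : MvPolynomial (Fin 3) k) ≠ 0 := pow_ne_zero 2 hX0
  have hB0s : B0.transpose = B0 := by
    have e1 : (A0.transpose * M * A0).transpose = A0.transpose * M * A0 := by
      simp only [Matrix.transpose_mul, Matrix.transpose_transpose, hM.eq, Matrix.mul_assoc]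
    rw [hB0, Matrix.transpose_smul] at e1
    refine Matrix.ext fun a b => ?_
    have e2 := congrFun (congrFun e1 a) b
    simp only [Matrix.smul_apply, smul_eq_mul] at e2
    exact mul_left_cancel₀ hg e2
  have hΓs : Γ0.transpose = Γ0 := by
    rw [hΓ0]
    simp only [Matrix.transpose_mul, Matrix.transpose_transpose, hB0s, Matrix.mul_assoc]
  have hΨs : Ψ.IsSymm := by
    rw [hΓΨ, Matrix.transpose_smul] at hΓs
    refine Matrix.ext fun a b => ?_
    have e2 := congrFun (congrFun hΓs a) b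
    simp only [Matrix.smul_apply, smul_eq_mul] at e2
    exact mul_left_cancel₀ hX02 e2
  have hΨτ : tau k ᵥ* Ψ = 0 := by
    have e1 : Γ0 *ᵥ tau k = 0 := by
      have e2 : Z0 *ᵥ tau k = 0 := by
        funext a
        exact congrFun (UU_tau (k := k)) ((0 : Fin 5).succAbove a)
      rw [hΓ0, ← Matrix.mulVec_mulVec, e2, Matrix.mulVec_zero]
    rw [hΓΨ, Matrix.smul_mulVec] at e1
    have e3 := (smul_eq_zero.1 e1).resolve_left hX02
    rw [← Matrix.mulVec_transpose, hΨs.eq, e3]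
  obtain ⟨S, hSs, hS⟩ := exists_lift h2 Ψ hΨs hΨτ
  obtain ⟨E, hE⟩ := exists_UU N hτ
  have hN0 : N.submatrix (Fin.succAbove 0) id = Z0 * E := by
    conv_lhs => rw [hE]
    rfl
  have hmain : N.transpose * S * N = g • (C c ^ 2 : MvPolynomial (Fin 3) k) • M := by
    have e1 : (X 0 ^ 2 : MvPolynomial (Fin 3) k) • (N.transpose * S * N) =
        (N.submatrix (Fin.succAbove 0) id).transpose * B0 *
          N.submatrix (Fin.succAbove 0) id := by
      have e2 : N.transpose * S * N = E.transpose * Ψ * E := by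
        conv_lhs => rw [hE]
        rw [hS]
        simp only [Matrix.transpose_mul, Matrix.mul_assoc]
      rw [e2, ← Matrix.smul_mul, ← Matrix.mul_smul, ← hΓΨ, hΓ0, hN0]
      simp only [Matrix.transpose_mul, Matrix.mul_assoc]
    have e3 : g • ((N.submatrix (Fin.succAbove 0) id).transpose * B0 *
          N.submatrix (Fin.succAbove 0) id) = (g * d0) ^ 2 • M := by
      have e4 : g • ((N.submatrix (Fin.succAbove 0) id).transpose * B0 *
          N.submatrix (Fin.succAbove 0) id) =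
          (A0 * N.submatrix (Fin.succAbove 0) id).transpose * M *
            (A0 * N.submatrix (Fin.succAbove 0) id) := by
        rw [← Matrix.smul_mul, ← Matrix.mul_smul, ← hB0]
        simp only [Matrix.transpose_mul, Matrix.mul_assoc]
      rw [e4, hAS0]
      simp only [Matrix.transpose_smul, Matrix.transpose_one, Matrix.smul_mul, Matrix.mul_smul,
        Matrix.one_mul, Matrix.mul_one, smul_smul]
      rw [pow_two]
    rw [← e1, smul_smul, hd0'] at e3
    refine Matrix.ext fun a b => ?_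
    have e5 := congrFun (congrFun e3 a) b
    simp only [Matrix.smul_apply, smul_eq_mul] at e5 ⊢
    apply mul_left_cancel₀ (mul_ne_zero hg hX02)
    linear_combination e5
  refine ⟨(C (c⁻¹ ^ 2) : MvPolynomial (Fin 3) k) • S, ?_, ?_⟩
  · unfold Matrix.IsSymm
    rw [Matrix.transpose_smul, hSs.eq]
  · rw [Matrix.mul_smul, Matrix.smul_mul, hmain]
    refine Matrix.ext fun a b => ?_
    simp only [Matrix.smul_apply, smul_eq_mul]
    have e1 : (C (c⁻¹ ^ 2) : MvPolynomial (Fin 3) k) * C c ^ 2 = 1 := by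
      rw [← C_pow, ← C_mul, ← mul_pow, inv_mul_cancel₀ hc, one_pow, C_1]
    linear_combination (-(g * M a b)) * e1

end Normal

end Vale.Agent.P287.H925
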