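import Mathlib

/-!
The vector product of three vectors with four coordinates.
-/

open Matrix

namespace Vale.Agent.P287.H925

section Cross

variable {R : Type*} [CommRing R]

/-- the vector product: `x ⬝ᵥ cr u v w` is the determinant of `x, u, v, w` -/
def cr (u v w : Fin 4 → R) : Fin 4 → R :=
  ![u 1 * (v 2 * w 3 - v 3 * w 2) - u 2 * (v 1 * w 3 - v 3 * w 1) + u 3 * (v 1 * w 2 - v 2 * w 1),
    -(u 0 * (v 2 * w 3 - v 3 * w 2) - u 2 * (v 0 * w 3 - v 3 * w 0) +
      u 3 * (v 0 * w 2 - v 2 * w 0)),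
    u 0 * (v 1 * w 3 - v 3 * w 1) - u 1 * (v 0 * w 3 - v 3 * w 0) + u 3 * (v 0 * w 1 - v 1 * w 0),
    -(u 0 * (v 1 * w 2 - v 2 * w 1) - u 1 * (v 0 * w 2 - v 2 * w 0) +
      u 2 * (v 0 * w 1 - v 1 * w 0))]

lemma dot_cr (x u v w : Fin 4 → R) : x ⬝ᵥ cr u v w = (Matrix.of ![x, u, v, w]).det := by
  rw [Matrix.det_succ_row_zero]
  simp only [dotProduct, Fin.sum_univ_four, cr, Matrix.det_fin_three, Matrix.submatrix_apply,
    Matrix.of_apply]
  simp [Fin.succAbove, Fin.lt_def]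
  ring

lemma cr_prop {u v w e : Fin 4 → R} (h1 : u ⬝ᵥ e = 0) (h2 : v ⬝ᵥ e = 0) (h3 : w ⬝ᵥ e = 0)
    (l m : Fin 4) : cr u v w l * e m = cr u v w m * e l := by
  simp only [dotProduct, Fin.sum_univ_four] at h1 h2 h3
  have h01 : cr u v w 0 * e 1 = cr u v w 1 * e 0 := by
    simp only [cr, Matrix.cons_val_zero, Matrix.cons_val_one, Matrix.cons_val]
    linear_combination (v 2 * w 3 - v 3 * w 2) * h1 - (u 2 * w 3 - u 3 * w 2) * h2 +
      (u 2 * v 3 - u 3 * v 2) * h3
  have h02 : cr u v w 0 * e 2 = cr u v w 2 * e 0 := by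
    simp only [cr, Matrix.cons_val_zero, Matrix.cons_val_one, Matrix.cons_val]
    linear_combination -(v 1 * w 3 - v 3 * w 1) * h1 + (u 1 * w 3 - u 3 * w 1) * h2 -
      (u 1 * v 3 - u 3 * v 1) * h3
  have h03 : cr u v w 0 * e 3 = cr u v w 3 * e 0 := by
    simp only [cr, Matrix.cons_val_zero, Matrix.cons_val_one, Matrix.cons_val]
    linear_combination (v 1 * w 2 - v 2 * w 1) * h1 - (u 1 * w 2 - u 2 * w 1) * h2 +
      (u 1 * v 2 - u 2 * v 1) * h3
  have h12 : cr u v w 1 * e 2 = cr u v w 2 * e 1 := by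
    simp only [cr, Matrix.cons_val_zero, Matrix.cons_val_one, Matrix.cons_val]
    linear_combination (v 0 * w 3 - v 3 * w 0) * h1 - (u 0 * w 3 - u 3 * w 0) * h2 +
      (u 0 * v 3 - u 3 * v 0) * h3
  have h13 : cr u v w 1 * e 3 = cr u v w 3 * e 1 := by
    simp only [cr, Matrix.cons_val_zero, Matrix.cons_val_one, Matrix.cons_val]
    linear_combination -(v 0 * w 2 - v 2 * w 0) * h1 + (u 0 * w 2 - u 2 * w 0) * h2 -
      (u 0 * v 2 - u 2 * v 0) * h3
  have h23 : cr u v w 2 * e 3 = cr u v w 3 * e 2 := by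
    simp only [cr, Matrix.cons_val_zero, Matrix.cons_val_one, Matrix.cons_val]
    linear_combination (v 0 * w 1 - v 1 * w 0) * h1 - (u 0 * w 1 - u 1 * w 0) * h2 +
      (u 0 * v 1 - u 1 * v 0) * h3
  fin_cases l <;> fin_cases m
  · rfl
  · exact h01
  · exact h02
  · exact h03
  · exact h01.symm
  · rfl
  · exact h12
  · exact h13
  · exact h02.symm
  · exact h12.symm
  · rfl
  · exact h23
  · exact h03.symm
  · exact h13.symm
  · exact h23.symm
  · rfl

lemma cr_cramer (x u v w : Fin 4 → R) (l m : Fin 4) :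
    cr u v w l * x m - cr x v w l * u m + cr x u w l * v m - cr x u v l * w m =
      if l = m then x ⬝ᵥ cr u v w else 0 := by
  simp only [dotProduct, Fin.sum_univ_four]
  fin_cases l <;> fin_cases m <;>
    simp [cr] <;> ring

lemma cr_plucker (a b i j k : Fin 4 → R) (l : Fin 4) :
    cr b j k l * cr a i k l - cr b i k l * cr a j k l = cr i j k l * cr a b k l ∧
    cr b j k l * cr a i j l - cr b i j l * cr a j k l = cr i j k l * cr a b j l ∧
    cr b i k l * cr a i j l - cr b i j l * cr a i k l = cr i j k l * cr a b i l := by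
  fin_cases l <;> refine ⟨?_, ?_, ?_⟩ <;>
    simp only [cr, Matrix.cons_val_zero, Matrix.cons_val_one, Matrix.cons_val, Fin.zero_eta,
      Fin.mk_one, Fin.reduceFinMk] <;> ring

/-- if all the `2 × 2` minors are divisible by `g`, then the `3 × 3` minors are divisible by
`g ^ 2` -/
lemma sq_dvd_det [IsDomain R] {g : R} (hg : Prime g) (A : Matrix (Fin 3) (Fin 3) R)
    (h : ∀ i j, g ∣ A.adjugate i j) : g ^ 2 ∣ A.det := by
  choose B hB using h
  have h1 : A.adjugate = g • Matrix.of B := by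
    ext i j
    rw [hB i j]
    rfl
  have h2 : A.det ^ 2 = g ^ 3 * (Matrix.of B).det := by
    have h3 := Matrix.det_adjugate A
    rw [h1, Matrix.det_smul] at h3
    simpa using h3.symm
  obtain ⟨d, hd⟩ : g ∣ A.det := by
    apply hg.dvd_of_dvd_pow (n := 2)
    rw [h2, pow_succ, mul_assoc]
    exact dvd_mul_of_dvd_right (dvd_mul_right _ _) _
  have h3 : g ∣ d := by
    apply hg.dvd_of_dvd_pow (n := 2)
    refine ⟨(Matrix.of B).det, ?_⟩
    apply mul_left_cancel₀ (pow_ne_zero 2 hg.ne_zero)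
    rw [hd] at h2
    linear_combination h2
  obtain ⟨d', hd'⟩ := h3
  exact ⟨d', by rw [hd, hd']; ring⟩

end Cross

end Vale.Agent.P287.H925
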