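import Vale.Agent.P287.H925.RankTwo

/-!
Five forms through the scroll, independent over the constants, have rank four, if the quadric has
no rational point.
-/

open MvPolynomial Matrix

namespace Vale.Agent.P287.H925

variable {k : Type*} [Field k] {κ : Type*} [Field κ] {φ : MvPolynomial (Fin 3) k →+* κ}
  {W : Submodule κ (Fin 4 → κ)} {g : MvPolynomial (Fin 3) k} {r : ℕ}

lemma one_false (f : Fin 5 → Fin 4 → MvPolynomial (Fin 3) k)
    (hind : ∀ c : Fin 5 → k, (∀ i, ∑ j, C (c j) * f j i = 0) → c = 0)
    (c : Fin 5 → k) (e : Fin 4 → MvPolynomial (Fin 3) k) (h : ∀ a x, f a x = C (c a) * e x) :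
    False := by
  have h1 := hind ![c 1, -c 0, 0, 0, 0] (by
    intro i
    rw [Fin.sum_univ_five]
    simp only [Matrix.cons_val_zero, Matrix.cons_val_one, Matrix.cons_val, h, map_neg, map_zero]
    ring)
  have h2 : c 1 = 0 := congrFun h1 0
  have h3 := hind ![0, 1, 0, 0, 0] (by
    intro i
    rw [Fin.sum_univ_five]
    simp only [Matrix.cons_val_zero, Matrix.cons_val_one, Matrix.cons_val, h, h2, map_zero]
    ring)
  exact one_ne_zero (congrFun h3 1)

theorem rank_one (hg : Irreducible g) (hφ : ∀ p, φ p = 0 ↔ g ∣ p)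
    (hgr : g.IsHomogeneous (2 * r)) (hr : 1 ≤ r)
    (hΦ : ∀ f, ScrollForm φ W (r - 1) f → f = 0)
    (f : Fin 5 → Fin 4 → MvPolynomial (Fin 3) k) (hf : ∀ j, ScrollForm φ W r (f j))
    (hind : ∀ c : Fin 5 → k, (∀ i, ∑ j, C (c j) * f j i = 0) → c = 0)
    (hw : ∀ a b x y, f a x * f b y = f a y * f b x)
    (i : Fin 5) (hne : f i ≠ 0) : False := by
  have hg0 := hg.ne_zero
  obtain ⟨τ, e, hτ, hτe, hprim⟩ := exists_prim _ hne
  obtain ⟨x0, hx0⟩ := hprim.ne_zero
  have hfac : ∀ a, ∃ q, ∀ x, f a x = q * e x := by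
    intro a
    refine hprim.factor _ fun x y => ?_
    have h1 := hw a i x y
    rw [hτe, hτe] at h1
    apply mul_left_cancel₀ hτ
    linear_combination h1
  choose P hP using hfac
  have hPτ : P i = τ := by
    have h1 := hP i x0
    rw [hτe x0] at h1
    exact (mul_right_cancel₀ hx0 h1).symm
  obtain ⟨a, E, haE, hτh, heh, hev⟩ := prim_hom (fun x => 1 - wt x) (r + 1) _ e τ hτ hτe
    (fun x => by
      have h1 := (hf i).hom x
      have h2 := wt_le' x
      have h3 : r + 1 - (1 - wt x) = r + wt x := by omega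
      rwa [h3])
    (fun x => by omega) x0 hx0
  have hPh : ∀ b, (P b).IsHomogeneous a := by
    intro b
    have h1 := (hf b).hom x0
    rw [hP b x0, mul_comm] at h1
    refine hom_quot (heh x0) hx0 ?_
    have h3 := hev x0 hx0
    have h5 := wt_le' x0
    have h4 : E - (1 - wt x0) + a = r + wt x0 := by omega
    rwa [h4]
  by_cases hcase : ∀ b, g ∣ P b
  · choose P' hP' using hcase
    have hne' : P' i ≠ 0 := by
      intro h1
      apply hτ
      rw [← hPτ, hP' i, h1, mul_zero]
    have had' : 2 * r ≤ a := by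
      have h1 := hPh i
      rw [hP' i] at h1
      obtain ⟨m, n, hm, hn, hmn⟩ := homog_factor h1 (mul_ne_zero hg0 hne')
      have h2 := hm.inj_right hgr hg0
      omega
    have hP'h : ∀ b, (P' b).IsHomogeneous 0 := by
      intro b
      refine hom_quot hgr hg0 ?_
      rw [← hP' b]
      have h1 : 2 * r + 0 = a := by omega
      rw [h1]
      exact hPh b
    choose c hc using fun b => const_of_hom (hP'h b)
    refine one_false f hind c (fun x => g * e x) fun b x => ?_
    rw [hP b x, hP' b, hc b]
    ring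
  · push Not at hcase
    obtain ⟨b, hb⟩ := hcase
    rcases Nat.eq_zero_or_pos a with ha | ha
    · subst ha
      choose c hc using fun b => const_of_hom (hPh b)
      refine one_false f hind c e fun b x => ?_
      rw [hP b x, hc b]
    · have h1 : (fun x => X 0 ^ (a - 1) * e x) = 0 := by
        apply hΦ
        refine ⟨fun x => ?_, fun w hw' => ?_⟩
        · by_cases hx : e x = 0
          · rw [hx, mul_zero]
            exact isHomogeneous_zero _ _ _
          · have h2 := ((isHomogeneous_X k (0 : Fin 3)).pow (a - 1)).mul (heh x)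
            have h3 := hev x hx
            have h5 := wt_le' x
            have h4 : 1 * (a - 1) + (E - (1 - wt x)) = r - 1 + wt x := by omega
            rwa [h4] at h2
        · have h2 := (hf b).van w hw'
          have h3 : φ (P b) * ∑ x, φ (e x) * w x = 0 := by
            rw [← h2, Finset.mul_sum]
            refine Finset.sum_congr rfl fun x _ => ?_
            rw [hP b x, map_mul]
            ring
          have h4 : φ (P b) ≠ 0 := by rwa [Ne, hφ]
          have h5 := (mul_eq_zero.1 h3).resolve_left h4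
          calc ∑ x, φ (X 0 ^ (a - 1) * e x) * w x = φ (X 0 ^ (a - 1)) * ∑ x, φ (e x) * w x := by
                rw [Finset.mul_sum]
                exact Finset.sum_congr rfl fun x _ => by rw [map_mul]; ring
            _ = 0 := by rw [h5, mul_zero]
      have h2 := congrFun h1 x0
      simp only [Pi.zero_apply] at h2
      exact hx0 ((mul_eq_zero.1 h2).resolve_left (pow_ne_zero _ (X_ne_zero _)))

lemma exists_avoid (a b i j : Fin 5) : ∃ m : Fin 5, m ≠ a ∧ m ≠ b ∧ m ≠ i ∧ m ≠ j := by
  revert a b i j
  decide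

lemma det_rows {R : Type*} [CommRing R] [IsDomain R] (f : Fin 5 → Fin 4 → R)
    (hall : ∀ m : Fin 5, ((Matrix.of f).submatrix m.succAbove id).det = 0) (a b i j : Fin 5) :
    f a ⬝ᵥ cr (f b) (f i) (f j) = 0 := by
  obtain ⟨m, hma, hmb, hmi, hmj⟩ := exists_avoid a b i j
  obtain ⟨a', rfl⟩ := Fin.exists_succAbove_eq hma.symm
  obtain ⟨b', rfl⟩ := Fin.exists_succAbove_eq hmb.symm
  obtain ⟨i', rfl⟩ := Fin.exists_succAbove_eq hmi.symm
  obtain ⟨j', rfl⟩ := Fin.exists_succAbove_eq hmj.symm
  rw [dot_cr]
  obtain ⟨v, hv, hv0⟩ := Matrix.exists_mulVec_eq_zero_iff.2 (hall m)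
  refine Matrix.exists_mulVec_eq_zero_iff.1 ⟨v, hv, ?_⟩
  have h1 : ∀ x : Fin 4, f (m.succAbove x) ⬝ᵥ v = 0 := fun x => congrFun hv0 x
  funext x
  fin_cases x
  · exact h1 a'
  · exact h1 b'
  · exact h1 i'
  · exact h1 j'

/-- five independent forms through the scroll have rank four -/
theorem exists_minor [IsAlgClosed k] (h2 : (2 : k) ≠ 0) (hg : Irreducible g)
    (hφ : ∀ p, φ p = 0 ↔ g ∣ p)
    (hgr : g.IsHomogeneous (2 * r)) (hr : 1 ≤ r) (hW : Module.finrank κ W = 2)
    (M : Matrix (Fin 4) (Fin 4) (MvPolynomial (Fin 3) k)) (hM : M.IsSymm)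
    (hdeg : ∀ i j, (M i j).IsHomogeneous (1 + wt i + wt j))
    (hiso : ∀ w ∈ W, ∀ w' ∈ W, w ⬝ᵥ (M.map φ *ᵥ w') = 0)
    (haniso : ∀ v : Fin 4 → MvPolynomial (Fin 3) k, v ⬝ᵥ (M *ᵥ v) = 0 → v = 0)
    (hΦ : ∀ f, ScrollForm φ W (r - 1) f → f = 0)
    (f : Fin 5 → Fin 4 → MvPolynomial (Fin 3) k) (hf : ∀ j, ScrollForm φ W r (f j))
    (hind : ∀ c : Fin 5 → k, (∀ i, ∑ j, C (c j) * f j i = 0) → c = 0) :
    ∃ j : Fin 5, ((Matrix.of f).submatrix j.succAbove id).det ≠ 0 := by
  by_contra hall
  push Not at hall
  have hdet := det_rows f hall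
  by_cases h3 : ∀ a b c l, cr (f a) (f b) (f c) l = 0
  · by_cases h4 : ∀ a b x y, sd (f a) (f b) x y = 0
    · have h5 : ∀ a b x y, f a x * f b y = f a y * f b x := by
        intro a b
        have e23 : f a 2 * f b 3 - f a 3 * f b 2 = 0 := h4 a b 0 1
        have e13 : -(f a 1 * f b 3 - f a 3 * f b 1) = 0 := h4 a b 0 2
        have e12 : f a 1 * f b 2 - f a 2 * f b 1 = 0 := h4 a b 0 3
        have e03 : f a 0 * f b 3 - f a 3 * f b 0 = 0 := h4 a b 1 2
        have e02 : -(f a 0 * f b 2 - f a 2 * f b 0) = 0 := h4 a b 1 3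
        have e01 : f a 0 * f b 1 - f a 1 * f b 0 = 0 := h4 a b 2 3
        intro x y
        fin_cases x <;> fin_cases y
        · rfl
        · change f a 0 * f b 1 = f a 1 * f b 0
          linear_combination e01
        · change f a 0 * f b 2 = f a 2 * f b 0
          linear_combination -e02
        · change f a 0 * f b 3 = f a 3 * f b 0
          linear_combination e03
        · change f a 1 * f b 0 = f a 0 * f b 1
          linear_combination -e01
        · rfl
        · change f a 1 * f b 2 = f a 2 * f b 1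
          linear_combination e12
        · change f a 1 * f b 3 = f a 3 * f b 1
          linear_combination -e13
        · change f a 2 * f b 0 = f a 0 * f b 2
          linear_combination e02
        · change f a 2 * f b 1 = f a 1 * f b 2
          linear_combination -e12
        · rfl
        · change f a 2 * f b 3 = f a 3 * f b 2
          linear_combination e23
        · change f a 3 * f b 0 = f a 0 * f b 3
          linear_combination -e03
        · change f a 3 * f b 1 = f a 1 * f b 3
          linear_combination e13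
        · change f a 3 * f b 2 = f a 2 * f b 3
          linear_combination -e23
        · rfl
      refine rank_one hg hφ hgr hr hΦ f hf hind h5 0 ?_
      intro h6
      have h7 := hind ![1, 0, 0, 0, 0] (by
        intro i
        rw [Fin.sum_univ_five, h6]
        simp)
      exact one_ne_zero (congrFun h7 0)
    · push Not at h4
      obtain ⟨a, b, x, y, h4⟩ := h4
      exact rank_two h2 hg hφ hgr hr hW M hM hdeg hiso haniso hΦ f hf hind h3 a b
        (fun h => h4 (congrFun h (x, y)))
  · push Not at h3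
    obtain ⟨a, b, c, l, h3⟩ := h3
    exact rank_three hg hφ hgr hr hW M hdeg (fun w hw => hiso w hw w hw) haniso hΦ f hf hind hdet
      a b c (fun h => h3 (congrFun h l))

end Vale.Agent.P287.H925
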