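import Vale.Agent.P287.H925.RankCross

/-!
Dual Plücker coordinates of two vectors with four coordinates, and Gram determinants.
-/

open Matrix

namespace Vale.Agent.P287.H925

section Plane

variable {R : Type*} [CommRing R]

/-- the dual Plücker coordinates of the plane spanned by `u` and `v` -/
def sd (u v : Fin 4 → R) : Fin 4 → Fin 4 → R :=
  ![![0, u 2 * v 3 - u 3 * v 2, -(u 1 * v 3 - u 3 * v 1), u 1 * v 2 - u 2 * v 1],
    ![-(u 2 * v 3 - u 3 * v 2), 0, u 0 * v 3 - u 3 * v 0, -(u 0 * v 2 - u 2 * v 0)],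
    ![u 1 * v 3 - u 3 * v 1, -(u 0 * v 3 - u 3 * v 0), 0, u 0 * v 1 - u 1 * v 0],
    ![-(u 1 * v 2 - u 2 * v 1), u 0 * v 2 - u 2 * v 0, -(u 0 * v 1 - u 1 * v 0), 0]]

lemma sd_self (u : Fin 4 → R) (x y : Fin 4) : sd u u x y = 0 := by
  fin_cases x <;> fin_cases y <;>
    simp only [sd, Matrix.cons_val_zero, Matrix.cons_val_one, Matrix.cons_val, Fin.zero_eta,
      Fin.mk_one, Fin.reduceFinMk] <;> ring

lemma sd_plucker (u v : Fin 4 → R) (x y z t : Fin 4) :
    sd u v x z * sd u v y t - sd u v x t * sd u v y z = sd u v x y * sd u v z t := by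
  fin_cases x <;> fin_cases y <;> fin_cases z <;> fin_cases t <;>
    simp only [sd, Matrix.cons_val_zero, Matrix.cons_val_one, Matrix.cons_val, Fin.zero_eta,
      Fin.mk_one, Fin.reduceFinMk] <;> ring

lemma sd_four (a b i j : Fin 4 → R) (x y : Fin 4) :
    sd b j x y * sd a i x y - sd b i x y * sd a j x y = sd i j x y * sd a b x y := by
  fin_cases x <;> fin_cases y <;>
    simp only [sd, Matrix.cons_val_zero, Matrix.cons_val_one, Matrix.cons_val, Fin.zero_eta,
      Fin.mk_one, Fin.reduceFinMk] <;> ring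

lemma sd_cramer (u v w : Fin 4 → R) (x y z : Fin 4) :
    sd v w x y * u z - sd u w x y * v z + sd u v x y * w z =
      (if z = y then cr u v w x else 0) - (if z = x then cr u v w y else 0) := by
  fin_cases x <;> fin_cases y <;> fin_cases z <;> simp [sd, cr] <;> ring

lemma sd_ker (x u v : Fin 4 → R) (m : Fin 4) : ∑ l, x l * sd u v m l = cr x u v m := by
  rw [Fin.sum_univ_four]
  fin_cases m <;>
    simp only [sd, cr, Matrix.cons_val_zero, Matrix.cons_val_one, Matrix.cons_val, Fin.zero_eta,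
      Fin.mk_one, Fin.reduceFinMk] <;> ring

lemma sd_cases {u v : Fin 4 → R} (p : R → Prop) (h0 : p 0) (hneg : ∀ a, p a → p (-a))
    (h : ∀ x y, x ≠ y → p (u x * v y - u y * v x)) (x y : Fin 4) : p (sd u v x y) := by
  fin_cases x <;> fin_cases y <;>
    simp only [sd, Matrix.cons_val_zero, Matrix.cons_val_one, Matrix.cons_val, Fin.zero_eta,
      Fin.mk_one, Fin.reduceFinMk]
  · exact h0
  · exact h 2 3 (by decide)
  · exact hneg _ (h 1 3 (by decide))
  · exact h 1 2 (by decide)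
  · exact hneg _ (h 2 3 (by decide))
  · exact h0
  · exact h 0 3 (by decide)
  · exact hneg _ (h 0 2 (by decide))
  · exact h 1 3 (by decide)
  · exact hneg _ (h 0 3 (by decide))
  · exact h0
  · exact h 0 1 (by decide)
  · exact hneg _ (h 1 2 (by decide))
  · exact h 0 2 (by decide)
  · exact hneg _ (h 0 1 (by decide))
  · exact h0

lemma sd_lin {u v a b : Fin 4 → R} {δ α β α' β' : R} (ha : ∀ z, δ * a z = α * u z + β * v z)
    (hb : ∀ z, δ * b z = α' * u z + β' * v z) (x y : Fin 4) :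
    δ ^ 2 * sd a b x y = (α * β' - α' * β) * sd u v x y := by
  have key : ∀ m n, δ ^ 2 * (a m * b n - a n * b m) =
      (α * β' - α' * β) * (u m * v n - u n * v m) := by
    intro m n
    have h1 : δ ^ 2 * (a m * b n - a n * b m) = (δ * a m) * (δ * b n) - (δ * a n) * (δ * b m) := by
      ring
    rw [h1, ha, hb, ha, hb]
    ring
  fin_cases x <;> fin_cases y <;>
    simp only [sd, Matrix.cons_val_zero, Matrix.cons_val_one, Matrix.cons_val, Fin.zero_eta,
      Fin.mk_one, Fin.reduceFinMk]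
  · ring
  · exact key 2 3
  · linear_combination -key 1 3
  · exact key 1 2
  · linear_combination -key 2 3
  · ring
  · exact key 0 3
  · linear_combination -key 0 2
  · exact key 1 3
  · linear_combination -key 0 3
  · ring
  · exact key 0 1
  · linear_combination -key 1 2
  · exact key 0 2
  · linear_combination -key 0 1
  · ring

/-- twice the Gram determinant of a bivector -/
def gram (M : Matrix (Fin 4) (Fin 4) R) (p : Fin 4 → Fin 4 → R) : R :=
  ∑ x, ∑ y, ∑ z, ∑ t, (p x y * p z t) * (M x z * M y t)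

lemma gram_wedge (M : Matrix (Fin 4) (Fin 4) R) (u v : Fin 4 → R) :
    gram M (fun x y => u x * v y - u y * v x) =
      2 * ((u ⬝ᵥ (M *ᵥ u)) * (v ⬝ᵥ (M *ᵥ v)) - (u ⬝ᵥ (M *ᵥ v)) * (v ⬝ᵥ (M *ᵥ u))) := by
  have h : ∀ a b c d : Fin 4 → R, ∑ x, ∑ y, ∑ z, ∑ t, (a x * b y * (c z * d t)) * (M x z * M y t) =
      (a ⬝ᵥ (M *ᵥ c)) * (b ⬝ᵥ (M *ᵥ d)) := by
    intro a b c d
    have h0 : ∀ a c : Fin 4 → R, a ⬝ᵥ (M *ᵥ c) = ∑ x, ∑ z, a x * (M x z * c z) := by
      intro a c
      simp only [dotProduct, mulVec, Finset.mul_sum]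
    rw [h0, h0, Finset.sum_mul]
    refine Finset.sum_congr rfl fun x _ => ?_
    rw [Finset.sum_mul, Finset.sum_comm]
    refine Finset.sum_congr rfl fun z _ => ?_
    rw [Finset.mul_sum]
    refine Finset.sum_congr rfl fun y _ => ?_
    rw [Finset.mul_sum]
    refine Finset.sum_congr rfl fun t _ => ?_
    ring
  have h1 : gram M (fun x y => u x * v y - u y * v x) =
      (u ⬝ᵥ (M *ᵥ u)) * (v ⬝ᵥ (M *ᵥ v)) - (u ⬝ᵥ (M *ᵥ v)) * (v ⬝ᵥ (M *ᵥ u)) -
      ((v ⬝ᵥ (M *ᵥ u)) * (u ⬝ᵥ (M *ᵥ v)) - (v ⬝ᵥ (M *ᵥ v)) * (u ⬝ᵥ (M *ᵥ u))) := by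
    rw [← h, ← h, ← h, ← h, gram]
    simp only [← Finset.sum_sub_distrib]
    refine Finset.sum_congr rfl fun x _ => Finset.sum_congr rfl fun z _ =>
      Finset.sum_congr rfl fun y _ => Finset.sum_congr rfl fun t _ => ?_
    ring
  rw [h1]
  ring

lemma gram_smul (M : Matrix (Fin 4) (Fin 4) R) (c : R) (p : Fin 4 → Fin 4 → R) :
    gram M (fun x y => c * p x y) = c ^ 2 * gram M p := by
  simp only [gram, Finset.mul_sum]
  refine Finset.sum_congr rfl fun x _ => Finset.sum_congr rfl fun z _ =>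
      Finset.sum_congr rfl fun y _ => Finset.sum_congr rfl fun t _ => ?_
  ring

end Plane

end Vale.Agent.P287.H925
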