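import Vale.Agent.P287.H925.Hom

/-!
Primitive vectors over a unique factorisation domain, and the factors of homogeneous polynomials.
-/

open MvPolynomial

namespace Vale.Agent.P287.H925

section Prim

variable {R ι : Type*} [CommRing R] [IsDomain R] [UniqueFactorizationMonoid R] [Fintype ι]

/-- the property of primitive vectors used below -/
def Primitive (e : ι → R) : Prop := ∀ a d : R, (∀ i, d ∣ a * e i) → d ∣ a

omit [IsDomain R] in
lemma exists_prim (t : ι → R) (ht : t ≠ 0) :
    ∃ (τ : R) (e : ι → R), τ ≠ 0 ∧ (∀ i, t i = τ * e i) ∧ Primitive e := by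
  classical
  obtain ⟨i0, hi0⟩ : ∃ i, t i ≠ 0 := by
    by_contra h
    push Not at h
    exact ht (funext h)
  let _ : StrongNormalizationMonoid R := UniqueFactorizationMonoid.strongNormalizationMonoid
  let _ : StrongNormalizedGCDMonoid R := UniqueFactorizationMonoid.toStrongNormalizedGCDMonoid R
  obtain ⟨e, he, h1⟩ := Finset.extract_gcd (s := Finset.univ) t ⟨i0, Finset.mem_univ _⟩
  refine ⟨Finset.univ.gcd t, e, ?_, fun i => he i (Finset.mem_univ _), ?_⟩
  · rw [Finset.gcd_ne_zero_iff]
    exact ⟨i0, Finset.mem_univ _, hi0⟩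
  · intro a d h
    have h2 : d ∣ Finset.univ.gcd fun i => a * e i := Finset.dvd_gcd fun i _ => h i
    have h3 := Finset.gcd_mul_left' Finset.univ e a
    rw [h1, mul_one] at h3
    exact h2.trans h3.dvd

omit [UniqueFactorizationMonoid R] [Fintype ι] in
lemma Primitive.ne_zero {e : ι → R} (he : Primitive e) : ∃ i, e i ≠ 0 := by
  by_contra h
  push Not at h
  have h1 := he 1 0 (fun i => by rw [h i, mul_zero])
  rw [zero_dvd_iff] at h1
  exact one_ne_zero h1

omit [IsDomain R] [UniqueFactorizationMonoid R] [Fintype ι] in
lemma Primitive.not_dvd {e : ι → R} (he : Primitive e) {g : R} (hg : ¬ IsUnit g) :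
    ∃ i, ¬ g ∣ e i := by
  by_contra h
  push Not at h
  have h1 := he 1 g (fun i => by rw [one_mul]; exact h i)
  exact hg (isUnit_of_dvd_one h1)

omit [UniqueFactorizationMonoid R] [Fintype ι] in
/-- a vector proportional to a primitive vector is a multiple of it -/
lemma Primitive.factor {e : ι → R} (he : Primitive e) (m : ι → R)
    (h : ∀ i j, m i * e j = m j * e i) : ∃ p : R, ∀ i, m i = p * e i := by
  obtain ⟨i0, hi0⟩ := he.ne_zero
  obtain ⟨p, hp⟩ := he (m i0) (e i0) (fun i => ⟨m i, by rw [← h i i0]; ring⟩)
  refine ⟨p, fun i => ?_⟩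
  apply mul_right_cancel₀ hi0
  rw [h i i0, hp]
  ring

end Prim

section Homog

variable {σ K : Type*} [Field K]

/-- the substitution `X i ↦ X i * T` -/
noncomputable def homT : MvPolynomial σ K →ₐ[K] Polynomial (MvPolynomial σ K) :=
  aeval fun i => Polynomial.C (X i) * Polynomial.X

lemma homT_monomial (d : σ →₀ ℕ) (a : K) :
    homT (monomial d a) = Polynomial.C (monomial d a) * Polynomial.X ^ d.degree := by
  rw [homT, aeval_monomial]
  simp only [Finsupp.prod, mul_pow, Finset.prod_mul_distrib, ← Polynomial.C_pow]
  rw [Finset.prod_pow_eq_pow_sum, ← map_prod, Finsupp.degree, monomial_eq, Polynomial.C_mul,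
    ← mul_assoc]
  rfl

lemma homT_coeff (p : MvPolynomial σ K) (n : ℕ) :
    (homT p).coeff n = homogeneousComponent n p := by
  classical
  induction p using MvPolynomial.induction_on' with
  | monomial d a =>
    rw [homT_monomial, Polynomial.coeff_C_mul, Polynomial.coeff_X_pow]
    by_cases h : d.degree = n
    · rw [if_pos h.symm, mul_one, homogeneousComponent_of_mem (isHomogeneous_monomial a h),
        if_pos rfl]
    · rw [if_neg (Ne.symm h), mul_zero,
        homogeneousComponent_of_mem (isHomogeneous_monomial a rfl), if_neg (Ne.symm h)]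
  | add p q hp hq => rw [map_add, Polynomial.coeff_add, hp, hq, map_add]

/-- the factors of a nonzero homogeneous polynomial are homogeneous -/
lemma homog_factor {a b : MvPolynomial σ K} {n : ℕ} (h : (a * b).IsHomogeneous n)
    (h0 : a * b ≠ 0) : ∃ k l, a.IsHomogeneous k ∧ b.IsHomogeneous l ∧ k + l = n := by
  classical
  have hab : homT (a * b) = Polynomial.C (a * b) * Polynomial.X ^ n := by
    ext1 j
    rw [homT_coeff, Polynomial.coeff_C_mul, Polynomial.coeff_X_pow,
      homogeneousComponent_of_mem h]
    by_cases hj : j = n <;> simp [hj]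
  have hne : ∀ p : MvPolynomial σ K, p ≠ 0 → homT p ≠ 0 := by
    intro p hp h1
    apply hp
    rw [← sum_homogeneousComponent p]
    refine Finset.sum_eq_zero fun i _ => ?_
    rw [← homT_coeff, h1, Polynomial.coeff_zero]
  have ha := hne a (left_ne_zero_of_mul h0)
  have hb := hne b (right_ne_zero_of_mul h0)
  rw [map_mul] at hab
  have h1 := congrArg Polynomial.natDegree hab
  rw [Polynomial.natDegree_mul ha hb, Polynomial.natDegree_C_mul_X_pow _ _ h0] at h1
  have h2 := congrArg Polynomial.natTrailingDegree hab
  rw [Polynomial.natTrailingDegree_mul ha hb, Polynomial.C_mul_X_pow_eq_monomial,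
    Polynomial.natTrailingDegree_monomial h0] at h2
  have h3 := Polynomial.natTrailingDegree_le_natDegree (homT a)
  have h4 := Polynomial.natTrailingDegree_le_natDegree (homT b)
  have key : ∀ p : MvPolynomial σ K, (homT p).natTrailingDegree = (homT p).natDegree →
      p.IsHomogeneous (homT p).natDegree := by
    intro p hp
    have h5 : homogeneousComponent (homT p).natDegree p = p := by
      conv_rhs => rw [← sum_homogeneousComponent p]
      by_cases h6 : (homT p).natDegree ∈ Finset.range (p.totalDegree + 1)
      · rw [Finset.sum_eq_single_of_mem _ h6]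
        intro j _ hj
        rw [← homT_coeff]
        rcases lt_or_gt_of_ne hj with h7 | h7
        · exact Polynomial.coeff_eq_zero_of_lt_natTrailingDegree (hp ▸ h7)
        · exact Polynomial.coeff_eq_zero_of_natDegree_lt h7
      · rw [homogeneousComponent_eq_zero _ _ (by simp at h6; omega)]
        symm
        refine Finset.sum_eq_zero fun j hj => ?_
        rw [← homT_coeff]
        apply Polynomial.coeff_eq_zero_of_lt_natTrailingDegree
        simp at h6 hj
        omega
    have h6 := homogeneousComponent_isHomogeneous (homT p).natDegree p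
    rwa [h5] at h6
  exact ⟨_, _, key a (by omega), key b (by omega), h1⟩

end Homog

end Vale.Agent.P287.H925
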