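import Vale.Agent.P287.H925.RankCore
import Vale.Agent.P287.H925.RankCross
import Vale.Agent.P287.H925.Lin

/-!
Five forms through the scroll, independent over the constants, do not have rank three.
-/

open MvPolynomial Matrix

namespace Vale.Agent.P287.H925

variable {k : Type*} [Field k] {κ : Type*} [Field κ] {φ : MvPolynomial (Fin 3) k →+* κ}
  {W : Submodule κ (Fin 4 → κ)} {g : MvPolynomial (Fin 3) k} {r : ℕ}

lemma exists_two (i j l : Fin 5) (h1 : i ≠ j) (h2 : i ≠ l) (h3 : j ≠ l) :
    ∃ a b : Fin 5, a ≠ b ∧ a ≠ i ∧ a ≠ j ∧ a ≠ l ∧ b ≠ i ∧ b ≠ j ∧ b ≠ l := by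
  revert i j l
  decide

lemma cr_zero_left {R : Type*} [CommRing R] (u v : Fin 4 → R) (l : Fin 4) : cr u u v l = 0 := by
  fin_cases l <;> simp only [cr, Matrix.cons_val_zero, Matrix.cons_val_one, Matrix.cons_val,
    Fin.zero_eta, Fin.mk_one, Fin.reduceFinMk] <;> ring

lemma cr_zero_right {R : Type*} [CommRing R] (u v : Fin 4 → R) (l : Fin 4) : cr u v v l = 0 := by
  fin_cases l <;> simp only [cr, Matrix.cons_val_zero, Matrix.cons_val_one, Matrix.cons_val,
    Fin.zero_eta, Fin.mk_one, Fin.reduceFinMk] <;> ring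

lemma cr_zero_mid {R : Type*} [CommRing R] (u v : Fin 4 → R) (l : Fin 4) : cr u v u l = 0 := by
  fin_cases l <;> simp only [cr, Matrix.cons_val_zero, Matrix.cons_val_one, Matrix.cons_val,
    Fin.zero_eta, Fin.mk_one, Fin.reduceFinMk] <;> ring

theorem three_false (hφ : ∀ p, φ p = 0 ↔ g ∣ p) (hg0 : g ≠ 0)
    (hgr : g.IsHomogeneous (2 * r)) (hr : 1 ≤ r)
    (hΦ : ∀ f, ScrollForm φ W (r - 1) f → f = 0)
    (f : Fin 5 → Fin 4 → MvPolynomial (Fin 3) k) (hf : ∀ j, ScrollForm φ W r (f j))
    (hind : ∀ c : Fin 5 → k, (∀ i, ∑ j, C (c j) * f j i = 0) → c = 0)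
    (hdet : ∀ a b i j : Fin 5, f a ⬝ᵥ cr (f b) (f i) (f j) = 0)
    (P : Fin 5 → Fin 5 → Fin 5 → MvPolynomial (Fin 3) k) (e : Fin 4 → MvPolynomial (Fin 3) k)
    (l0 : Fin 4) (he : e l0 ≠ 0)
    (hP : ∀ a b c l, cr (f a) (f b) (f c) l = P a b c * e l) (δ : ℕ) (hδ : δ ≤ 1)
    (hPh : ∀ a b c, (P a b c).IsHomogeneous δ)
    (i j l : Fin 5) (hne : P i j l ≠ 0) : False := by
  have h1 : ∀ a b c, cr (f a) (f b) (f c) l0 = 0 → P a b c = 0 := by
    intro a b c h
    rw [hP] at h
    exact (mul_eq_zero.1 h).resolve_right he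
  have hij : i ≠ j := by
    rintro rfl
    exact hne (h1 _ _ _ (cr_zero_left _ _ _))
  have hil : i ≠ l := by
    rintro rfl
    exact hne (h1 _ _ _ (cr_zero_mid _ _ _))
  have hjl : j ≠ l := by
    rintro rfl
    exact hne (h1 _ _ _ (cr_zero_right _ _ _))
  obtain ⟨a, b, hab, hai, haj, hal, hbi, hbj, hbl⟩ := exists_two i j l hij hil hjl
  have hinj : Function.Injective (![a, b, i, j, l] : Fin 5 → Fin 5) := by
    intro x y hxy
    fin_cases x <;> fin_cases y <;> simp_all
  let σ : Fin 5 ≃ Fin 5 := Equiv.ofBijective _ (Finite.injective_iff_bijective.1 hinj)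
  have hcram : ∀ x m, P i j l * f x m = P x j l * f i m - P x i l * f j m + P x i j * f l m := by
    intro x m
    have h2 := cr_cramer (f x) (f i) (f j) (f l) l0 m
    rw [hdet, ite_self, hP, hP, hP, hP] at h2
    apply mul_left_cancel₀ he
    linear_combination h2
  have hpl := cr_plucker (f a) (f b) (f i) (f j) (f l) l0
  simp only [hP] at hpl
  have hpl1 : P b j l * P a i l - P b i l * P a j l = P i j l * P a b l := by
    apply mul_left_cancel₀ (pow_ne_zero 2 he)
    linear_combination hpl.1
  have hpl2 : P b j l * P a i j - P b i j * P a j l = P i j l * P a b j := by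
    apply mul_left_cancel₀ (pow_ne_zero 2 he)
    linear_combination hpl.2.1
  have hpl3 : P b i l * P a i j - P b i j * P a i l = P i j l * P a b i := by
    apply mul_left_cancel₀ (pow_ne_zero 2 he)
    linear_combination hpl.2.2
  refine core_false hφ hg0 hgr hr hΦ (f a) (f b) (![f i, f j, f l]) ?_ ?_ (P i j l)
    (![P b j l, -P b i l, P b i j]) (![P a j l, -P a i l, P a i j]) δ hδ (hPh _ _ _) hne
    ?_ ?_ ?_ ?_ ?_
  · intro m
    fin_cases m
    · exact hf i
    · exact hf j
    · exact hf l
  · intro s t c hc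
    have h2 := hind (fun m => (![s, t, c 0, c 1, c 2] : Fin 5 → k) (σ.symm m)) (by
      intro m
      rw [← Equiv.sum_comp σ]
      have h3 := hc m
      rw [Fin.sum_univ_three] at h3
      rw [Fin.sum_univ_five]
      simp only [Equiv.symm_apply_apply]
      rw [← h3]
      change C s * f a m + C t * f b m + C (c 0) * f i m + C (c 1) * f j m + C (c 2) * f l m =
        C s * f a m + C t * f b m + (C (c 0) * f i m + C (c 1) * f j m + C (c 2) * f l m)
      ring)
    have h3 : ∀ m, (![s, t, c 0, c 1, c 2] : Fin 5 → k) m = 0 := by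
      intro m
      have h4 := congrFun h2 (σ m)
      simpa using h4
    refine ⟨h3 0, h3 1, ?_⟩
    funext m
    fin_cases m
    · exact h3 2
    · exact h3 3
    · exact h3 4
  · intro m
    fin_cases m
    · exact hPh _ _ _
    · exact (hPh _ _ _).neg
    · exact hPh _ _ _
  · intro m
    fin_cases m
    · exact hPh _ _ _
    · exact (hPh _ _ _).neg
    · exact hPh _ _ _
  · intro m
    rw [hcram b m, Fin.sum_univ_three]
    change _ = P b j l * f i m + -P b i l * f j m + P b i j * f l m
    ring
  · intro m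
    rw [hcram a m, Fin.sum_univ_three]
    change _ = P a j l * f i m + -P a i l * f j m + P a i j * f l m
    ring
  · intro x y
    fin_cases x <;> fin_cases y
    · simp
    · exact ⟨-P a b l, by
        change P b j l * -P a i l - -P b i l * P a j l = _
        linear_combination -hpl1⟩
    · exact ⟨P a b j, by
        change P b j l * P a i j - P b i j * P a j l = _
        linear_combination hpl2⟩
    · exact ⟨P a b l, by
        change -P b i l * P a j l - P b j l * -P a i l = _
        linear_combination hpl1⟩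
    · simp
    · exact ⟨-P a b i, by
        change -P b i l * P a i j - P b i j * -P a i l = _
        linear_combination -hpl3⟩
    · exact ⟨-P a b j, by
        change P b i j * P a j l - P b j l * P a i j = _
        linear_combination -hpl2⟩
    · exact ⟨P a b i, by
        change P b i j * -P a i l - -P b i l * P a i j = _
        linear_combination hpl3⟩
    · simp

end Vale.Agent.P287.H925
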