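import Vale.Agent.P287.H925.RankThree

/-!
Five forms through the scroll, independent over the constants, do not have rank three.
-/

open MvPolynomial Matrix

namespace Vale.Agent.P287.H925

section Lin

variable {κ : Type*} [Field κ]

/-- a plane contained in the kernel of two independent linear forms is this kernel -/
lemma mem_of_ker (W : Submodule κ (Fin 4 → κ)) (hW : Module.finrank κ W = 2) (f h : Fin 4 → κ)
    (hf : ∀ w ∈ W, ∑ i, f i * w i = 0) (hh : ∀ w ∈ W, ∑ i, h i * w i = 0) (x y : Fin 4)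
    (hxy : f x * h y - f y * h x ≠ 0) (v : Fin 4 → κ) (hfv : ∑ i, f i * v i = 0)
    (hhv : ∑ i, h i * v i = 0) : v ∈ W := by
  have hne : x ≠ y := by
    rintro rfl
    exact hxy (by ring)
  let A : Matrix (Fin 2) (Fin 4) κ := Matrix.of ![f, h]
  have hsurj : Function.Surjective A.mulVecLin := by
    intro t
    have hD : f x * h y - f y * h x ≠ 0 := hxy
    refine ⟨Pi.single x ((t 0 * h y - t 1 * f y) / (f x * h y - f y * h x)) +
      Pi.single y ((f x * t 1 - h x * t 0) / (f x * h y - f y * h x)), ?_⟩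
    have key : ∀ u : Fin 4 → κ, ∑ i, u i * (Pi.single x ((t 0 * h y - t 1 * f y) /
        (f x * h y - f y * h x)) + Pi.single y ((f x * t 1 - h x * t 0) /
        (f x * h y - f y * h x)) : Fin 4 → κ) i =
        (u x * (t 0 * h y - t 1 * f y) + u y * (f x * t 1 - h x * t 0)) /
        (f x * h y - f y * h x) := by
      intro u
      simp only [Pi.add_apply, mul_add, Finset.sum_add_distrib, Pi.single_apply, mul_ite,
        mul_zero, Finset.sum_ite_eq', Finset.mem_univ, if_true]
      rw [add_div, mul_div_assoc, mul_div_assoc]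
    funext i
    rw [Matrix.mulVecLin_apply]
    fin_cases i
    · change ∑ i, f i * _ = t 0
      rw [key, div_eq_iff hD]
      ring
    · change ∑ i, h i * _ = t 1
      rw [key, div_eq_iff hD]
      ring
  have hker : Module.finrank κ (LinearMap.ker A.mulVecLin) = 2 := by
    have h1 := A.mulVecLin.finrank_range_add_finrank_ker
    rw [LinearMap.range_eq_top.2 hsurj, finrank_top] at h1
    simp at h1
    omega
  have hmem : ∀ u : Fin 4 → κ, ∑ i, f i * u i = 0 → ∑ i, h i * u i = 0 →
      u ∈ LinearMap.ker A.mulVecLin := by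
    intro u h1 h2
    rw [LinearMap.mem_ker, Matrix.mulVecLin_apply]
    funext i
    fin_cases i
    · exact h1
    · exact h2
  have hle : W ≤ LinearMap.ker A.mulVecLin := fun w hw => hmem w (hf w hw) (hh w hw)
  rw [Submodule.eq_of_le_of_finrank_eq hle (by rw [hW, hker])]
  exact hmem v hfv hhv

end Lin

lemma wt_le' (i : Fin 4) : wt i ≤ 1 := by
  fin_cases i <;> simp [wt]

lemma cr_eq_det {R : Type*} [CommRing R] (u v w : Fin 4 → R) (l : Fin 4) :
    cr u v w l = (-1) ^ (l : ℕ) *
      ((Matrix.of ![u, v, w]).submatrix (id : Fin 3 → Fin 3) l.succAbove).det := by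
  fin_cases l <;>
  · rw [Matrix.det_fin_three]
    simp [cr, Fin.succAbove, Fin.lt_def]
    ring

lemma cr_hom {k : Type*} [Field k] {u v w : Fin 4 → MvPolynomial (Fin 3) k} {r : ℕ}
    (hu : ∀ i, (u i).IsHomogeneous (r + wt i)) (hv : ∀ i, (v i).IsHomogeneous (r + wt i))
    (hw : ∀ i, (w i).IsHomogeneous (r + wt i)) (l : Fin 4) :
    (cr u v w l).IsHomogeneous (3 * r + 1 - wt l) := by
  have h1 := det_hom ((Matrix.of ![u, v, w]).submatrix (id : Fin 3 → Fin 3) l.succAbove)
    (fun i => r + wt (l.succAbove i)) (by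
      intro m i
      fin_cases m
      · exact hu _
      · exact hv _
      · exact hw _)
  have h2 : ∑ i, (r + wt (l.succAbove i)) = 3 * r + 1 - wt l := by
    rw [Fin.sum_univ_three]
    fin_cases l <;> simp [wt, Fin.succAbove, Fin.lt_def] <;> omega
  rw [h2] at h1
  rw [cr_eq_det]
  rcases neg_one_pow_eq_or (MvPolynomial (Fin 3) k) (l : ℕ) with h3 | h3 <;> rw [h3]
  · simpa using h1
  · simpa using h1.neg

variable {k : Type*} [Field k] {κ : Type*} [Field κ] {φ : MvPolynomial (Fin 3) k →+* κ}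
  {W : Submodule κ (Fin 4 → κ)} {g : MvPolynomial (Fin 3) k} {r : ℕ}

/-- the primitive vector of degree `E`: homogeneity -/
lemma prim_hom {ι : Type*} (v : ι → ℕ) (D : ℕ) (t e : ι → MvPolynomial (Fin 3) k)
    (τ : MvPolynomial (Fin 3) k) (hτ : τ ≠ 0) (ht : ∀ l, t l = τ * e l)
    (hthom : ∀ l, (t l).IsHomogeneous (D - v l)) (hv : ∀ l, v l ≤ D) (l0 : ι)
    (hl0 : e l0 ≠ 0) : ∃ a E : ℕ, a + E = D ∧ τ.IsHomogeneous a ∧
      (∀ l, (e l).IsHomogeneous (E - v l)) ∧ ∀ l, e l ≠ 0 → v l ≤ E := by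
  have h1 : ∀ l, e l ≠ 0 → ∃ a b, τ.IsHomogeneous a ∧ (e l).IsHomogeneous b ∧
      a + b = D - v l := by
    intro l hl
    have h2 := hthom l
    rw [ht l] at h2
    exact homog_factor h2 (mul_ne_zero hτ hl)
  obtain ⟨a, b, ha, hb, hab⟩ := h1 l0 hl0
  have h3 := hv l0
  refine ⟨a, D - a, by omega, ha, fun l => ?_, fun l hl => ?_⟩
  · by_cases hl : e l = 0
    · rw [hl]
      exact isHomogeneous_zero _ _ _
    · obtain ⟨a', b', ha', hb', hab'⟩ := h1 l hl
      have h4 := ha.inj_right ha' hτ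
      have h5 := hv l
      have h6 : D - a - v l = b' := by omega
      rw [h6]
      exact hb'
  · obtain ⟨a', b', ha', hb', hab'⟩ := h1 l hl
    have h4 := ha.inj_right ha' hτ
    have h5 := hv l
    omega

theorem rank_three (hg : Irreducible g) (hφ : ∀ p, φ p = 0 ↔ g ∣ p)
    (hgr : g.IsHomogeneous (2 * r)) (hr : 1 ≤ r) (hW : Module.finrank κ W = 2)
    (M : Matrix (Fin 4) (Fin 4) (MvPolynomial (Fin 3) k))
    (hdeg : ∀ i j, (M i j).IsHomogeneous (1 + wt i + wt j))
    (hiso : ∀ w ∈ W, w ⬝ᵥ (M.map φ *ᵥ w) = 0)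
    (haniso : ∀ v : Fin 4 → MvPolynomial (Fin 3) k, v ⬝ᵥ (M *ᵥ v) = 0 → v = 0)
    (hΦ : ∀ f, ScrollForm φ W (r - 1) f → f = 0)
    (f : Fin 5 → Fin 4 → MvPolynomial (Fin 3) k) (hf : ∀ j, ScrollForm φ W r (f j))
    (hind : ∀ c : Fin 5 → k, (∀ i, ∑ j, C (c j) * f j i = 0) → c = 0)
    (hdet : ∀ a b i j : Fin 5, f a ⬝ᵥ cr (f b) (f i) (f j) = 0)
    (i j l : Fin 5) (hne : cr (f i) (f j) (f l) ≠ 0) : False := by
  have hg0 := hg.ne_zero
  have hgp : Prime g := hg.prime
  obtain ⟨τ, e, hτ, hτe, hprim⟩ := exists_prim _ hne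
  obtain ⟨l0, hl0⟩ := hprim.ne_zero
  have hcrhom : ∀ a b c m, (cr (f a) (f b) (f c) m).IsHomogeneous (3 * r + 1 - wt m) :=
    fun a b c m => cr_hom (hf a).hom (hf b).hom (hf c).hom m
  -- the kernel vector
  have horth : ∀ a, f a ⬝ᵥ e = 0 := by
    intro a
    have h1 := hdet a i j l
    have h2 : cr (f i) (f j) (f l) = τ • e := funext hτe
    rw [h2, dotProduct_smul, smul_eq_mul] at h1
    exact (mul_eq_zero.1 h1).resolve_left hτ
  have hfac : ∀ a b c, ∃ p, ∀ m, cr (f a) (f b) (f c) m = p * e m := fun a b c =>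
    hprim.factor _ fun m m' => cr_prop (horth a) (horth b) (horth c) m m'
  choose P hP using hfac
  have hPτ : P i j l = τ := by
    have h1 := hP i j l l0
    rw [hτe l0] at h1
    exact (mul_right_cancel₀ hl0 h1).symm
  -- degrees
  obtain ⟨a, E, haE, hτh, heh, hev⟩ := prim_hom wt (3 * r + 1) _ e τ hτ hτe (hcrhom i j l)
    (fun m => by have := wt_le' m; omega) l0 hl0
  have hPh : ∀ a' b c, (P a' b c).IsHomogeneous a := by
    intro a' b c
    have h1 := hcrhom a' b c l0
    rw [hP a' b c l0, mul_comm] at h1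
    refine hom_quot (heh l0) hl0 ?_
    have h2 := hev l0 hl0
    have h3 : E - wt l0 + a = 3 * r + 1 - wt l0 := by omega
    rwa [h3]
  -- the minors are divisible by `g`
  have hcrg : ∀ a' b c m, g ∣ cr (f a') (f b) (f c) m := by
    intro a' b c m
    rw [← hφ]
    obtain ⟨w, hw, hw0, hwm⟩ := exists_coord_zero W (by omega) m
    have h1 : cr (fun n => φ (f a' n)) (fun n => φ (f b n)) (fun n => φ (f c n)) =
        fun n => φ (cr (f a') (f b) (f c) n) := by
      funext n
      fin_cases n <;> simp [cr]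
    have h2 := fun n => cr_prop (u := fun n => φ (f a' n)) (v := fun n => φ (f b n))
      (w := fun n => φ (f c n)) (e := w) ((hf a').van w hw) ((hf b).van w hw)
      ((hf c).van w hw) m n
    by_contra h3
    apply hw0
    funext n
    have h4 := h2 n
    rw [hwm, mul_zero, h1] at h4
    exact (mul_eq_zero.1 h4).resolve_left h3
  have hPg : ∀ a' b c, g ∣ P a' b c := fun a' b c => hprim _ _ fun m => by
    rw [← hP]
    exact hcrg a' b c m
  have final : ∀ (G : MvPolynomial (Fin 3) k) (d : ℕ), G ≠ 0 → G.IsHomogeneous d →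
      (∀ a' b c, G ∣ P a' b c) → a ≤ d + 1 → False := by
    intro G d hG hGd hGP had
    choose P' hP' using hGP
    have hne' : P' i j l ≠ 0 := by
      intro h1
      apply hτ
      rw [← hPτ, hP' i j l, h1, mul_zero]
    have had' : d ≤ a := by
      have h1 := hPh i j l
      rw [hP' i j l] at h1
      obtain ⟨m, n, hm, hn, hmn⟩ := homog_factor h1 (mul_ne_zero hG hne')
      have h2 := hm.inj_right hGd hG
      omega
    refine three_false hφ hg0 hgr hr hΦ f hf hind hdet P' (fun m => G * e m) l0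
      (mul_ne_zero hG hl0) ?_ (a - d) (by omega) ?_ i j l hne'
    · intro a' b c m
      rw [hP a' b c m, hP' a' b c]
      ring
    · intro a' b c
      refine hom_quot hGd hG ?_
      rw [← hP' a' b c]
      have h1 : d + (a - d) = a := by omega
      rw [h1]
      exact hPh a' b c
  by_cases hcase : ∀ a' b x y, g ∣ f a' x * f b y - f a' y * f b x
  · -- all two by two minors are divisible by `g`
    refine final (g ^ 2) (2 * r * 2) (pow_ne_zero 2 hg0) (hgr.pow 2) ?_ (by omega)
    intro a' b c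
    refine hprim _ _ fun m => ?_
    rw [← hP a' b c m, cr_eq_det]
    refine dvd_mul_of_dvd_right (sq_dvd_det hgp _ ?_) _
    intro x y
    have h0 : ∀ a' b x y, g ∣ f a' x * f b y - f a' y * f b x := hcase
    rw [Matrix.adjugate_fin_three]
    fin_cases x <;> fin_cases y <;>
      simp only [Matrix.submatrix_apply, Matrix.of_apply, id, Fin.zero_eta, Fin.mk_one,
        Fin.reduceFinMk, Matrix.cons_val_zero, Matrix.cons_val_one, Matrix.cons_val]
    · exact h0 b c _ _
    · obtain ⟨q, hq⟩ := h0 a' c (m.succAbove 1) (m.succAbove 2)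
      exact ⟨-q, by linear_combination -hq⟩
    · exact h0 a' b _ _
    · obtain ⟨q, hq⟩ := h0 b c (m.succAbove 0) (m.succAbove 2)
      exact ⟨-q, by linear_combination -hq⟩
    · exact h0 a' c _ _
    · obtain ⟨q, hq⟩ := h0 a' b (m.succAbove 0) (m.succAbove 2)
      exact ⟨-q, by linear_combination -hq⟩
    · exact h0 b c _ _
    · obtain ⟨q, hq⟩ := h0 a' c (m.succAbove 0) (m.succAbove 1)
      exact ⟨-q, by linear_combination -hq⟩
    · exact h0 a' b _ _
  · push Not at hcase
    obtain ⟨a', b, x, y, hxy⟩ := hcase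
    have hxy' : φ (f a' x) * φ (f b y) - φ (f a' y) * φ (f b x) ≠ 0 := by
      rw [← map_mul, ← map_mul, ← map_sub, Ne, hφ]
      exact hxy
    have heW : (fun m => φ (e m)) ∈ W := by
      refine mem_of_ker W hW (fun m => φ (f a' m)) (fun m => φ (f b m)) (hf a').van (hf b).van
        x y hxy' _ ?_ ?_
      · have h1 := congrArg φ (horth a')
        simpa [dotProduct] using h1
      · have h1 := congrArg φ (horth b)
        simpa [dotProduct] using h1
    have hq : g ∣ e ⬝ᵥ (M *ᵥ e) := by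
      rw [← hφ]
      have h1 := hiso _ heW
      rw [← h1]
      simp [dotProduct, mulVec]
    obtain ⟨γ, hγ⟩ := hq
    have hq0 : e ⬝ᵥ (M *ᵥ e) ≠ 0 := by
      intro h1
      exact hl0 (congrFun (haniso e h1) l0)
    have hqh : (e ⬝ᵥ (M *ᵥ e)).IsHomogeneous (2 * E + 1) := by
      simp only [dotProduct, mulVec, Finset.mul_sum]
      refine IsHomogeneous.sum _ _ _ fun m _ => IsHomogeneous.sum _ _ _ fun n _ => ?_
      by_cases hm : e m = 0
      · rw [hm, zero_mul]
        exact isHomogeneous_zero _ _ _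
      by_cases hn : e n = 0
      · rw [hn, mul_zero, mul_zero]
        exact isHomogeneous_zero _ _ _
      have h1 := (heh m).mul ((hdeg m n).mul (heh n))
      have h2 := hev m hm
      have h3 := hev n hn
      have h4 : E - wt m + (1 + wt m + wt n + (E - wt n)) = 2 * E + 1 := by omega
      rwa [h4] at h1
    have hE : 2 * r ≤ 2 * E + 1 := by
      rw [hγ] at hqh hq0
      obtain ⟨m, n, hm, hn, hmn⟩ := homog_factor hqh hq0
      have h2 := hm.inj_right hgr hg0
      omega
    exact final g (2 * r) hg0 hgr hPg (by omega)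

end Vale.Agent.P287.H925
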