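import Vale.Agent.P287.H925.RankThreeB
import Vale.Agent.P287.H925.RankPlane

/-!
Five forms through the scroll, independent over the constants, do not have rank two.
-/

open MvPolynomial Matrix

namespace Vale.Agent.P287.H925

variable {k : Type*} [Field k] {κ : Type*} [Field κ] {φ : MvPolynomial (Fin 3) k →+* κ}
  {W : Submodule κ (Fin 4 → κ)} {g : MvPolynomial (Fin 3) k} {r : ℕ}

lemma exists_three (i j : Fin 5) (h1 : i ≠ j) :
    ∃ a b l : Fin 5, a ≠ b ∧ a ≠ i ∧ a ≠ j ∧ a ≠ l ∧ b ≠ i ∧ b ≠ j ∧ b ≠ l ∧ i ≠ l ∧ j ≠ l := by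
  revert i j
  decide

theorem two_false (hφ : ∀ p, φ p = 0 ↔ g ∣ p) (hg0 : g ≠ 0)
    (hgr : g.IsHomogeneous (2 * r)) (hr : 1 ≤ r)
    (hΦ : ∀ f, ScrollForm φ W (r - 1) f → f = 0)
    (f : Fin 5 → Fin 4 → MvPolynomial (Fin 3) k) (hf : ∀ j, ScrollForm φ W r (f j))
    (hind : ∀ c : Fin 5 → k, (∀ i, ∑ j, C (c j) * f j i = 0) → c = 0)
    (hcr : ∀ a b c l, cr (f a) (f b) (f c) l = 0)
    (P : Fin 5 → Fin 5 → MvPolynomial (Fin 3) k) (e : Fin 4 → Fin 4 → MvPolynomial (Fin 3) k)
    (x0 y0 : Fin 4) (he : e x0 y0 ≠ 0)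
    (hP : ∀ a b x y, sd (f a) (f b) x y = P a b * e x y) (δ : ℕ) (hδ : δ ≤ 1)
    (hPh : ∀ a b, (P a b).IsHomogeneous δ)
    (i j : Fin 5) (hne : P i j ≠ 0) : False := by
  have h1 : ∀ a b, sd (f a) (f b) x0 y0 = 0 → P a b = 0 := by
    intro a b h
    rw [hP] at h
    exact (mul_eq_zero.1 h).resolve_right he
  have hij : i ≠ j := by
    rintro rfl
    exact hne (h1 _ _ (sd_self _ _ _))
  obtain ⟨a, b, l, hab, hai, haj, hal, hbi, hbj, hbl, hil, hjl⟩ := exists_three i j hij
  have hinj : Function.Injective (![a, b, i, j, l] : Fin 5 → Fin 5) := by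
    intro x y hxy
    fin_cases x <;> fin_cases y <;> simp_all
  let σ : Fin 5 ≃ Fin 5 := Equiv.ofBijective _ (Finite.injective_iff_bijective.1 hinj)
  have hcram : ∀ x m, P i j * f x m = P x j * f i m - P x i * f j m := by
    intro x m
    have h2 := sd_cramer (f x) (f i) (f j) x0 y0 m
    rw [hcr, hcr, ite_self, ite_self, hP, hP, hP] at h2
    apply mul_left_cancel₀ he
    linear_combination h2
  have hpl := sd_four (f a) (f b) (f i) (f j) x0 y0
  simp only [hP] at hpl
  have hpl1 : P b j * P a i - P b i * P a j = P i j * P a b := by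
    apply mul_left_cancel₀ (pow_ne_zero 2 he)
    linear_combination hpl
  refine core_false hφ hg0 hgr hr hΦ (f a) (f b) (![f i, f j]) ?_ ?_ (P i j)
    (![P b j, -P b i]) (![P a j, -P a i]) δ hδ (hPh _ _) hne
    ?_ ?_ ?_ ?_ ?_
  · intro m
    fin_cases m
    · exact hf i
    · exact hf j
  · intro s t c hc
    have h2 := hind (fun m => (![s, t, c 0, c 1, 0] : Fin 5 → k) (σ.symm m)) (by
      intro m
      rw [← Equiv.sum_comp σ]
      have h3 := hc m
      rw [Fin.sum_univ_two] at h3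
      rw [Fin.sum_univ_five]
      simp only [Equiv.symm_apply_apply]
      rw [← h3]
      change C s * f a m + C t * f b m + C (c 0) * f i m + C (c 1) * f j m + C 0 * f l m =
        C s * f a m + C t * f b m + (C (c 0) * f i m + C (c 1) * f j m)
      rw [map_zero]
      ring)
    have h3 : ∀ m, (![s, t, c 0, c 1, 0] : Fin 5 → k) m = 0 := by
      intro m
      have h4 := congrFun h2 (σ m)
      simpa using h4
    refine ⟨h3 0, h3 1, ?_⟩
    funext m
    fin_cases m
    · exact h3 2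
    · exact h3 3
  · intro m
    fin_cases m
    · exact hPh _ _
    · exact (hPh _ _).neg
  · intro m
    fin_cases m
    · exact hPh _ _
    · exact (hPh _ _).neg
  · intro m
    rw [hcram b m, Fin.sum_univ_two]
    change _ = P b j * f i m + -P b i * f j m
    ring
  · intro m
    rw [hcram a m, Fin.sum_univ_two]
    change _ = P a j * f i m + -P a i * f j m
    ring
  · intro x y
    fin_cases x <;> fin_cases y
    · simp
    · exact ⟨-P a b, by
        change P b j * -P a i - -P b i * P a j = _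
        linear_combination -hpl1⟩
    · exact ⟨P a b, by
        change -P b i * P a j - P b j * -P a i = _
        linear_combination hpl1⟩
    · simp

lemma sd_hom {u v : Fin 4 → MvPolynomial (Fin 3) k}
    (hu : ∀ i, (u i).IsHomogeneous (r + wt i)) (hv : ∀ i, (v i).IsHomogeneous (r + wt i))
    (x y : Fin 4) : (sd u v x y).IsHomogeneous (2 * r + 1 - (wt x + wt y)) := by
  have h : ∀ m n, (u m * v n - u n * v m).IsHomogeneous (2 * r + (wt m + wt n)) := by
    intro m n
    have h1 := (hu m).mul (hv n)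
    have h2 := (hu n).mul (hv m)
    have e1 : r + wt m + (r + wt n) = 2 * r + (wt m + wt n) := by ring
    have e2 : r + wt n + (r + wt m) = 2 * r + (wt m + wt n) := by ring
    rw [e1] at h1
    rw [e2] at h2
    exact h1.sub h2
  have h' : ∀ m n d, 2 * r + (wt m + wt n) = d → (u m * v n - u n * v m).IsHomogeneous d := by
    intro m n d hd
    rw [← hd]
    exact h m n
  fin_cases x <;> fin_cases y <;>
    simp only [sd, Matrix.cons_val_zero, Matrix.cons_val_one, Matrix.cons_val, Fin.zero_eta,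
      Fin.mk_one, Fin.reduceFinMk]
  · exact isHomogeneous_zero _ _ _
  · exact h' 2 3 _ (by simp [wt])
  · exact (h' 1 3 _ (by simp [wt])).neg
  · exact h' 1 2 _ (by simp [wt])
  · exact (h' 2 3 _ (by simp [wt])).neg
  · exact isHomogeneous_zero _ _ _
  · exact h' 0 3 _ (by simp [wt])
  · exact (h' 0 2 _ (by simp [wt])).neg
  · exact h' 1 3 _ (by simp [wt])
  · exact (h' 0 3 _ (by simp [wt])).neg
  · exact isHomogeneous_zero _ _ _
  · exact h' 0 1 _ (by simp [wt])
  · exact (h' 1 2 _ (by simp [wt])).neg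
  · exact h' 0 2 _ (by simp [wt])
  · exact (h' 0 1 _ (by simp [wt])).neg
  · exact isHomogeneous_zero _ _ _

theorem rank_two [IsAlgClosed k] (h2 : (2 : k) ≠ 0) (hg : Irreducible g)
    (hφ : ∀ p, φ p = 0 ↔ g ∣ p)
    (hgr : g.IsHomogeneous (2 * r)) (hr : 1 ≤ r) (hW : Module.finrank κ W = 2)
    (M : Matrix (Fin 4) (Fin 4) (MvPolynomial (Fin 3) k)) (hM : M.IsSymm)
    (hdeg : ∀ i j, (M i j).IsHomogeneous (1 + wt i + wt j))
    (hiso : ∀ w ∈ W, ∀ w' ∈ W, w ⬝ᵥ (M.map φ *ᵥ w') = 0)
    (haniso : ∀ v : Fin 4 → MvPolynomial (Fin 3) k, v ⬝ᵥ (M *ᵥ v) = 0 → v = 0)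
    (hΦ : ∀ f, ScrollForm φ W (r - 1) f → f = 0)
    (f : Fin 5 → Fin 4 → MvPolynomial (Fin 3) k) (hf : ∀ j, ScrollForm φ W r (f j))
    (hind : ∀ c : Fin 5 → k, (∀ i, ∑ j, C (c j) * f j i = 0) → c = 0)
    (hcr : ∀ a b c l, cr (f a) (f b) (f c) l = 0)
    (i j : Fin 5) (hne : (fun p : Fin 4 × Fin 4 => sd (f i) (f j) p.1 p.2) ≠ 0) : False := by
  have hg0 := hg.ne_zero
  have hgp : Prime g := hg.prime
  obtain ⟨τ, e, hτ, hτe, hprim⟩ := exists_prim _ hne
  obtain ⟨⟨x0, y0⟩, hxy0⟩ := hprim.ne_zero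
  set p : Fin 4 → Fin 4 → MvPolynomial (Fin 3) k := fun x y => e (x, y) with hp
  have hτp : ∀ x y, sd (f i) (f j) x y = τ * p x y := fun x y => hτe (x, y)
  have hp0 : p x0 y0 ≠ 0 := hxy0
  -- proportionality
  have hrel : ∀ a z, sd (f i) (f j) x0 y0 * f a z =
      sd (f a) (f j) x0 y0 * f i z + (-sd (f a) (f i) x0 y0) * f j z := by
    intro a z
    have h3 := sd_cramer (f a) (f i) (f j) x0 y0 z
    rw [hcr, hcr, ite_self, ite_self] at h3
    linear_combination h3
  have hprop : ∀ a b x y x' y', sd (f a) (f b) x y * p x' y' = sd (f a) (f b) x' y' * p x y := by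
    intro a b x y x' y'
    have h3 := sd_lin (hrel a) (hrel b) x y
    have h4 := sd_lin (hrel a) (hrel b) x' y'
    have h5 : (sd (f i) (f j) x0 y0) ^ 2 * τ ≠ 0 := by
      rw [hτp]
      exact mul_ne_zero (pow_ne_zero 2 (mul_ne_zero hτ hp0)) hτ
    apply mul_left_cancel₀ h5
    rw [hτp x y] at h3
    rw [hτp x' y'] at h4
    linear_combination τ * p x' y' * h3 - τ * p x y * h4
  have hfac : ∀ a b, ∃ q, ∀ x y, sd (f a) (f b) x y = q * p x y := by
    intro a b
    obtain ⟨q, hq⟩ := hprim.factor (fun m : Fin 4 × Fin 4 => sd (f a) (f b) m.1 m.2)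
      fun m m' => hprop a b _ _ _ _
    exact ⟨q, fun x y => hq (x, y)⟩
  choose P hP using hfac
  have hPτ : P i j = τ := by
    have h1 := hP i j x0 y0
    rw [hτp x0 y0] at h1
    exact (mul_right_cancel₀ hp0 h1).symm
  -- degrees
  obtain ⟨a, E, haE, hτh, heh, hev⟩ := prim_hom
    (fun m : Fin 4 × Fin 4 => wt m.1 + wt m.2) (2 * r + 1) _ e τ hτ hτe
    (fun m => sd_hom (hf i).hom (hf j).hom m.1 m.2)
    (fun m => by
      have := wt_le' m.1
      have := wt_le' m.2
      omega) (x0, y0) hxy0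
  have hph : ∀ x y, (p x y).IsHomogeneous (E - (wt x + wt y)) := fun x y => heh (x, y)
  have hpv : ∀ x y, p x y ≠ 0 → wt x + wt y ≤ E := fun x y h => hev (x, y) h
  have hPh : ∀ a' b, (P a' b).IsHomogeneous a := by
    intro a' b
    have h1 := sd_hom (hf a').hom (hf b).hom x0 y0
    rw [hP a' b x0 y0, mul_comm] at h1
    refine hom_quot (hph x0 y0) hp0 ?_
    have h3 := hpv x0 y0 hp0
    have h4 : E - (wt x0 + wt y0) + a = 2 * r + 1 - (wt x0 + wt y0) := by omega
    rwa [h4]
  by_cases hcase : ∀ a' b x y, g ∣ f a' x * f b y - f a' y * f b x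
  · -- all two by two minors are divisible by `g`
    have hsd : ∀ a' b x y, g ∣ sd (f a') (f b) x y := fun a' b x y =>
      sd_cases (fun q => g ∣ q) (dvd_zero _) (fun q hq => (dvd_neg).2 hq)
        (fun x y _ => hcase a' b x y) x y
    have hPg : ∀ a' b, g ∣ P a' b := fun a' b => hprim _ _ fun m => by
      have h1 := hsd a' b m.1 m.2
      rw [hP a' b m.1 m.2] at h1
      exact h1
    choose P' hP' using hPg
    have hne' : P' i j ≠ 0 := by
      intro h1
      apply hτ
      rw [← hPτ, hP' i j, h1, mul_zero]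
    have had' : 2 * r ≤ a := by
      have h1 := hPh i j
      rw [hP' i j] at h1
      obtain ⟨m, n, hm, hn, hmn⟩ := homog_factor h1 (mul_ne_zero hg0 hne')
      have h2 := hm.inj_right hgr hg0
      omega
    refine two_false hφ hg0 hgr hr hΦ f hf hind hcr P' (fun x y => g * p x y) x0 y0
      (mul_ne_zero hg0 hp0) ?_ (a - 2 * r) (by omega) ?_ i j hne'
    · intro a' b x y
      rw [hP a' b x y, hP' a' b]
      ring
    · intro a' b
      refine hom_quot hgr hg0 ?_
      rw [← hP' a' b]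
      have h1 : 2 * r + (a - 2 * r) = a := by omega
      rw [h1]
      exact hPh a' b
  -- the case of degree at most one
  rcases Nat.lt_or_ge a 2 with ha | ha
  · refine two_false hφ hg0 hgr hr hΦ f hf hind hcr P p x0 y0 hp0 hP a (by omega) hPh i j ?_
    rw [hPτ]
    exact hτ
  exfalso
  push Not at hcase
  obtain ⟨a', b, x, y, hxy⟩ := hcase
  have hxy' : φ (f a' x) * φ (f b y) - φ (f a' y) * φ (f b x) ≠ 0 := by
    rw [← map_mul, ← map_mul, ← map_sub, Ne, hφ]
    exact hxy
  -- the rows of `p` are in the kernel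
  have horth : ∀ c m, ∑ l, f c l * p m l = 0 := by
    intro c m
    have h3 := sd_ker (f c) (f i) (f j) m
    rw [hcr] at h3
    have h4 : τ * ∑ l, f c l * p m l = 0 := by
      rw [← h3, Finset.mul_sum]
      exact Finset.sum_congr rfl fun l _ => by rw [hτp]; ring
    exact (mul_eq_zero.1 h4).resolve_left hτ
  have hpW : ∀ m, (fun l => φ (p m l)) ∈ W := by
    intro m
    refine mem_of_ker W hW (fun l => φ (f a' l)) (fun l => φ (f b l)) (hf a').van (hf b).van
      x y hxy' _ ?_ ?_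
    · have h1 := congrArg φ (horth a' m)
      simpa using h1
    · have h1 := congrArg φ (horth b m)
      simpa using h1
  set T : Fin 4 → Fin 4 → MvPolynomial (Fin 3) k := fun m n => p m ⬝ᵥ (M *ᵥ p n) with hT
  have hTg : ∀ m n, g ∣ T m n := by
    intro m n
    rw [← hφ]
    have h1 := hiso _ (hpW m) _ (hpW n)
    rw [← h1]
    simp [hT, dotProduct, mulVec]
  have hTs : ∀ m n, T m n = T n m := by
    intro m n
    simp only [hT]
    rw [Matrix.dotProduct_mulVec, ← Matrix.mulVec_transpose, hM.eq, dotProduct_comm]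
  -- Plücker relations
  have hpl : ∀ x y z t, p x z * p y t - p x t * p y z = p x y * p z t := by
    intro x y z t
    have h3 := sd_plucker (f i) (f j) x y z t
    simp only [hτp] at h3
    apply mul_left_cancel₀ (pow_ne_zero 2 hτ)
    linear_combination h3
  have hgram : ∀ m n, 2 * (T m m * T n n - T m n * T m n) = p m n ^ 2 * gram M p := by
    intro m n
    have h3 := gram_wedge M (p m) (p n)
    have h4 : (fun x y => p m x * p n y - p m y * p n x) = fun x y => p m n * p x y := by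
      funext x y
      exact hpl m n x y
    rw [h4, gram_smul] at h3
    rw [h3]
    change 2 * (T m m * T n n - T m n * T m n) = 2 * (T m m * T n n - T m n * T n m)
    rw [hTs n m]
  -- divisibility by `g ^ 2`
  obtain ⟨⟨m0, n0⟩, hmn0⟩ := hprim.not_dvd hg.not_isUnit
  have hmn0' : ¬ g ∣ p m0 n0 := hmn0
  have hG : ∃ D, gram M p = g ^ 2 * D := by
    obtain ⟨t1, ht1⟩ := hTg m0 m0
    obtain ⟨t2, ht2⟩ := hTg n0 n0
    obtain ⟨t3, ht3⟩ := hTg m0 n0
    have h3 := hgram m0 n0
    rw [ht1, ht2, ht3] at h3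
    have h4 : g ∣ p m0 n0 ^ 2 * gram M p := ⟨g * (2 * (t1 * t2 - t3 * t3)), by
      rw [← h3]; ring⟩
    have h5 : ¬ g ∣ p m0 n0 ^ 2 := fun h => hmn0' (hgp.dvd_of_dvd_pow h)
    obtain ⟨G', hG'⟩ := (hgp.dvd_or_dvd h4).resolve_left h5
    have h6 : g ∣ p m0 n0 ^ 2 * G' := by
      refine ⟨2 * (t1 * t2 - t3 * t3), ?_⟩
      apply mul_left_cancel₀ hg0
      rw [hG'] at h3
      linear_combination -h3
    obtain ⟨D, hD⟩ := (hgp.dvd_or_dvd h6).resolve_left h5
    exact ⟨D, by rw [hG', hD]; ring⟩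
  obtain ⟨D, hD⟩ := hG
  have hGh : (gram M p).IsHomogeneous (2 * E + 2) := by
    refine IsHomogeneous.sum _ _ _ fun x _ => IsHomogeneous.sum _ _ _ fun y _ =>
      IsHomogeneous.sum _ _ _ fun z _ => IsHomogeneous.sum _ _ _ fun t _ => ?_
    by_cases h3 : p x y = 0
    · rw [h3, zero_mul, zero_mul]
      exact isHomogeneous_zero _ _ _
    by_cases h4 : p z t = 0
    · rw [h4, mul_zero, zero_mul]
      exact isHomogeneous_zero _ _ _
    have h5 := ((hph x y).mul (hph z t)).mul ((hdeg x z).mul (hdeg y t))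
    have h6 := hpv x y h3
    have h7 := hpv z t h4
    have h8 : E - (wt x + wt y) + (E - (wt z + wt t)) + (1 + wt x + wt z + (1 + wt y + wt t)) =
        2 * E + 2 := by omega
    rwa [h8] at h5
  -- `D` is a constant
  have hDc : ∃ d : k, D = C d := by
    by_cases hD0 : D = 0
    · exact ⟨0, by rw [hD0, map_zero]⟩
    · have h3 := hGh
      rw [hD] at h3
      obtain ⟨m, n, hm, hn, hmn⟩ := homog_factor h3 (mul_ne_zero (pow_ne_zero 2 hg0) hD0)
      have h4 := hm.inj_right (hgr.pow 2) (pow_ne_zero 2 hg0)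
      have h5 : n = 0 := by omega
      subst h5
      exact const_of_hom hn
  obtain ⟨d, rfl⟩ := hDc
  obtain ⟨ε, hε⟩ := IsAlgClosed.exists_pow_nat_eq (-(d / 2)) (n := 2) (by norm_num)
  -- an isotropic vector
  have hmn0ne : p m0 n0 ≠ 0 := fun h => hmn0' (by rw [h]; exact dvd_zero _)
  have hdiag : ∀ m, p m m = 0 := by
    intro m
    have h3 := hτp m m
    have h4 : sd (f i) (f j) m m = 0 := by
      fin_cases m <;> rfl
    rw [h4] at h3
    exact (mul_eq_zero.1 h3.symm).resolve_left hτ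
  have hskew : ∀ m n, p m n = - p n m := by
    intro m n
    have h3 := hτp m n
    have h4 := hτp n m
    have h5 : sd (f i) (f j) m n = - sd (f i) (f j) n m := by
      fin_cases m <;> fin_cases n <;> simp [sd]
    apply mul_left_cancel₀ hτ
    linear_combination -h3 - h4 + h5
  set s : MvPolynomial (Fin 3) k := C ε * g * p m0 n0 with hs
  have hs2 : s ^ 2 = T m0 n0 ^ 2 - T m0 m0 * T n0 n0 := by
    have h3 := hgram m0 n0
    rw [hD] at h3
    have h4 : (C 2 : MvPolynomial (Fin 3) k) * C ε ^ 2 = - C d := by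
      rw [← map_pow, hε, ← map_mul, ← map_neg]
      congr 1
      field_simp
    have h5 : (C 2 : MvPolynomial (Fin 3) k) = 2 := map_ofNat C 2
    have h6 : (C 2 : MvPolynomial (Fin 3) k) ≠ 0 := by rwa [Ne, C_eq_zero]
    apply mul_left_cancel₀ h6
    rw [hs]
    linear_combination g ^ 2 * p m0 n0 ^ 2 * h4 + h3 +
      (T m0 m0 * T n0 n0 - T m0 n0 * T m0 n0) * h5
  have hiso' : (fun l => (s - T m0 n0) * p m0 l + T m0 m0 * p n0 l) = 0 := by
    apply haniso
    have h3 : (fun l => (s - T m0 n0) * p m0 l + T m0 m0 * p n0 l) =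
        (s - T m0 n0) • p m0 + T m0 m0 • p n0 := by
      funext l
      simp
    have h4 : ((s - T m0 n0) • p m0 + T m0 m0 • p n0) ⬝ᵥ
        (M *ᵥ ((s - T m0 n0) • p m0 + T m0 m0 • p n0)) =
        (s - T m0 n0) ^ 2 * T m0 m0 + (s - T m0 n0) * T m0 m0 * (T m0 n0 + T n0 m0) +
          T m0 m0 ^ 2 * T n0 n0 := by
      rw [mulVec_add, mulVec_smul, mulVec_smul, dotProduct_add, add_dotProduct, add_dotProduct,
        smul_dotProduct, smul_dotProduct, smul_dotProduct, smul_dotProduct, dotProduct_smul,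
        dotProduct_smul, dotProduct_smul, dotProduct_smul]
      simp only [smul_eq_mul]
      change (s - T m0 n0) * ((s - T m0 n0) * T m0 m0) + T m0 m0 * ((s - T m0 n0) * T n0 m0) +
        ((s - T m0 n0) * (T m0 m0 * T m0 n0) + T m0 m0 * (T m0 m0 * T n0 n0)) = _
      ring
    rw [h3, h4, hTs n0 m0]
    linear_combination T m0 m0 * hs2
  have h3 := congrFun hiso' n0
  have h4 := congrFun hiso' m0
  simp only [hdiag, mul_zero, add_zero, zero_add, Pi.zero_apply] at h3 h4
  have h5 : T m0 m0 = 0 := by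
    have h6 : p n0 m0 ≠ 0 := by
      rw [hskew]
      exact neg_ne_zero.2 hmn0ne
    exact (mul_eq_zero.1 h4).resolve_right h6
  exact hmn0ne (congrFun (haniso (p m0) h5) n0)

end Vale.Agent.P287.H925
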