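import Vale.Agent.P287.H925.Comp

open MvPolynomial Matrix

namespace Vale.Agent.P287.H925

section Reduce

variable {k : Type*} [Field k]

lemma sub_dvd {i0 i2 : Fin 3} (h : i0 ≠ i2) (c : k) (p : MvPolynomial (Fin 3) k) :
    (X i2 - C c * X i0) ∣ p - aeval (Function.update (X : Fin 3 → MvPolynomial (Fin 3) k) i2
      (C c * X i0)) p := by
  induction p using MvPolynomial.induction_on with
  | C a => simp
  | add p q hp hq =>
    rw [map_add]
    have : ∀ a b c d : MvPolynomial (Fin 3) k, a + b - (c + d) = (a - c) + (b - d) := by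
      intros; ring
    rw [this]
    exact dvd_add hp hq
  | mul_X p i hp =>
    rw [map_mul, aeval_X]
    have : ∀ a b c d : MvPolynomial (Fin 3) k, a * b - c * d = (a - c) * b + c * (b - d) := by
      intros; ring
    rw [this]
    refine dvd_add (Dvd.dvd.mul_right hp _) (Dvd.dvd.mul_left ?_ _)
    by_cases hi : i = i2
    · subst hi
      simp
    · rw [Function.update_of_ne hi, sub_self]
      exact dvd_zero _

/-- a linear relation between two vectors with two coefficients which are independent -/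
lemma dvd_of_rel {i0 i1 i2 : Fin 3} (h02 : i0 ≠ i2) (h01 : i0 ≠ i1) (h12 : i1 ≠ i2) (c1 c2 : k)
    (p q : MvPolynomial (Fin 3) k) (h : (X i1 - C c1 * X i0) * p + (X i2 - C c2 * X i0) * q = 0) :
    ∃ s, p = (X i2 - C c2 * X i0) * s ∧ q = -((X i1 - C c1 * X i0) * s) := by
  set θ : MvPolynomial (Fin 3) k →ₐ[k] MvPolynomial (Fin 3) k :=
    aeval (Function.update (X : Fin 3 → MvPolynomial (Fin 3) k) i2 (C c2 * X i0)) with hθ
  have e0 : θ (X i0) = X i0 := by simp [θ, Function.update_of_ne h02]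
  have e1 : θ (X i1) = X i1 := by simp [θ, Function.update_of_ne h12]
  have e2 : θ (X i2) = C c2 * X i0 := by simp [θ]
  have eC : ∀ c, θ (C c) = C c := fun c => by simp [θ]
  have hl1 : (X i1 - C c1 * X i0 : MvPolynomial (Fin 3) k) ≠ 0 := by
    intro h0
    have := congrArg (eval (Pi.single i1 (1 : k))) h0
    simp [h01] at this
  have hl2 : (X i2 - C c2 * X i0 : MvPolynomial (Fin 3) k) ≠ 0 := by
    intro h0
    have := congrArg (eval (Pi.single i2 (1 : k))) h0
    simp [h02] at this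
  have h1 := congrArg θ h
  simp only [map_add, map_mul, map_sub, e0, e1, e2, eC, sub_self, zero_mul, add_zero,
    map_zero] at h1
  have h2 := (mul_eq_zero.1 h1).resolve_left hl1
  obtain ⟨s, hs⟩ := sub_dvd h02 c2 p
  change p - θ p = _ at hs
  rw [h2, sub_zero] at hs
  refine ⟨s, hs, ?_⟩
  rw [hs] at h
  have h3 : (X i2 - C c2 * X i0 : MvPolynomial (Fin 3) k) * ((X i1 - C c1 * X i0) * s + q) = 0 := by
    linear_combination h
  have h4 := (mul_eq_zero.1 h3).resolve_left hl2
  linear_combination h4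

lemma three_indices (i0 : Fin 3) : ∃ i1 i2 : Fin 3, i0 ≠ i1 ∧ i0 ≠ i2 ∧ i1 ≠ i2 ∧
    (Finset.univ : Finset (Fin 3)) = {i0, i1, i2} := by
  fin_cases i0
  · exact ⟨1, 2, by decide, by decide, by decide, by decide⟩
  · exact ⟨0, 2, by decide, by decide, by decide, by decide⟩
  · exact ⟨0, 1, by decide, by decide, by decide, by decide⟩

lemma sum_three {A : Type*} [AddCommMonoid A] {i0 i1 i2 : Fin 3} (h01 : i0 ≠ i1) (h02 : i0 ≠ i2)
    (h12 : i1 ≠ i2) (hu : (Finset.univ : Finset (Fin 3)) = {i0, i1, i2}) (f : Fin 3 → A) :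
    ∑ i, f i = f i0 + (f i1 + f i2) := by
  rw [hu, Finset.sum_insert (by simp [h01, h02]), Finset.sum_insert (by simp [h12]),
    Finset.sum_singleton]

/-- the linear forms of the relation have no common zero -/
lemma span_lemma {κ : Type*} [Field κ] (φ : MvPolynomial (Fin 3) k →+* κ)
    (hφl : ∀ l : MvPolynomial (Fin 3) k, l.IsHomogeneous 1 → l ≠ 0 → φ l ≠ 0)
    (W : Submodule κ (Fin 4 → κ)) (r : ℕ) (hr : 1 ≤ r)
    (N : Matrix (Fin 5) (Fin 4) (MvPolynomial (Fin 3) k))
    (hNdeg : ∀ j i, (N j i).IsHomogeneous (r + wt i))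
    (hN : ∀ w ∈ W, N.map φ *ᵥ w = 0)
    (hind : ∀ c : Fin 5 → k, (∀ i, ∑ j, C (c j) * N j i = 0) → c = 0)
    (hΦ : ∀ f : Fin 4 → MvPolynomial (Fin 3) k, (∀ i, (f i).IsHomogeneous (r - 1 + wt i)) →
      (∀ w ∈ W, ∑ i, φ (f i) * w i = 0) → f = 0)
    (Λ : Matrix (Fin 5) (Fin 3) k) (hΛ0 : Λ ≠ 0)
    (hrel : ∀ i, ∑ j, (∑ l, C (Λ j l) * X l) * N j i = 0)
    (a : Fin 3 → k) (ha : Λ *ᵥ a = 0) : a = 0 := by
  by_contra ha0
  obtain ⟨i0, hi0⟩ : ∃ i, a i ≠ 0 := by
    by_contra h
    push Not at h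
    exact ha0 (funext h)
  obtain ⟨i1, i2, h01, h02, h12, hu⟩ := three_indices i0
  set c1 := a i1 / a i0 with hc1
  set c2 := a i2 / a i0 with hc2
  have hΛ : ∀ j, Λ j i0 = -(Λ j i1 * c1 + Λ j i2 * c2) := by
    intro j
    have h1 : ∑ l, Λ j l * a l = 0 := congrFun ha j
    rw [sum_three h01 h02 h12 hu] at h1
    rw [hc1, hc2]
    field_simp
    linear_combination h1
  set l1 : MvPolynomial (Fin 3) k := X i1 - C c1 * X i0 with hl1
  set l2 : MvPolynomial (Fin 3) k := X i2 - C c2 * X i0 with hl2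
  have hl1h : l1.IsHomogeneous 1 := (isHomogeneous_X _ _).sub (isHomogeneous_C_mul_X _ _)
  have hl2h : l2.IsHomogeneous 1 := (isHomogeneous_X _ _).sub (isHomogeneous_C_mul_X _ _)
  have hl10 : l1 ≠ 0 := by
    intro h0
    have := congrArg (eval (Pi.single i1 (1 : k))) h0
    simp [hl1, h01] at this
  have hl20 : l2 ≠ 0 := by
    intro h0
    have := congrArg (eval (Pi.single i2 (1 : k))) h0
    simp [hl2, h02] at this
  -- the two combinations of the rows
  set G1 : Fin 4 → MvPolynomial (Fin 3) k := fun i => ∑ j, C (Λ j i1) * N j i with hG1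
  set G2 : Fin 4 → MvPolynomial (Fin 3) k := fun i => ∑ j, C (Λ j i2) * N j i with hG2
  have hG : ∀ i, l1 * G1 i + l2 * G2 i = 0 := by
    intro i
    rw [← hrel i]
    simp only [hG1, hG2, Finset.mul_sum]
    rw [← Finset.sum_add_distrib]
    refine Finset.sum_congr rfl fun j _ => ?_
    rw [sum_three h01 h02 h12 hu, hΛ j, hl1, hl2]
    simp only [C_neg, C_add, C_mul]
    ring
  have hs : ∀ i, ∃ s, G1 i = l2 * s ∧ G2 i = -(l1 * s) := fun i =>
    dvd_of_rel h02 h01 h12 c1 c2 (G1 i) (G2 i) (hG i)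
  choose s hs1 hs2 using hs
  have hcomb : ∀ (c : Fin 5 → k) (w : Fin 4 → κ), w ∈ W →
      ∑ i, φ (∑ j, C (c j) * N j i) * w i = 0 := by
    intro c w hw
    have h1 : ∀ j, ∑ i, φ (N j i) * w i = 0 := fun j => congrFun (hN w hw) j
    simp only [map_sum, map_mul, Finset.sum_mul]
    rw [Finset.sum_comm]
    refine Finset.sum_eq_zero fun j _ => ?_
    have h2 := h1 j
    calc ∑ i, φ (C (c j)) * φ (N j i) * w i = φ (C (c j)) * ∑ i, φ (N j i) * w i := by
          rw [Finset.mul_sum]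
          exact Finset.sum_congr rfl fun i _ => by ring
      _ = 0 := by rw [h2, mul_zero]
  have hs0 : s = 0 := by
    apply hΦ
    · intro i
      have h1 : (l2 * s i).IsHomogeneous (1 + (r - 1 + wt i)) := by
        rw [← hs1 i]
        have h2 : 1 + (r - 1 + wt i) = r + wt i := by omega
        rw [h2]
        refine IsHomogeneous.sum _ _ _ fun j _ => ?_
        exact (hNdeg j i).C_mul _
      exact hom_quot hl2h hl20 h1
    · intro w hw
      have h1 := hcomb (fun j => Λ j i1) w hw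
      have h2 : ∑ i, φ (∑ j, C (Λ j i1) * N j i) * w i = φ l2 * ∑ i, φ (s i) * w i := by
        rw [Finset.mul_sum]
        refine Finset.sum_congr rfl fun i _ => ?_
        have h3 : ∑ j, C (Λ j i1) * N j i = l2 * s i := hs1 i
        rw [h3, map_mul]; ring
      rw [h2] at h1
      exact (mul_eq_zero.1 h1).resolve_left (hφl l2 hl2h hl20)
  have hz1 : (fun j => Λ j i1) = 0 := by
    apply hind
    intro i
    have h3 : ∑ j, C (Λ j i1) * N j i = l2 * s i := hs1 i
    rw [h3, hs0]; simp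
  have hz2 : (fun j => Λ j i2) = 0 := by
    apply hind
    intro i
    have h3 : ∑ j, C (Λ j i2) * N j i = -(l1 * s i) := hs2 i
    rw [h3, hs0]; simp
  apply hΛ0
  refine Matrix.ext fun j l => ?_
  have e1 : Λ j i1 = 0 := congrFun hz1 j
  have e2 : Λ j i2 = 0 := congrFun hz2 j
  have e0 : Λ j i0 = 0 := by rw [hΛ j, e1, e2]; ring
  have hl : l ∈ ({i0, i1, i2} : Finset (Fin 3)) := by
    rw [← hu]; exact Finset.mem_univ l
  simp only [Finset.mem_insert, Finset.mem_singleton] at hl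
  rcases hl with rfl | rfl | rfl
  · simpa using e0
  · simpa using e1
  · simpa using e2

end Reduce

end Vale.Agent.P287.H925
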