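import Vale.Agent.P287.H925.Reduce
import Vale.Agent.P287.H925.Core

open MvPolynomial Matrix

namespace Vale.Agent.P287.H925

section Scroll

variable {k : Type*} [Field k]

/-- an invertible matrix with three given columns -/
lemma exists_complete (Λ : Matrix (Fin 5) (Fin 3) k) (h : ∀ a, Λ *ᵥ a = 0 → a = 0) :
    ∃ G : Matrix (Fin 5) (Fin 5) k, IsUnit G ∧ ∀ j (l : Fin 3), G j (Fin.castAdd 2 l) = Λ j l := by
  have hli : LinearIndependent k Λ.col := by
    rw [Fintype.linearIndependent_iff]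
    intro a ha
    have h1 : Λ *ᵥ a = 0 := by
      rw [Matrix.mulVec_eq_sum]
      rw [← ha]
      refine Finset.sum_congr rfl fun i _ => ?_
      ext j
      simp [mul_comm]
    exact fun i => congrFun (h a h1) i
  obtain ⟨x, hx⟩ := exists_linearIndependent_snoc_of_lt_finrank hli (by simp)
  obtain ⟨y, hy⟩ := exists_linearIndependent_snoc_of_lt_finrank hx (by simp)
  refine ⟨Matrix.of fun j l => (Fin.snoc (α := fun _ => Fin 5 → k)
    (Fin.snoc (α := fun _ => Fin 5 → k) Λ.col x : Fin 4 → Fin 5 → k) y : Fin 5 → Fin 5 → k) l j,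
    ?_, ?_⟩
  · rw [← Matrix.linearIndependent_cols_iff_isUnit]
    exact hy
  · intro j l
    have e : Fin.castAdd 2 l = (l.castSucc).castSucc := rfl
    rw [Matrix.of_apply, e, Fin.snoc_castSucc (α := fun _ => Fin 5 → k),
      Fin.snoc_castSucc (α := fun _ => Fin 5 → k)]
    rfl

lemma cofactor_rel (N : Matrix (Fin 5) (Fin 4) (MvPolynomial (Fin 3) k)) (hτ : tau k ᵥ* N = 0)
    (hdet0 : (N.submatrix (Fin.succAbove 0) id).det ≠ 0) (j : Fin 4) :
    X 0 * ((-1) ^ ((j.succ : Fin 5) : ℕ) * (N.submatrix (j.succ).succAbove id).det) =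
      (N.submatrix (Fin.succAbove 0) id).det * tau k j.succ := by
  have h1 : (fun j : Fin 4 => X 0 * ((-1) ^ ((j.succ : Fin 5) : ℕ) *
      (N.submatrix (j.succ).succAbove id).det) -
      (N.submatrix (Fin.succAbove 0) id).det * tau k j.succ) ᵥ*
        (N.submatrix (Fin.succAbove 0) id) = 0 := by
    funext i
    have e1 := cramer_rel N i
    have e2 : ∑ j, tau k j * N j i = 0 := congrFun hτ i
    rw [Fin.sum_univ_succ] at e1 e2
    have e3 : tau k 0 = (X 0 : MvPolynomial (Fin 3) k) := rfl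
    simp only [Fin.val_zero, pow_zero, one_mul, e3] at e1 e2
    simp only [Matrix.vecMul, dotProduct, Matrix.submatrix_apply, id, Fin.zero_succAbove,
      Pi.zero_apply, sub_mul, Finset.sum_sub_distrib, mul_assoc]
    rw [← Finset.mul_sum, ← Finset.mul_sum]
    simp only [mul_assoc] at e1
    linear_combination (X 0 : MvPolynomial (Fin 3) k) * e1 -
      (N.submatrix (Fin.succAbove 0) id).det * e2
  have h3 := congrFun (Matrix.eq_zero_of_vecMul_eq_zero hdet0 h1) j
  exact sub_eq_zero.1 h3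

/-- the reduction to the normal form -/
theorem exists_normal {κ : Type*} [Field κ] (φ : MvPolynomial (Fin 3) k →+* κ)
    (g : MvPolynomial (Fin 3) k) (hg : Irreducible g) (hφ : ∀ p, φ p = 0 ↔ g ∣ p)
    (r : ℕ) (hgr : g.IsHomogeneous (2 * r))
    (W : Submodule κ (Fin 4 → κ)) (hW : Module.finrank κ W = 2)
    (N : Matrix (Fin 5) (Fin 4) (MvPolynomial (Fin 3) k))
    (hNdeg : ∀ j i, (N j i).IsHomogeneous (r + wt i))
    (hN : ∀ w ∈ W, N.map φ *ᵥ w = 0)
    (hind : ∀ c : Fin 5 → k, (∀ i, ∑ j, C (c j) * N j i = 0) → c = 0)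
    (hrank : ∃ j : Fin 5, (N.submatrix j.succAbove id).det ≠ 0)
    (hΦ : ∀ f : Fin 4 → MvPolynomial (Fin 3) k, (∀ i, (f i).IsHomogeneous (r - 1 + wt i)) →
      (∀ w ∈ W, ∑ i, φ (f i) * w i = 0) → f = 0) :
    ∃ N' : Matrix (Fin 5) (Fin 4) (MvPolynomial (Fin 3) k),
      (∀ j i, (N' j i).IsHomogeneous (r + wt i)) ∧ (∀ w ∈ W, N'.map φ *ᵥ w = 0) ∧
      tau k ᵥ* N' = 0 ∧ ∃ c : k, c ≠ 0 ∧
        (N'.submatrix (Fin.succAbove 0) id).det = g ^ 2 * (C c * X 0) := by
  have hg0 : g ≠ 0 := hg.ne_zero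
  have hgdeg : g.totalDegree = 2 * r := hgr.totalDegree hg0
  have hr : 1 ≤ r := by
    by_contra h
    have h0 : g.totalDegree = 0 := by omega
    rw [totalDegree_eq_zero_iff_eq_C] at h0
    apply hg.not_isUnit
    rw [h0]
    have h1 : g.coeff 0 ≠ 0 := by
      intro h2
      rw [h2, map_zero] at h0
      exact hg0 h0
    exact (IsUnit.mk0 _ h1).map C
  have hndvd : ∀ l : MvPolynomial (Fin 3) k, l.IsHomogeneous 1 → l ≠ 0 → ¬ g ∣ l := by
    rintro l hl hl0 ⟨s, hs⟩
    have hs0 : s ≠ 0 := by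
      rintro rfl
      rw [mul_zero] at hs
      exact hl0 hs
    have h1 := hl.totalDegree hl0
    rw [hs, totalDegree_mul_of_isDomain hg0 hs0] at h1
    omega
  have hφl : ∀ l : MvPolynomial (Fin 3) k, l.IsHomogeneous 1 → l ≠ 0 → φ l ≠ 0 := by
    intro l hl hl0 h
    exact hndvd l hl hl0 ((hφ l).1 h)
  have hX0g : ¬ (X 0 : MvPolynomial (Fin 3) k) ∣ g := by
    intro h
    have h1 := (X_prime (R := k) (i := (0 : Fin 3))).irreducible
    have h2 := (h1.dvd_irreducible_iff_associated hg).1 h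
    exact hndvd (X 0) (isHomogeneous_X _ _) (X_ne_zero 0) h2.symm.dvd
  have hg2 : g ^ 2 ≠ 0 := pow_ne_zero 2 hg0
  have hg2h : (g ^ 2).IsHomogeneous (2 * r * 2) := hgr.pow 2
  -- one step for any matrix of this kind
  have key : ∀ (N : Matrix (Fin 5) (Fin 4) (MvPolynomial (Fin 3) k)),
      (∀ j i, (N j i).IsHomogeneous (r + wt i)) → (∀ w ∈ W, N.map φ *ᵥ w = 0) →
      ∀ j : Fin 5, ∃ d, (N.submatrix j.succAbove id).det = g ^ 2 * d ∧ d.IsHomogeneous 1 := by
    intro N hNdeg hN j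
    obtain ⟨A, d, _, hd, _, _⟩ := step_one φ g hφ hg0 (N.submatrix j.succAbove id) W hW.ge
      (fun w hw => by
        funext i
        exact congrFun (hN w hw) (j.succAbove i))
    refine ⟨d, hd, ?_⟩
    have h1 := det_hom (N.submatrix j.succAbove id) (fun i => r + wt i)
      (fun k' i => hNdeg (j.succAbove k') i)
    rw [hd] at h1
    have h2 : ∑ i : Fin 4, (r + wt i) = 2 * r * 2 + 1 := by
      rw [Fin.sum_univ_four]
      simp only [wt, Matrix.cons_val_zero, Matrix.cons_val_one, Matrix.cons_val]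
      ring
    rw [h2] at h1
    exact hom_quot hg2h hg2 h1
  choose d hd hdh using key N hNdeg hN
  have hlin : ∀ j, ∃ c : Fin 3 → k, d j = ∑ i, C (c i) * X i := fun j => lin_form (hdh j)
  choose c hc using hlin
  set Λ : Matrix (Fin 5) (Fin 3) k := Matrix.of fun j l => (-1) ^ (j : ℕ) * c j l with hΛ
  have hΛd : ∀ j : Fin 5, ∑ l, C (Λ j l) * X l = (-1) ^ (j : ℕ) * d j := by
    intro j
    rw [hc j, Finset.mul_sum]
    refine Finset.sum_congr rfl fun l _ => ?_
    simp only [Λ, Matrix.of_apply, C_mul, C_pow, C_neg, C_1]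
    ring
  have hrel : ∀ i, ∑ j, (∑ l, C (Λ j l) * X l) * N j i = 0 := by
    intro i
    have h1 := cramer_rel N i
    have h2 : g ^ 2 * ∑ j, (∑ l, C (Λ j l) * X l) * N j i = 0 := by
      rw [← h1, Finset.mul_sum]
      refine Finset.sum_congr rfl fun j _ => ?_
      rw [hΛd, hd]; ring
    exact (mul_eq_zero.1 h2).resolve_left hg2
  have hΛ0 : Λ ≠ 0 := by
    intro h0
    obtain ⟨j, hj⟩ := hrank
    apply hj
    have h1 := hΛd j
    rw [h0] at h1
    simp only [Matrix.zero_apply, C_0, zero_mul, Finset.sum_const_zero] at h1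
    have h2 : d j = 0 := by
      have h3 : (-1 : MvPolynomial (Fin 3) k) ^ (j : ℕ) ≠ 0 :=
        pow_ne_zero _ (neg_ne_zero.2 one_ne_zero)
      exact (mul_eq_zero.1 h1.symm).resolve_left h3
    rw [hd, h2, mul_zero]
  have hspan := span_lemma φ hφl W r hr N hNdeg hN hind hΦ Λ hΛ0 hrel
  obtain ⟨G, hGu, hG⟩ := exists_complete Λ hspan
  obtain ⟨GC, hGC⟩ : ∃ GC : Matrix (Fin 5) (Fin 5) (MvPolynomial (Fin 3) k),
      GC = (RingHom.mapMatrix (C : k →+* MvPolynomial (Fin 3) k)) G := ⟨_, rfl⟩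
  have hGCe : ∀ i j, GC i j = C (G i j) := fun i j => by rw [hGC]; rfl
  obtain ⟨N', hN'⟩ : ∃ N' : Matrix (Fin 5) (Fin 4) (MvPolynomial (Fin 3) k),
      N' = GC.transpose * N := ⟨_, rfl⟩
  have hN'e : ∀ j i, N' j i = ∑ m, C (G m j) * N m i := fun j i => by
    rw [hN', Matrix.mul_apply]
    refine Finset.sum_congr rfl fun m _ => ?_
    rw [Matrix.transpose_apply, hGCe]
  have hN'deg : ∀ j i, (N' j i).IsHomogeneous (r + wt i) := by
    intro j i
    rw [hN'e]
    exact IsHomogeneous.sum _ _ _ fun m _ => (hNdeg m i).C_mul _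
  have hN'W : ∀ w ∈ W, N'.map φ *ᵥ w = 0 := by
    intro w hw
    rw [hN', Matrix.map_mul, ← Matrix.mulVec_mulVec, hN w hw, Matrix.mulVec_zero]
  have hτ : tau k ᵥ* N' = 0 := by
    funext i
    rw [Pi.zero_apply, ← hrel i]
    simp only [Matrix.vecMul, dotProduct, hN'e]
    rw [Fin.sum_univ_five]
    have t0 : tau k 0 = (X 0 : MvPolynomial (Fin 3) k) := rfl
    have t1 : tau k 1 = (X 1 : MvPolynomial (Fin 3) k) := rfl
    have t2 : tau k 2 = (X 2 : MvPolynomial (Fin 3) k) := rfl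
    have t3 : tau k 3 = (0 : MvPolynomial (Fin 3) k) := rfl
    have t4 : tau k 4 = (0 : MvPolynomial (Fin 3) k) := rfl
    have g0 : ∀ m, G m 0 = Λ m 0 := fun m => hG m 0
    have g1 : ∀ m, G m 1 = Λ m 1 := fun m => hG m 1
    have g2 : ∀ m, G m 2 = Λ m 2 := fun m => hG m 2
    simp only [t0, t1, t2, t3, t4, g0, g1, g2, zero_mul, add_zero, Finset.mul_sum,
      ← Finset.sum_add_distrib, Fin.sum_univ_three]
    refine Finset.sum_congr rfl fun m _ => ?_
    ring
  have hdet0 : (N'.submatrix (Fin.succAbove 0) id).det ≠ 0 := by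
    intro h0
    obtain ⟨v, hv0, hv⟩ := Matrix.exists_mulVec_eq_zero_iff.2 h0
    have h1 : N' *ᵥ v = 0 := by
      have h2 : ∀ j : Fin 4, (N' *ᵥ v) j.succ = 0 := fun j => congrFun hv j
      have h3 : tau k ⬝ᵥ (N' *ᵥ v) = 0 := by
        rw [Matrix.dotProduct_mulVec, hτ, zero_dotProduct]
      rw [dotProduct, Fin.sum_univ_succ] at h3
      simp only [h2, mul_zero, Finset.sum_const_zero, add_zero] at h3
      have h4 : (N' *ᵥ v) 0 = 0 := (mul_eq_zero.1 h3).resolve_left (X_ne_zero (R := k) 0)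
      funext j
      exact Fin.cases h4 h2 j
    have h5 : N *ᵥ v = 0 := by
      have hu : IsUnit GC.transpose := by
        rw [Matrix.isUnit_transpose, hGC]
        exact hGu.map (RingHom.mapMatrix (C : k →+* MvPolynomial (Fin 3) k))
      obtain ⟨u, hu⟩ := hu
      rw [hN', ← Matrix.mulVec_mulVec, ← hu] at h1
      have h6 := congrArg (fun x => (↑u⁻¹ : Matrix (Fin 5) (Fin 5) (MvPolynomial (Fin 3) k)) *ᵥ x)
        h1
      simpa [Matrix.mulVec_mulVec] using h6
    obtain ⟨j, hj⟩ := hrank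
    apply hv0
    apply Matrix.eq_zero_of_mulVec_eq_zero hj
    funext i
    exact congrFun h5 (j.succAbove i)
  obtain ⟨d', hd', hd'h⟩ := key N' hN'deg hN'W 0
  obtain ⟨e, he⟩ : (X 0 : MvPolynomial (Fin 3) k) ∣ d' := by
    have h1 := cofactor_rel N' hτ hdet0 0
    have h2 : (X 0 : MvPolynomial (Fin 3) k) ∣ (N'.submatrix (Fin.succAbove 0) id).det * X 1 :=
      Dvd.intro _ h1
    have hp := X_prime (R := k) (i := (0 : Fin 3))
    have h3 := (hp.dvd_or_dvd h2).resolve_right (X_not_dvd_X (by decide))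
    rw [hd'] at h3
    refine (hp.dvd_or_dvd h3).resolve_left fun h4 => hX0g (hp.dvd_of_dvd_pow h4)
  have heh : e.IsHomogeneous 0 := by
    rw [he] at hd'h
    exact hom_quot (m := 1) (n := 0) (isHomogeneous_X _ _) (X_ne_zero 0) hd'h
  rw [← totalDegree_zero_iff_isHomogeneous, totalDegree_eq_zero_iff_eq_C] at heh
  refine ⟨N', hN'deg, hN'W, hτ, coeff 0 e, ?_, ?_⟩
  · intro h0
    rw [h0, map_zero] at heh
    rw [heh, mul_zero] at he
    apply hdet0
    rw [hd', he, mul_zero]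
  · rw [hd', he, ← heh]; ring

end Scroll

end Vale.Agent.P287.H925
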